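import Vale.Agent.P092CP.Gram

/-!
P092, block P: the grading of `B` and of `M` by the lattice.
-/

set_option linter.unusedSectionVars false
set_option linter.unusedVariables false

open scoped InnerProductSpace ENNReal NNReal
open MeasureTheory Filter Topology ContinuousLinearMap

namespace Vale.Agent.P092CP

open Vale.Agent.P092.RC (Cm Moore)

variable {G G' K : Type} [Group G] [TopologicalSpace G] [IsTopologicalGroup G]
  [LocallyCompactSpace G] [SecondCountableTopology G] [T2Space G] [MeasurableSpace G] [BorelSpace G]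
  [Group G'] [TopologicalSpace G'] [IsTopologicalGroup G'] [LocallyCompactSpace G']
  [SecondCountableTopology G'] [T2Space G'] [MeasurableSpace G'] [BorelSpace G']
  [NormedAddCommGroup K] [InnerProductSpace ℂ K] [CompleteSpace K] {μ : Measure G}
  [μ.IsHaarMeasure] {μ' : Measure G'} [μ'.IsHaarMeasure] {W : Set (K →L[ℂ] K)}
  {T T' a x y : K →L[ℂ] K} {A : Set G}

namespace Side

variable (S : Side μ W) {γ γ' δ : S.Γ}

/-- `T` moves the position from `x` to `x γ⁻¹` -/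
def Deg (γ : S.Γ) (T : K →L[ℂ] K) : Prop :=
  ∀ f : G → ℂ, Bd f → T * S.m f = S.m (fun x => f (x * γ)) * T

/-- the component of degree `γ` -/
noncomputable def fc (γ : S.Γ) (T : K →L[ℂ] K) : K →L[ℂ] K :=
  gram Measure.count (fun δ : S.Γ => S.P (S.cell (γ * δ)))
    fun δ : S.Γ => S.P (S.cell (γ * δ)) * T * S.P (S.cell δ)

theorem cell_mul (γ δ : S.Γ) : S.cell (γ * δ) = (fun x => x * (γ : G)) ⁻¹' S.cell δ := by
  ext x; simp [cell, mul_assoc]

theorem cell_part (γ : S.Γ) (x : G) : ∃! δ, x ∈ S.cell (γ * δ) := by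
  simp only [cell_mul]
  exact S.fund (x * γ)

theorem ext_part {ι : Type*} [Countable ι] {A : ι → Set G} (hA : ∀ i, MeasurableSet (A i))
    (h : ∀ x, ∃! i, x ∈ A i) (e : ∀ i, T * S.P (A i) = T' * S.P (A i)) : T = T' := by
  have h1 : adjoint (T - T') = 0 := ContinuousLinearMap.ext fun ξ => by
    have h2 := S.enorm_tsum_P hA h (adjoint (T - T') ξ)
    have h3 : ∀ i, S.P (A i) (adjoint (T - T') ξ) = 0 := fun i => by
      rw [← S.adjoint_P (hA i), ← mul_ap, ← adj_mul, sub_mul, e, sub_self, map_zero]; rfl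
    simp only [h3, enorm_zero, zero_pow two_ne_zero, tsum_zero, pow_eq_zero_iff two_ne_zero,
      enorm_eq_zero] at h2
    exact h2
  rw [← sub_eq_zero, ← adjoint_adjoint (T - T'), h1, map_zero]

theorem ext_cell (e : ∀ δ, T * S.P (S.cell δ) = T' * S.P (S.cell δ)) : T = T' :=
  have := S.cnt
  S.ext_part S.meas_cell S.fund e

theorem sqi_cell (γ : S.Γ) : SqI Measure.count (fun δ : S.Γ => S.P (S.cell (γ * δ))) 1 :=
  have := S.cnt
  ⟨fun ξ => StronglyMeasurable.of_discrete.aestronglyMeasurable, zero_le_one, fun ξ => by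
    rw [lintegral_count, ← S.enorm_tsum_P (fun δ => S.meas_cell _) (S.cell_part γ)]; simp⟩

theorem sqi_fc (γ : S.Γ) (T : K →L[ℂ] K) : SqI Measure.count
    (fun δ : S.Γ => S.P (S.cell (γ * δ)) * T * S.P (S.cell δ)) (‖T‖ * 1) :=
  have := S.cnt
  (S.sqi_cell 1).mono (fun ξ => StronglyMeasurable.of_discrete.aestronglyMeasurable)
    (norm_nonneg _) fun δ ξ => by
      rw [one_mul]
      exact ((S.P _).le_of_opNorm_le (S.norm_P_le (S.meas_cell _)) _).trans
        ((one_mul _).trans_le (T.le_opNorm _))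

theorem norm_fc_le (γ : S.Γ) (T : K →L[ℂ] K) : ‖S.fc γ T‖ ≤ ‖T‖ := by
  simpa [fc] using (S.sqi_cell γ).norm_gram (S.sqi_fc γ T)

theorem P_cell_ne (h : γ ≠ δ) : S.P (S.cell γ) * S.P (S.cell δ) = 0 := by
  rw [S.P_mul (S.meas_cell _) (S.meas_cell _), Set.eq_empty_of_forall_notMem
    (s := S.cell γ ∩ S.cell δ) fun x hx => h ((S.fund x).unique hx.1 hx.2), P_empty]

theorem fc_cell (γ δ : S.Γ) (T : K →L[ℂ] K) :
    S.fc γ T * S.P (S.cell δ) = S.P (S.cell (γ * δ)) * T * S.P (S.cell δ) :=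
  ContinuousLinearMap.ext fun η => ext_inner_left ℂ fun ξ => by
    have := S.cnt
    rw [mul_ap, fc, (S.sqi_cell γ).inner_gram (S.sqi_fc γ T),
      ← setIntegral_eq_integral_of_forall_compl_eq_zero
      (s := {δ}) fun ε hε => by rw [← mul_ap, mul_assoc, S.P_cell_ne hε, mul_zero]; simp,
      integral_singleton, Measure.real, Measure.count_singleton, ENNReal.toReal_one, one_smul,
      ← adjoint_inner_right,
      S.adjoint_P (S.meas_cell _), ← mul_ap, ← mul_ap, ← mul_assoc, ← mul_assoc,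
      S.P_sq (S.meas_cell _), mul_assoc, S.P_sq (S.meas_cell _)]

theorem cm_fc (hT : Cm W T) : Cm W (S.fc γ T) :=
  (S.sqi_cell γ).gram_cm (S.sqi_fc γ T) fun δ => by
    rw [S.adjoint_P (S.meas_cell _)]
    exact cm_mul (S.cm_P (S.meas_cell _))
      (cm_mul (cm_mul (S.cm_P (S.meas_cell _)) hT) (S.cm_P (S.meas_cell _)))

theorem fc_Ω (γ : S.Γ) (T : K →L[ℂ] K) : S.fc γ T S.Ω = S.P (S.cell γ) (T S.Ω) := by
  have h := ap_eq (S.fc_cell γ 1 T) S.Ω
  rwa [mul_one, cell_one, mul_ap, mul_ap, mul_ap, S.P_Ω] at h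

theorem fc_add (γ : S.Γ) (T T' : K →L[ℂ] K) : S.fc γ (T + T') = S.fc γ T + S.fc γ T' :=
  S.ext_cell fun δ => by simp only [add_mul, fc_cell, mul_add]

theorem fc_sub (γ : S.Γ) (T T' : K →L[ℂ] K) : S.fc γ (T - T') = S.fc γ T - S.fc γ T' :=
  S.ext_cell fun δ => by simp only [sub_mul, fc_cell, mul_sub]

theorem fc_smul (γ : S.Γ) (c : ℂ) (T : K →L[ℂ] K) : S.fc γ (c • T) = c • S.fc γ T :=
  S.ext_cell fun δ => by simp only [smul_mul_assoc, fc_cell, mul_smul_comm]

theorem deg_fc (hT : Cm W T) : S.Deg γ (S.fc γ T) := fun f hf => S.ext_cell fun δ => by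
  have hb : Bd fun x => f (S.r x * (δ : G)⁻¹) := hf.comp (S.meas_r.mul_const _)
  have h1 : S.m f * S.P (S.cell δ) = S.P (S.cell δ) * S.m fun x => f (S.r x * (δ : G)⁻¹) := by
    rw [P, ← S.m_mul hf (Bd.ind (S.meas_cell _)), ← S.m_mul (Bd.ind (S.meas_cell _)) hb]
    congr 1
    funext x
    by_cases h : x ∈ S.cell δ
    · simp [h, S.r_eq h]
    · simp [h]
  have h2 : S.m (fun x => f (x * γ)) * S.P (S.cell (γ * δ)) =
      S.P (S.cell (γ * δ)) * S.m fun x => f (S.r x * (δ : G)⁻¹) := by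
    rw [P, ← S.m_mul (hf.comp (measurable_mul_const _)) (Bd.ind (S.meas_cell _)),
      ← S.m_mul (Bd.ind (S.meas_cell _)) hb]
    congr 1
    funext x
    by_cases h : x ∈ S.cell (γ * δ)
    · simp [h, S.r_eq h, mul_assoc]
    · simp [h]
  have h3 : ∀ T, Cm W T → T * S.m (fun x => f (S.r x * (δ : G)⁻¹)) =
      S.m (fun x => f (S.r x * (δ : G)⁻¹)) * T := S.cen _ hb fun x ε => by rw [S.r_mul]
  rw [mul_assoc, h1, ← mul_assoc, fc_cell, mul_assoc (S.m _), fc_cell, ← mul_assoc, ← mul_assoc, h2,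
    mul_assoc (S.P _) T, mul_assoc, h3 _ (cm_mul hT (S.cm_P (S.meas_cell _)))]
  simp only [mul_assoc]

variable {S}

theorem Deg.P (h : S.Deg γ T) (hA : MeasurableSet A) :
    T * S.P A = S.P ((fun x => x * (γ : G)) ⁻¹' A) * T := h _ (Bd.ind hA)

theorem Deg.mul (h : S.Deg γ T) (h' : S.Deg γ' T') : S.Deg (γ * γ') (T * T') := fun f hf => by
  rw [mul_assoc, h' f hf, ← mul_assoc, h _ (hf.comp (measurable_mul_const _)), mul_assoc]
  simp only [Subgroup.coe_mul, mul_assoc]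

theorem Deg.adj (h : S.Deg γ T) : S.Deg γ⁻¹ (adjoint T) := fun f hf => by
  have hb := hf.comp (measurable_mul_const ((γ⁻¹ : S.Γ) : G))
  have h1 := congrArg adjoint (h _ hb.star)
  rw [adj_mul, adj_mul, S.adjoint_m hb.star, star_star, S.adjoint_m
    (hb.star.comp (measurable_mul_const _))] at h1
  rw [h1]
  congr 2
  funext x
  simp

theorem Deg.add (h : S.Deg γ T) (h' : S.Deg γ T') : S.Deg γ (T + T') := fun f hf => by
  rw [add_mul, mul_add, h f hf, h' f hf]

theorem Deg.smul (c : ℂ) (h : S.Deg γ T) : S.Deg γ (c • T) := fun f hf => by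
  rw [smul_mul_assoc, mul_smul_comm, h f hf]

theorem deg_one : S.Deg 1 1 := fun f hf => by simp

theorem Deg.fc_eq (h : S.Deg γ T) : S.fc γ T = T := S.ext_cell fun δ => by
  rw [fc_cell, mul_assoc, h.P (S.meas_cell δ), ← mul_assoc, ← cell_mul, S.P_sq (S.meas_cell _)]

theorem Deg.fc_ne (h : S.Deg γ T) (e : γ' ≠ γ) : S.fc γ' T = 0 := S.ext_cell fun δ => by
  rw [fc_cell, mul_assoc, h.P (S.meas_cell δ), ← mul_assoc, ← cell_mul,
    S.P_cell_ne fun h => e (mul_right_cancel h), zero_mul, zero_mul]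

variable (S)

theorem fc_P (hT : Cm W T) (hA : MeasurableSet A) (h : A ⊆ S.cell δ) :
    S.fc γ T * S.P A = S.P ((fun x => x * (γ : G)) ⁻¹' A) * T * S.P A := by
  have h1 : S.P (S.cell δ) * S.P A = S.P A := by
    rw [S.P_mul (S.meas_cell _) hA, Set.inter_eq_right.2 h]
  have h2 := S.P_mul (measurable_mul_const (γ : G) hA) (S.meas_cell (γ * δ))
  rw [cell_mul, Set.inter_eq_left.2 (Set.preimage_mono h), ← cell_mul] at h2
  calc _ = S.fc γ T * S.P A * (S.P (S.cell δ) * S.P A) := by rw [h1, mul_assoc, S.P_sq hA]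
    _ = _ := by
      rw [(S.deg_fc hT).P hA, mul_assoc, ← mul_assoc (S.fc γ T), fc_cell, mul_assoc, h1,
        ← mul_assoc, ← mul_assoc, h2]

/-- the grading is invariant under the group -/
theorem fc_conj (hT : Cm W T) (g : G) :
    S.fc γ (S.π g * T * S.π g⁻¹) = S.π g * S.fc γ T * S.π g⁻¹ := by
  have := S.cnt
  have hm : ∀ p : S.Γ × S.Γ, MeasurableSet (S.cell p.1 ∩ (fun x => g⁻¹ * x) ⁻¹' S.cell p.2) :=
    fun p => (S.meas_cell _).inter (measurable_const_mul _ (S.meas_cell _))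
  refine S.ext_part hm (fun x => ?_) fun p => ?_
  · obtain ⟨a, h1, h2⟩ := S.fund x
    obtain ⟨b, h3, h4⟩ := S.fund (g⁻¹ * x)
    exact ⟨(a, b), ⟨h1, h3⟩, fun p hp => Prod.ext (h2 _ hp.1) (h4 _ hp.2)⟩
  · have h1 := S.π_P (hm p) g⁻¹
    have h2 := measurable_const_mul g⁻¹⁻¹ (hm p)
    rw [S.fc_P (S.conj T hT g) (hm p) Set.inter_subset_left, mul_assoc (S.π g * S.fc γ T), h1,
      ← mul_assoc (S.π g * S.fc γ T), mul_assoc (S.π g) (S.fc γ T),
      S.fc_P (δ := p.2) hT h2 fun x hx => by simpa using hx.2, ← mul_assoc, ← mul_assoc,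
      ← mul_assoc, ← mul_assoc, S.π_P (measurable_mul_const _ h2), mul_assoc _ (S.π g⁻¹), h1,
      ← mul_assoc]
    congr 5
    ext x
    simp [mul_assoc]

theorem M_fc (hx : S.M x) : S.M (S.fc γ x) :=
  ⟨S.cm_fc hx.1, cp_of_conj fun g => by rw [← S.fc_conj hx.1, hx.2.conj]⟩

theorem fc_comm {V : K →L[ℂ] K} (h : ∀ δ, V * S.P (S.cell δ) = S.P (S.cell δ) * V) :
    (V * S.fc γ T = S.fc γ (V * T)) ∧ S.fc γ T * V = S.fc γ (T * V) :=
  ⟨S.ext_cell fun δ => by
      rw [mul_assoc, fc_cell, fc_cell, ← mul_assoc, ← mul_assoc, h, mul_assoc _ V],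
    S.ext_cell fun δ => by
      rw [mul_assoc, h, ← mul_assoc, fc_cell, fc_cell, mul_assoc _ _ V, ← h]
      simp only [mul_assoc]⟩

theorem hasSum_P {ι : Type*} [Countable ι] {A : ι → Set G} (hA : ∀ i, MeasurableSet (A i))
    (h : ∀ x, ∃! i, x ∈ A i) (ξ : K) : HasSum (fun i => S.P (A i) ξ) ξ := by
  classical
  have h1 := S.tendsto_m (l := atTop) (C := 1)
    (F := fun F : Finset ι => (⋃ i ∈ F, A i).indicator 1)
    (fun F => (Bd.ind (Finset.measurableSet_biUnion F fun i _ => hA i)).meas)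
    (fun F x => by by_cases h : x ∈ ⋃ i ∈ F, A i <;> simp only [h, Set.indicator_apply] <;> simp)
    Bd.one (Eventually.of_forall fun x => tendsto_const_nhds.congr' (by
      obtain ⟨i, hi, -⟩ := h x
      filter_upwards [eventually_ge_atTop {i}] with F hF
      exact (Set.indicator_of_mem (Set.mem_iUnion₂.2 ⟨i, hF (Finset.mem_singleton_self i), hi⟩)
        _).symm)) ξ
  rw [m_one] at h1
  refine h1.congr fun F => ?_
  rw [Finset.indicator_biUnion _ _ fun i _ j _ hij => Set.disjoint_left.2 fun x a b =>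
    hij ((h x).unique a b)]
  have h2 := ap_eq (S.m_sum F fun i _ => Bd.ind (hA i)) ξ
  rw [sum_apply] at h2
  exact Eq.trans (by congr; funext x; rw [Finset.sum_apply]) h2

/-- the Fourier expansion in `L²` -/
theorem hasSum_fc (T : K →L[ℂ] K) : HasSum (fun γ => S.fc γ T S.Ω) (T S.Ω) := by
  have := S.cnt
  simpa only [fc_Ω] using S.hasSum_P S.meas_cell S.fund (T S.Ω)

theorem adj_fc (hT : Cm W T) (hT' : Cm W (adjoint T)) :
    adjoint (S.fc γ T) = S.fc γ⁻¹ (adjoint T) := S.ext_cell fun δ => by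
  rw [fc_cell, ← S.adjoint_P (S.meas_cell δ), ← S.adjoint_P (S.meas_cell (γ⁻¹ * δ)), ← adj_mul,
    ← adj_mul, ← adj_mul, ← mul_assoc]
  have h := S.fc_cell γ (γ⁻¹ * δ) T
  rw [mul_inv_cancel_left] at h
  rw [← h, (S.deg_fc hT).P (S.meas_cell _), ← cell_mul, mul_inv_cancel_left]

end Side

theorem Cpl.fc_α (C : Cpl μ μ' W) (γ : C.t.Γ) (g : G) (T : K →L[ℂ] K) :
    C.t.fc γ (C.V g * T * C.V g⁻¹) = C.V g * C.t.fc γ T * C.V g⁻¹ := by
  have h : ∀ g δ, C.V g * C.t.P (C.t.cell δ) = C.t.P (C.t.cell δ) * C.V g := fun g δ =>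
    C.V_m g (Bd.ind (C.t.meas_cell δ))
  rw [(C.t.fc_comm (h g)).1, (C.t.fc_comm (h g⁻¹)).2]

end Vale.Agent.P092CP
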