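import Vale.Agent.P092CP.Tr

/-!
P092, block P: the trace of a coupling, the finite algebra `M = C.t.M` with its trace `τ` and the
action `σ` of the source. Everything holds for the other side by `Cpl.swap`.
-/

set_option linter.unusedSectionVars false
set_option linter.unusedVariables false

open scoped InnerProductSpace ENNReal NNReal
open MeasureTheory Filter Topology ContinuousLinearMap

namespace Vale.Agent.P092CP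

open Vale.Agent.P092.RC (Cm)

variable {G G' K : Type} [Group G] [TopologicalSpace G] [IsTopologicalGroup G]
  [LocallyCompactSpace G] [SecondCountableTopology G] [T2Space G] [MeasurableSpace G] [BorelSpace G]
  [Group G'] [TopologicalSpace G'] [IsTopologicalGroup G'] [LocallyCompactSpace G']
  [SecondCountableTopology G'] [T2Space G'] [MeasurableSpace G'] [BorelSpace G']
  [NormedAddCommGroup K] [InnerProductSpace ℂ K] [CompleteSpace K] {μ : Measure G}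
  [μ.IsHaarMeasure] {μ' : Measure G'} [μ'.IsHaarMeasure] {W : Set (K →L[ℂ] K)}
  {T a x y : K →L[ℂ] K}

/-- polarisation for a conjugate linear isometry -/
theorem inner_of_anti {E : Type*} [NormedAddCommGroup E] [InnerProductSpace ℂ E] {u v u' v' : E}
    (h : ∀ c : ℂ, ‖u' + star c • v'‖ = ‖u + c • v‖) : ⟪u', v'⟫_ℂ = ⟪v, u⟫_ℂ := by
  have h1 := h 1
  have h2 := h (-1)
  have h3 := h Complex.I
  have h4 := h (-Complex.I)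
  simp only [star_one, one_smul, star_neg, neg_smul, ← sub_eq_add_neg, Complex.star_def,
    Complex.conj_I, neg_neg] at h1 h2 h3 h4
  rw [← inner_conj_symm v, inner_eq_sum_norm_sq_div_four, inner_eq_sum_norm_sq_div_four]
  simp only [RCLike.I_to_complex, h1, h2, h3, h4, map_div₀, map_add, map_sub, map_mul, map_pow,
    Complex.conj_I, RCLike.conj_ofReal, map_ofNat]
  ring

theorem enorm_star' {E : Type*} [SeminormedAddCommGroup E] [StarAddMonoid E] [NormedStarGroup E]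
    (u : E) : ‖star u‖ₑ = ‖u‖ₑ := by rw [← ofReal_norm, norm_star, ofReal_norm]

theorem norm_of_enorm_sq {E F : Type*} [NormedAddCommGroup E] [NormedAddCommGroup F] {u : E}
    {v : F} (h : ‖u‖ₑ ^ 2 = ‖v‖ₑ ^ 2) : ‖u‖ = ‖v‖ := by
  simp only [enorm_eq_nnnorm] at h
  have h1 : ‖u‖₊ ^ 2 = ‖v‖₊ ^ 2 := by exact_mod_cast h
  exact congrArg NNReal.toReal ((pow_left_inj₀ zero_le zero_le two_ne_zero).1 h1)

theorem norm_le_of_enorm_sq {E F : Type*} [NormedAddCommGroup E] [NormedAddCommGroup F] {u : E}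
    {v : F} {c : ℝ} (hc : 0 ≤ c) (h : ‖u‖ₑ ^ 2 ≤ ENNReal.ofReal c ^ 2 * ‖v‖ₑ ^ 2) :
    ‖u‖ ≤ c * ‖v‖ := by
  rw [← mul_pow, ENNReal.pow_le_pow_left_iff two_ne_zero, ← ofReal_norm, ← ofReal_norm,
    ← ENNReal.ofReal_mul hc] at h
  exact (ENNReal.ofReal_le_ofReal_iff (by positivity)).1 h

namespace Side

variable (S : Side μ W)

theorem M_one : S.M 1 := ⟨cm_one, cp_iff.2 cm_one⟩

theorem M_zero : S.M 0 := ⟨cm_zero, cp_iff.2 cm_zero⟩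

variable {S}

theorem M.mul (hx : S.M x) (hy : S.M y) : S.M (x * y) :=
  ⟨cm_mul hx.1 hy.1, cp_iff.2 (cm_mul (cp_iff.1 hx.2) (cp_iff.1 hy.2))⟩

theorem M.add (hx : S.M x) (hy : S.M y) : S.M (x + y) :=
  ⟨cm_add hx.1 hy.1, cp_iff.2 (cm_add (cp_iff.1 hx.2) (cp_iff.1 hy.2))⟩

theorem M.sub (hx : S.M x) (hy : S.M y) : S.M (x - y) :=
  ⟨cm_sub hx.1 hy.1, cp_iff.2 (cm_sub (cp_iff.1 hx.2) (cp_iff.1 hy.2))⟩

theorem M.smul (c : ℂ) (hx : S.M x) : S.M (c • x) :=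
  ⟨cm_smul c hx.1, cp_iff.2 (cm_smul c (cp_iff.1 hx.2))⟩

theorem M.sum {ι : Type*} (s : Finset ι) {F : ι → K →L[ℂ] K} (h : ∀ i ∈ s, S.M (F i)) :
    S.M (∑ i ∈ s, F i) := Finset.sum_induction _ _ (fun _ _ => M.add) S.M_zero h

theorem M.pow (hx : S.M x) (n : ℕ) : S.M (x ^ n) :=
  ⟨cm_pow hx.1 n, cp_iff.2 (cm_pow (cp_iff.1 hx.2) n)⟩

theorem M.cfcR (hx : S.M x) (f : ℝ → ℝ) : S.M (cfc f x) :=
  ⟨cm_cfcR hx.1 f, cp_iff.2 (cm_cfcR (cp_iff.1 hx.2) f)⟩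

theorem M.of_weak {ι : Type*} {l : Filter ι} [l.NeBot] {F : ι → K →L[ℂ] K}
    (hF : ∀ᶠ i in l, S.M (F i)) (h : ∀ ξ η, Tendsto (fun i => ⟪η, F i ξ⟫_ℂ) l (𝓝 ⟪η, x ξ⟫_ℂ)) :
    S.M x :=
  ⟨cm_of_weak (hF.mono fun _ h => h.1) h, cp_iff.2 (cm_of_weak (hF.mono fun _ h => cp_iff.1 h.2) h)⟩

variable (S)

theorem range_adj : ∀ w ∈ Set.range S.π, adjoint w ∈ Set.range S.π := by
  rintro _ ⟨g, rfl⟩
  exact ⟨g⁻¹, (S.adj g).symm⟩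

theorem cp_adj (hx : Cp S.π x) : Cp S.π (adjoint x) := cp_iff.2 (cm_adj S.range_adj (cp_iff.1 hx))

theorem M_iff : S.M x ↔ Cm (W ∪ Set.range S.π) x :=
  ⟨fun h w hw => hw.elim (h.1 w) (cp_iff.1 h.2 w),
    fun h => ⟨fun w hw => h w (.inl hw), cp_iff.2 fun w hw => h w (.inr hw)⟩⟩

theorem τ_one : S.τ 1 = 1 := by
  change ⟪S.Ω, S.Ω⟫_ℂ = 1
  rw [inner_self_eq_norm_sq_to_K, S.nΩ]; simp

theorem τ_add (x y : K →L[ℂ] K) : S.τ (x + y) = S.τ x + S.τ y := inner_add_right _ _ _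

theorem τ_sub (x y : K →L[ℂ] K) : S.τ (x - y) = S.τ x - S.τ y := inner_sub_right _ _ _

theorem τ_smul (c : ℂ) (x : K →L[ℂ] K) : S.τ (c • x) = c * S.τ x := inner_smul_right _ _ _

theorem τ_adj_mul (x y : K →L[ℂ] K) : S.τ (adjoint x * y) = ⟪x S.Ω, y S.Ω⟫_ℂ := by
  rw [τ, mul_ap, adjoint_inner_right]

theorem τ_adj (x : K →L[ℂ] K) : S.τ (adjoint x) = star (S.τ x) := by
  rw [τ, adjoint_inner_right, ← inner_conj_symm]; rfl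

theorem norm_τ_le (x : K →L[ℂ] K) : ‖S.τ x‖ ≤ ‖x S.Ω‖ :=
  (norm_inner_le_norm _ _).trans (by rw [S.nΩ, one_mul])

theorem norm_Ω_le (x : K →L[ℂ] K) : ‖x S.Ω‖ ≤ ‖x‖ := (x.le_opNorm _).trans (by rw [S.nΩ, mul_one])

theorem conj_mul (g : G) (x y : K →L[ℂ] K) :
    S.π g * (x * y) * S.π g⁻¹ = (S.π g * x * S.π g⁻¹) * (S.π g * y * S.π g⁻¹) := by
  simp only [mul_assoc]
  rw [← mul_assoc (S.π g⁻¹), pi_inv_mul, one_mul]

theorem conj_adj (g : G) (x : K →L[ℂ] K) :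
    adjoint (S.π g * x * S.π g⁻¹) = S.π g * adjoint x * S.π g⁻¹ := by
  rw [← star_eq_adjoint, star_mul, star_mul, star_π, star_π, inv_inv, mul_assoc]; rfl

theorem conj_conj (g h : G) (x : K →L[ℂ] K) :
    S.π g * (S.π h * x * S.π h⁻¹) * S.π g⁻¹ = S.π (g * h) * x * S.π (g * h)⁻¹ := by
  rw [mul_inv_rev, map_mul, map_mul]; simp only [mul_assoc]

theorem norm_conj_le (g : G) (x : K →L[ℂ] K) : ‖S.π g * x * S.π g⁻¹‖ ≤ ‖x‖ :=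
  opNorm_le_bound _ (norm_nonneg _) fun ξ => by
    rw [mul_ap, mul_ap, S.norm_π, ← S.norm_π g⁻¹ ξ]; exact x.le_opNorm _

theorem cont_conj (x : K →L[ℂ] K) (ξ : K) : Continuous fun g => (S.π g * x * S.π g⁻¹) ξ := by
  have hv : Continuous fun g => x (S.π g⁻¹ ξ) :=
    x.continuous.comp ((S.cont ξ).comp continuous_inv)
  refine continuous_iff_continuousAt.2 fun g₀ => ?_
  have h2 : Tendsto (fun g => S.π g (x (S.π g⁻¹ ξ) - x (S.π g₀⁻¹ ξ))) (𝓝 g₀) (𝓝 0) := by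
    rw [tendsto_zero_iff_norm_tendsto_zero]
    simp_rw [S.norm_π]
    exact tendsto_iff_norm_sub_tendsto_zero.1 (hv.tendsto g₀)
  have h3 := ((S.cont (x (S.π g₀⁻¹ ξ))).tendsto g₀).add h2
  rw [add_zero] at h3
  exact h3.congr fun g => by rw [map_sub, add_sub_cancel]; rfl

end Side

namespace Cpl

variable (C : Cpl μ μ' W)

@[simp] theorem swap_s : C.swap.s = C.t := rfl

@[simp] theorem swap_t : C.swap.t = C.s := rfl

include C in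
theorem adj_cm (hT : Cm W T) : Cm W (adjoint T) := cm_adj C.Wadj hT

theorem M_adj (hx : C.t.M x) : C.t.M (adjoint x) := ⟨C.adj_cm hx.1, C.t.cp_adj hx.2⟩

theorem M_cfc (hx : C.t.M x) (f : ℂ → ℂ) : C.t.M (cfc f x) :=
  ⟨cm_cfc C.Wadj hx.1 f, cp_iff.2 (cm_cfc C.t.range_adj (cp_iff.1 hx.2) f)⟩

theorem κ_ne' : (C.κ : ℝ≥0∞) ≠ 0 := ENNReal.coe_ne_zero.2 C.κ_ne

theorem Tr_fin (hT : Cm W T) : C.s.Tr T ≠ ∞ ↔ C.t.Tr T ≠ ∞ := by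
  rw [C.tr_eq T hT]
  exact ⟨fun h h' => h (by rw [h', ENNReal.mul_top C.κ_ne']), ENNReal.mul_ne_top ENNReal.coe_ne_top⟩

theorem Tr_mul_le (hT : Cm W T) (ha : Cm W a) : C.t.Tr (T * a) ≤ ‖a‖ₑ ^ 2 * C.t.Tr T := by
  rw [← C.tr_adj _ (cm_mul hT ha), ← star_eq_adjoint, star_mul, ← C.tr_adj T hT, ← enorm_star' a]
  exact C.t.Tr_mul_le _ _

theorem Tr_s_mul (T : K →L[ℂ] K) (g : G) : C.t.Tr (C.s.π g * T) = C.t.Tr T :=
  C.t.Tr_congr fun ξ => C.s.norm_π g _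

/-- the trace is invariant under the source -/
theorem Tr_σ (hT : Cm W T) (g : G) : C.t.Tr (C.s.π g * T * C.s.π g⁻¹) = C.t.Tr T := by
  refine (ENNReal.mul_right_inj C.κ_ne' ENNReal.coe_ne_top).1 ?_
  rw [← C.tr_eq _ (C.s.conj T hT g), ← C.tr_eq T hT, C.s.Tr_conj]

theorem Tr_mul_s (hT : Cm W T) (g : G) : C.t.Tr (T * C.s.π g) = C.t.Tr T := by
  have h := C.Tr_σ hT g⁻¹
  rwa [inv_inv, mul_assoc, Tr_s_mul] at h

theorem cp_σ (hx : Cp C.t.π x) (g : G) : Cp C.t.π (C.s.π g * x * C.s.π g⁻¹) := fun h => by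
  rw [mul_assoc, C.comm, ← mul_assoc, mul_assoc _ x, hx h, ← mul_assoc, C.comm]
  simp only [mul_assoc]

theorem M_σ (hx : C.t.M x) (g : G) : C.t.M (C.s.π g * x * C.s.π g⁻¹) :=
  ⟨C.s.conj x hx.1 g, C.cp_σ hx.2 g⟩

theorem Tr_mul_m (hx : C.t.M x) {f : G' → ℂ} (hf : Bd f) :
    C.t.Tr (x * C.t.m f) = (∫⁻ y, ‖f y‖ₑ ^ 2 ∂μ') * ‖adjoint x C.t.Ω‖ₑ ^ 2 := by
  rw [← C.tr_adj _ (cm_mul hx.1 (C.t.cm_m hf)), ← star_eq_adjoint, star_mul, C.t.star_m hf,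
    C.t.Tr_m_mul hf.star (show Cp C.t.π (star x) from C.t.cp_adj hx.2)]
  simp only [Pi.star_apply, enorm_star', star_eq_adjoint]

theorem norm_adj_Ω (hx : C.t.M x) : ‖adjoint x C.t.Ω‖ = ‖x C.t.Ω‖ := by
  refine norm_of_enorm_sq ((ENNReal.mul_right_inj C.t.vol_ne C.t.vol).1 ?_)
  rw [← C.t.Tr_mul_PD hx.1, ← C.t.Tr_P_mul C.t.mD (C.t.cp_adj hx.2),
    ← C.tr_adj _ (cm_mul hx.1 (C.t.cm_P C.t.mD)), ← star_eq_adjoint (x * _), star_mul,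
    star_eq_adjoint, star_eq_adjoint, C.t.adjoint_P C.t.mD]

theorem Tr_mul_m' (hx : C.t.M x) {f : G' → ℂ} (hf : Bd f) :
    C.t.Tr (x * C.t.m f) = (∫⁻ y, ‖f y‖ₑ ^ 2 ∂μ') * ‖x C.t.Ω‖ₑ ^ 2 := by
  rw [C.Tr_mul_m hx hf, ← ofReal_norm, C.norm_adj_Ω hx, ofReal_norm]

theorem inner_adj_Ω (hx : C.t.M x) (hy : C.t.M y) :
    ⟪adjoint x C.t.Ω, adjoint y C.t.Ω⟫_ℂ = ⟪y C.t.Ω, x C.t.Ω⟫_ℂ :=
  inner_of_anti fun c => by
    have h := C.norm_adj_Ω (hx.add (hy.smul c))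
    rwa [map_add, map_smulₛₗ] at h

/-- `τ` is a trace on `M` -/
theorem τ_comm (hx : C.t.M x) (hy : C.t.M y) : C.t.τ (x * y) = C.t.τ (y * x) := by
  have h := C.inner_adj_Ω hx (C.M_adj hy)
  rwa [adjoint_adjoint, ← Side.τ_adj_mul, ← Side.τ_adj_mul, adjoint_adjoint, adjoint_adjoint] at h

theorem norm_mul_Ω (hx : C.t.M x) (ha : C.t.M a) : ‖x (a C.t.Ω)‖ ≤ ‖a‖ * ‖x C.t.Ω‖ := by
  rw [← mul_ap, ← C.norm_adj_Ω (hx.mul ha), ← star_eq_adjoint, star_mul, ← C.norm_adj_Ω hx,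
    ← norm_star a]
  exact (star a).le_opNorm _

/-- `Ω` is separating for `M` -/
theorem eq_zero_of_Ω (hx : C.t.M x) (h : x C.t.Ω = 0) : x = 0 :=
  C.tr_zero x hx.1 (by rw [C.t.Tr_cp hx.2, h]; simp)

theorem eq_of_Ω (hx : C.t.M x) (hy : C.t.M y) (h : x C.t.Ω = y C.t.Ω) : x = y :=
  sub_eq_zero.1 (C.eq_zero_of_Ω (hx.sub hy) (by rw [sub_apply, h, sub_self]))

/-- `τ` is invariant under the source -/
theorem τ_σ (hx : C.t.M x) (g : G) : C.t.τ (C.s.π g * x * C.s.π g⁻¹) = C.t.τ x := by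
  obtain ⟨u, hu, h1, h2⟩ := C.exu g⁻¹
  have e : C.t.τ (C.s.π g * x * C.s.π g⁻¹) = C.t.τ (adjoint u * (x * u)) := by
    rw [Side.τ_adj_mul, mul_ap, h2, ← C.s.adj g, adjoint_inner_left, C.s.adj]; rfl
  rw [e, C.τ_comm (C.M_adj hu) (hx.mul hu), mul_assoc, ← star_eq_adjoint, h1.2, mul_one]

theorem inner_σ (hx : C.t.M x) (hy : C.t.M y) (g : G) :
    ⟪(C.s.π g * x * C.s.π g⁻¹) C.t.Ω, (C.s.π g * y * C.s.π g⁻¹) C.t.Ω⟫_ℂ =
      ⟪x C.t.Ω, y C.t.Ω⟫_ℂ := by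
  rw [← Side.τ_adj_mul, ← Side.τ_adj_mul, Side.conj_adj, ← Side.conj_mul,
    C.τ_σ ((C.M_adj hx).mul hy)]

theorem norm_σ_Ω (hx : C.t.M x) (g : G) : ‖(C.s.π g * x * C.s.π g⁻¹) C.t.Ω‖ = ‖x C.t.Ω‖ := by
  rw [norm_eq_sqrt_re_inner (𝕜 := ℂ), C.inner_σ hx hx, ← norm_eq_sqrt_re_inner]

theorem norm_s_Ω (hx : C.t.M x) (g : G) : ‖x (C.s.π g C.t.Ω)‖ = ‖x C.t.Ω‖ := by
  rw [← C.norm_σ_Ω hx g⁻¹, inv_inv, mul_ap, mul_ap, C.s.norm_π]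

/-- exact double stochasticity -/
theorem lint_tm {f : G' → ℂ} (hf : Bd f) :
    ∫⁻ g, ‖C.t.m f (C.s.π g C.s.Ω)‖ₑ ^ 2 ∂μ = C.κ * ∫⁻ y, ‖f y‖ₑ ^ 2 ∂μ' := by
  rw [← C.t.Tr_m hf, ← C.tr_eq _ (C.t.cm_m hf)]; rfl

theorem lint_tP {A : Set G'} (hA : MeasurableSet A) :
    ∫⁻ g, ‖C.t.P A (C.s.π g C.s.Ω)‖ₑ ^ 2 ∂μ = C.κ * μ' A := by
  rw [← C.t.Tr_P hA, ← C.tr_eq _ (C.t.cm_P hA)]; rfl

theorem eq_zero_of_orbit (hT : Cm W T) (h : ∀ g, T (C.t.π g C.t.Ω) = 0) : T = 0 :=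
  C.tr_zero T hT (by simp [Side.Tr, h])

end Cpl

end Vale.Agent.P092CP
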