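import Vale.Agent.P092CP.Gns

/-!
P092, block P: the Hilbert spaces `L²(M)` and `L²(B, Tr)` with their unitary representations;
ergodicity.
-/

set_option linter.unusedSectionVars false
set_option linter.unusedVariables false

open scoped InnerProductSpace ENNReal NNReal
open MeasureTheory Filter Topology ContinuousLinearMap

namespace Vale.Agent.P092CP

open Vale.Agent.P092.RC (Cm Moore)
open Vale.Agent.P092.H325 (exists_ulim)

variable {G G' K : Type} [Group G] [TopologicalSpace G] [IsTopologicalGroup G]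
  [LocallyCompactSpace G] [SecondCountableTopology G] [T2Space G] [MeasurableSpace G] [BorelSpace G]
  [Group G'] [TopologicalSpace G'] [IsTopologicalGroup G'] [LocallyCompactSpace G']
  [SecondCountableTopology G'] [T2Space G'] [MeasurableSpace G'] [BorelSpace G']
  [NormedAddCommGroup K] [InnerProductSpace ℂ K] [CompleteSpace K] {μ : Measure G}
  [μ.IsHaarMeasure] {μ' : Measure G'} [μ'.IsHaarMeasure] {W : Set (K →L[ℂ] K)}
  {T T' a x y : K →L[ℂ] K}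

/-- a point in the closure of an image is a limit along an ultrafilter -/
theorem exists_ultra {E H : Type*} [TopologicalSpace H] {s : Set E} {v : E → H} {η : H}
    (h : η ∈ closure (v '' s)) :
    ∃ U : Ultrafilter s, Tendsto (fun d : s => v d) U (𝓝 η) := by
  have : (comap (fun d : s => v d) (𝓝 η)).NeBot := comap_neBot fun t ht => by
    obtain ⟨_, h1, d, hd, rfl⟩ := mem_closure_iff_nhds.1 h t ht
    exact ⟨⟨d, hd⟩, h1⟩
  exact ⟨Ultrafilter.of (comap (fun d : s => v d) (𝓝 η)),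
    tendsto_comap.mono_left (Ultrafilter.of_le _)⟩

namespace Side

variable (S : Side μ W)

theorem Tr_par (T T' : K →L[ℂ] K) : S.Tr (T + T') + S.Tr (T - T') = 2 * S.Tr T + 2 * S.Tr T' := by
  rw [Tr, Tr, Tr, Tr, ← lintegral_const_mul _ (S.meas_π T _),
    ← lintegral_const_mul _ (S.meas_π T' _), ← lintegral_add_left ((S.meas_π T _).const_mul 2),
    ← lintegral_add_left (S.meas_π _ _)]
  refine lintegral_congr fun g => ?_
  have h := parallelogram_law_with_nnnorm ℂ (T (S.π g S.Ω)) (T' (S.π g S.Ω))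
  simp only [enorm_eq_nnnorm, add_apply, sub_apply, ← mul_add]
  exact_mod_cast h

/-- weak convergence without loss of trace is convergence in `L²(B, Tr)` -/
theorem tendsto_hs {ι : Type*} {l : Filter ι} {F : ι → K →L[ℂ] K} (hF : ∀ᶠ i in l, Cm W (F i))
    (hT : Cm W T) (h0 : S.Tr T ≠ ∞)
    (h : ∀ ξ η, Tendsto (fun i => ⟪η, F i ξ⟫_ℂ) l (𝓝 ⟪η, T ξ⟫_ℂ))
    (hc : ∀ δ, 0 < δ → ∀ᶠ i in l, S.Tr (F i) ≤ S.Tr T + δ) :
    Tendsto (fun i => S.Tr (F i - T)) l (𝓝 0) := by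
  refine ENNReal.tendsto_nhds_zero.2 fun ε hε => ?_
  rcases eq_or_ne ε ∞ with rfl | h1
  · exact Eventually.of_forall fun _ => le_top
  by_contra h2
  obtain ⟨δ, rfl⟩ : ∃ δ, ε = 2 * δ + 2 * δ := ⟨ε / 2 / 2, by
    rw [two_mul, ENNReal.add_halves, ENNReal.add_halves]⟩
  have h3 : 2 * δ ≠ 0 := fun e => by simp [e] at hε
  have h4 : ∃ᶠ i in l, S.Tr (F i + T) + 2 * δ ≤ 2 * S.Tr T + 2 * S.Tr T :=
    ((not_eventually.1 h2).and_eventually (hc δ (pos_iff_ne_zero.2 fun e => by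
      simp [e] at h3))).mono fun i hi => by
    refine (ENNReal.add_le_add_iff_right (a := 2 * δ) (ne_top_of_le_ne_top h1 le_self_add)).1 ?_
    calc _ ≤ S.Tr (F i + T) + S.Tr (F i - T) := by
          rw [add_assoc]; gcongr; exact (not_le.1 hi.1).le
      _ ≤ 2 * (S.Tr T + δ) + 2 * S.Tr T := by rw [Tr_par]; gcongr; exact hi.2
      _ = _ := by ring
  have h5 := S.Tr_le_of_weak (T := T + T) (hF.mono fun i hi => cm_add hi hT) (fun ξ η => by
    simpa only [add_apply, inner_add_right] using (h ξ η).add_const ⟪η, T ξ⟫_ℂ)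
    (h4.mono fun i hi => ENNReal.le_sub_of_add_le_right
      (ne_top_of_le_ne_top h1 le_self_add) hi)
  have h6 := S.Tr_par T T
  rw [sub_self, Tr_zero, add_zero] at h6
  obtain ⟨i, hi⟩ := h4.exists
  exact (ENNReal.sub_lt_self (by finiteness) (fun e => h3 (by simpa [e] using
    (le_add_self.trans hi))) h3).not_ge (h6 ▸ h5)

/-- dominated convergence for left multiplication, along any filter -/
theorem tendsto_Tr_mul {ι : Type*} {l : Filter ι} {F : ι → K →L[ℂ] K} {C : ℝ}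
    (hF : ∀ᶠ i in l, Cm W (F i) ∧ ‖F i‖ ≤ C) (h : ∀ ξ, Tendsto (fun i => F i ξ) l (𝓝 0))
    (hT : Cm W T) (h0 : S.Tr T ≠ ∞) : Tendsto (fun i => S.Tr (F i * T)) l (𝓝 0) := by
  have e : ∀ {R}, Cm W R → S.Tr R ≠ ∞ → S.Tr R = μ S.D * ENNReal.ofReal (∑' γ, ‖R (S.Om γ)‖ ^ 2) ∧
      Summable fun γ => ‖R (S.Om γ)‖ ^ 2 := fun {R} hR h1 => by
    rw [S.Tr_eq_tsum hR] at h1 ⊢
    have h2 : ∑' γ, ‖R (S.Om γ)‖ₑ ^ 2 ≠ ∞ := fun e => h1 (by rw [e, ENNReal.mul_top S.vol_ne])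
    have h3 : Summable fun γ => ‖R (S.Om γ)‖ ^ 2 := by
      simpa using ENNReal.summable_toReal h2
    refine ⟨?_, h3⟩
    simp only [ENNReal.ofReal_tsum_of_nonneg (fun _ => sq_nonneg _) h3,
      ENNReal.ofReal_pow (norm_nonneg _), ofReal_norm]
  have h1 := tendsto_tsum_of_dominated_convergence (𝓕 := l)
    (f := fun i γ => ‖(F i * T) (S.Om γ)‖ ^ 2) (g := fun _ => 0) ((e hT h0).2.mul_left (C ^ 2))
    (fun γ => by simpa using (h (T (S.Om γ))).norm.pow 2) (hF.mono fun i hi γ => by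
      rw [Real.norm_of_nonneg (sq_nonneg _), ← mul_pow]
      exact pow_le_pow_left₀ (norm_nonneg _) ((F i).le_of_opNorm_le hi.2 _) 2)
  have h2 := ENNReal.Tendsto.const_mul (a := μ S.D) (ENNReal.tendsto_ofReal h1) (.inr S.vol)
  rw [tsum_zero, ENNReal.ofReal_zero, mul_zero] at h2
  exact h2.congr' (hF.mono fun i hi => (e (cm_mul hi.1 hT)
    (ne_top_of_le_ne_top (by finiteness) (S.Tr_mul_le _ _))).1.symm)

/-- the finite algebra as a submodule -/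
def MS : Submodule ℂ (K →L[ℂ] K) where
  carrier := {x | S.M x}
  zero_mem' := S.M_zero
  add_mem' := M.add
  smul_mem' := fun c _ => M.smul c

/-- `L²(M) ⊆ K` -/
abbrev LM : Submodule ℂ K := cl S.MS fun x => x S.Ω

/-- `x ↦ x Ω` -/
noncomputable def vM : (K →L[ℂ] K) → S.LM := pv S.MS fun x => x S.Ω

theorem coe_vM (hx : S.M x) : (S.vM x : K) = x S.Ω := coe_pv (D := S.MS) hx

theorem norm_vM (hx : S.M x) : ‖S.vM x‖ = ‖x S.Ω‖ := by rw [← S.coe_vM hx]; rfl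

theorem inner_vM (hx : S.M x) (hy : S.M y) : ⟪S.vM x, S.vM y⟫_ℂ = ⟪x S.Ω, y S.Ω⟫_ℂ := by
  rw [← S.coe_vM hx, ← S.coe_vM hy]; rfl

theorem gnsM : Gns S.MS S.vM := gns_pv (fun _ _ _ _ => rfl) fun _ _ _ => rfl

/-- the Hilbert-Schmidt ideal -/
def HS : Submodule ℂ (K →L[ℂ] K) where
  carrier := {T | Cm W T ∧ S.Tr T ≠ ∞}
  zero_mem' := ⟨cm_zero, by simp [Tr_zero]⟩
  add_mem' := fun h h' => ⟨cm_add h.1 h'.1, S.Tr_add_ne h.2 h'.2⟩
  smul_mem' := fun c _ h => ⟨cm_smul c h.1, by have := h.2; rw [Tr_smul]; finiteness⟩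

open Classical in
/-- the orbit map `g ↦ T π(g) ξ` in `L²(G; K)` -/
noncomputable def orb (ξ : K) (T : K →L[ℂ] K) : Lp K 2 μ :=
  if h : MemLp (fun g => T (S.π g ξ)) 2 μ then h.toLp _ else 0

theorem orb_ae {ξ : K} (h : ∫⁻ g, ‖T (S.π g ξ)‖ₑ ^ 2 ∂μ ≠ ∞) :
    ⇑(S.orb ξ T) =ᵐ[μ] fun g => T (S.π g ξ) := by
  have h1 := eLpNorm_nnreal_pow_eq_lintegral (f := fun g => T (S.π g ξ)) (μ := μ) (p := 2)
    (by norm_num)
  have h2 : MemLp (fun g => T (S.π g ξ)) 2 μ :=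
    ⟨(T.continuous.comp (S.cont ξ)).aestronglyMeasurable, lt_top_iff_ne_top.2 fun e => h (by
      simpa [e] using h1.symm)⟩
  rw [orb, dif_pos h2]
  exact h2.coeFn_toLp

/-- `L²(B, Tr) ⊆ L²(G; K)` -/
noncomputable abbrev LB : Submodule ℂ (Lp K 2 μ) := cl S.HS (S.orb S.Ω)

/-- `T ↦ (g ↦ T π(g) Ω)` -/
noncomputable def vB : (K →L[ℂ] K) → S.LB := pv S.HS (S.orb S.Ω)

theorem vB_ae (hT : T ∈ S.HS) : ⇑(S.vB T : Lp K 2 μ) =ᵐ[μ] fun g => T (S.π g S.Ω) := by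
  rw [vB, coe_pv hT]; exact S.orb_ae hT.2

theorem enorm_vB (hT : T ∈ S.HS) : ‖S.vB T‖ₑ ^ 2 = S.Tr T :=
  (enorm_sq (S.vB T : Lp K 2 μ)).trans
    (lintegral_congr_ae ((S.vB_ae hT).mono fun g hg => by simp only [hg]))

theorem norm_vB (hT : T ∈ S.HS) : ‖S.vB T‖ ^ 2 = (S.Tr T).toReal := by
  rw [← S.enorm_vB hT, ENNReal.toReal_pow, toReal_enorm]

theorem inner_vB (hT : T ∈ S.HS) (hT' : T' ∈ S.HS) :
    ⟪S.vB T, S.vB T'⟫_ℂ = ∫ g, ⟪T (S.π g S.Ω), T' (S.π g S.Ω)⟫_ℂ ∂μ := by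
  rw [Submodule.coe_inner, L2.inner_def]
  refine integral_congr_ae ?_
  filter_upwards [S.vB_ae hT, S.vB_ae hT'] with g h1 h2
  rw [h1, h2]

theorem gnsB : Gns S.HS S.vB := gns_pv
  (fun x a y b => Lp.ext <| by
    filter_upwards [S.orb_ae (S.HS.add_mem a b).2, S.orb_ae a.2, S.orb_ae b.2,
      Lp.coeFn_add (S.orb S.Ω x) (S.orb S.Ω y)] with g h1 h2 h3 h4
    rw [h1, h4, Pi.add_apply, h2, h3]; rfl)
  fun c x a => Lp.ext <| by
    filter_upwards [S.orb_ae (S.HS.smul_mem c a).2, S.orb_ae a.2,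
      Lp.coeFn_smul c (S.orb S.Ω x)] with g h1 h2 h3
    rw [h1, h3, Pi.smul_apply, h2]; rfl

theorem tendsto_vB {ι : Type*} {l : Filter ι} {F : ι → K →L[ℂ] K} (hF : ∀ᶠ i in l, F i ∈ S.HS)
    (hT : T ∈ S.HS) (h : Tendsto (fun i => S.Tr (F i - T)) l (𝓝 0)) :
    Tendsto (fun i => S.vB (F i)) l (𝓝 (S.vB T)) :=
  tendsto_of_enorm_sq (h.congr' (hF.mono fun i hi => by
    simp only [← S.gnsB.sub hi hT, S.enorm_vB (S.HS.sub_mem hi hT)]))

theorem eq_zero_of_cp [NoncompactSpace G] (hT : Cp S.π T) (h : S.Tr T ≠ ∞) : S.Tr T = 0 := by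
  rw [S.Tr_cp hT, measure_univ_of_isMulLeftInvariant] at h ⊢
  by_contra h1
  exact h (ENNReal.top_mul (mul_ne_zero_iff.1 h1).2)

end Side

namespace Cpl

variable (C : Cpl μ μ' W)

theorem bimM : Bim {x | C.t.M x} C.t.MS C.t.vM where
  toGns := C.t.gnsM
  adjA a ha := C.M_adj ha
  mulD a ha d hd := Side.M.mul ha hd
  adjD d hd := C.M_adj hd
  inn a ha d hd d' hd' := by
    rw [C.t.inner_vM ((C.M_adj ha).mul hd) hd', C.t.inner_vM hd (Side.M.mul ha hd'), mul_ap,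
      adjoint_inner_left, mul_ap]
  le a ha d hd := by
    rw [C.t.norm_vM (Side.M.mul ha hd), C.t.norm_vM hd]; exact a.le_opNorm _
  iso d hd := by rw [C.t.norm_vM (C.M_adj hd), C.t.norm_vM hd, C.norm_adj_Ω hd]
  inj d hd h := C.eq_zero_of_Ω hd (by rw [← C.t.coe_vM hd, h]; rfl)
  clo r := isClosed_of_closure_subset fun η hη => by
    obtain ⟨U, hU⟩ := exists_ultra hη
    obtain ⟨y, h1, h2⟩ := exists_ulim U (fun d => d.1) r fun d => d.2.2
    have h3 : C.t.M y := Side.M.of_weak (Eventually.of_forall fun d => d.2.1) fun ξ ζ => h2 ζ ξ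
    refine ⟨y, ⟨h3, h1⟩, Subtype.ext (ext_inner_left ℂ fun ζ => ?_)⟩
    rw [C.t.coe_vM h3]
    refine tendsto_nhds_unique (h2 ζ _) ?_
    exact (tendsto_const_nhds.inner ((continuous_subtype_val.tendsto η).comp hU)).congr fun d => by
      rw [Function.comp, C.t.coe_vM d.2.1]

theorem admM : Adm {x | C.t.M x} C.t.MS C.t.vM C.s.π where
  bim := C.bimM
  adj := C.s.adj
  memA g a ha := C.M_σ ha g
  memD g a ha := C.M_σ ha g
  nrm := C.s.norm_conj_le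
  iso g d hd := by rw [C.t.norm_vM (C.M_σ hd g), C.t.norm_vM hd, C.norm_σ_Ω hd]
  cont d hd := continuous_induced_rng.2 ((C.s.cont_conj d C.t.Ω).congr fun g =>
    (C.t.coe_vM (C.M_σ hd g)).symm)

theorem coe_L (ha : C.t.M a) (ξ : C.t.LM) : (Lm C.t.MS C.t.vM a ξ : K) = a ξ :=
  C.bimM.fext (f := fun ξ => (Lm C.t.MS C.t.vM a ξ : K)) (g := fun ξ => a ξ) (by fun_prop)
    (by fun_prop) (fun d hd => by
      rw [C.bimM.L_v ha hd, C.t.coe_vM (ha.mul hd), C.t.coe_vM hd, mul_ap]) ξ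

/-- **ergodicity on `M`** -/
theorem erg {S : Set G} (hS : Moore S) (hx : C.t.M x) (h : ∀ g ∈ S, x * C.s.π g = C.s.π g * x) :
    ∃ z : ℂ, x = z • (1 : K →L[ℂ] K) := C.irr x hx.1 (C.admM.cp_of_moore hS hx h) hx.2

theorem erg_τ {S : Set G} (hS : Moore S) (hx : C.t.M x) (h : ∀ g ∈ S, x * C.s.π g = C.s.π g * x) :
    x = C.t.τ x • (1 : K →L[ℂ] K) := by
  obtain ⟨z, rfl⟩ := C.erg hS hx h
  rw [Side.τ_smul, Side.τ_one, mul_one]

theorem rep_one (g : G) : C.admM.rep g (C.t.vM 1) = C.t.vM 1 := by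
  rw [C.admM.rep_v g C.t.M_one, mul_one, pi_mul_inv]

/-- **ergodicity on `L²(M)`** -/
theorem fix_M {S : Set G} (hS : Moore S) {ξ : C.t.LM} (h : ∀ g ∈ S, C.admM.rep g ξ = ξ)
    (h1 : ⟪ξ, C.t.vM 1⟫_ℂ = 0) : ξ = 0 := C.bimM.eq_zero fun d hd => by
  obtain ⟨y, hy, -, h2, h3⟩ := C.admM.exists_fix ⊤ (fun g _ => C.admM.moore hS h g) hd
  obtain ⟨z, rfl⟩ := C.irr y hy.1 (fun g => h2 g trivial) hy.2
  rw [← h3, C.bimM.smul z 1 C.t.M_one, inner_smul_right, h1, mul_zero]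

theorem bimB : Bim {a | Cm W a} C.t.HS C.t.vB where
  toGns := C.t.gnsB
  adjA a ha := C.adj_cm ha
  mulD a ha d hd := ⟨cm_mul ha hd.1, ne_top_of_le_ne_top (by have := hd.2; finiteness)
    (C.t.Tr_mul_le a d)⟩
  adjD d hd := ⟨C.adj_cm hd.1, by rw [C.tr_adj d hd.1]; exact hd.2⟩
  inn a ha d hd d' hd' := by
    have e : ∀ {a d}, Cm W a → d ∈ C.t.HS → a * d ∈ C.t.HS := fun {a d} ha hd =>
      ⟨cm_mul ha hd.1, ne_top_of_le_ne_top (by have := hd.2; finiteness) (C.t.Tr_mul_le a d)⟩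
    rw [C.t.inner_vB (e (C.adj_cm ha) hd) hd', C.t.inner_vB hd (e ha hd')]
    simp only [mul_ap, adjoint_inner_left]
  le a ha d hd := norm_le_of_enorm_sq (norm_nonneg _) (by
    rw [C.t.enorm_vB hd, C.t.enorm_vB ⟨cm_mul ha hd.1, ne_top_of_le_ne_top
      (by have := hd.2; finiteness) (C.t.Tr_mul_le a d)⟩, ofReal_norm]
    exact C.t.Tr_mul_le a d)
  iso d hd := norm_of_enorm_sq (by
    rw [C.t.enorm_vB hd, C.t.enorm_vB ⟨C.adj_cm hd.1, by rw [C.tr_adj d hd.1]; exact hd.2⟩,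
      C.tr_adj d hd.1])
  inj d hd h := C.tr_zero d hd.1 (by rw [← C.t.enorm_vB hd, h]; simp)
  clo r := isClosed_of_closure_subset fun η hη => by
    obtain ⟨U, hU⟩ := exists_ultra hη
    obtain ⟨y, h1, h2⟩ := exists_ulim U (fun d => d.1) r fun d => d.2.2
    have h3 : Cm W y := cm_of_weak (Eventually.of_forall fun d => d.2.1.1) fun ξ ζ => h2 ζ ξ
    have h4 : ∀ d ∈ C.t.HS, C.t.Tr (y - d) ≤ ‖η - C.t.vB d‖ₑ ^ 2 := fun d hd => by
      refine ENNReal.le_of_forall_pos_le_add fun ε hε h5 => C.t.Tr_le_of_weak (l := U.toFilter)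
        (F := fun e => e.1 - d) (Eventually.of_forall fun e => cm_sub e.2.1.1 hd.1) (fun ξ ζ => by
          simpa only [sub_apply, inner_sub_right] using (h2 ζ ξ).sub_const _)
        (Eventually.frequently ?_)
      have h6 := (ENNReal.continuous_pow 2).continuousAt.tendsto.comp
        (hU.sub_const (C.t.vB d)).enorm
      filter_upwards [h6.eventually (ge_mem_nhds (ENNReal.lt_add_right h5.ne
        (ENNReal.coe_ne_zero.2 hε.ne')))] with e he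
      rwa [← C.t.enorm_vB (C.t.HS.sub_mem e.2.1 hd), C.t.gnsB.sub e.2.1 hd]
    have h5 : y ∈ C.t.HS := ⟨h3, ne_top_of_le_ne_top (ENNReal.pow_ne_top enorm_ne_top)
      (by simpa using h4 0 C.t.HS.zero_mem)⟩
    refine ⟨y, ⟨h5, h1⟩, tendsto_nhds_unique (C.t.tendsto_vB (Eventually.of_forall fun d => d.2.1)
      h5 ?_) hU⟩
    have h6 := (ENNReal.continuous_pow 2).continuousAt.tendsto.comp
      (tendsto_iff_enorm_sub_tendsto_zero.1 hU)
    rw [zero_pow two_ne_zero] at h6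
    refine tendsto_of_tendsto_of_tendsto_of_le_of_le tendsto_const_nhds h6 (fun _ => zero_le)
      fun d => ?_
    simpa only [Function.comp, C.t.Tr_sub_comm _ y, enorm_sub_rev _ η] using h4 d d.2.1

theorem adm_of {G₁ : Type} [Group G₁] [TopologicalSpace G₁] [IsTopologicalGroup G₁]
    [LocallyCompactSpace G₁] [SecondCountableTopology G₁] [T2Space G₁] [MeasurableSpace G₁]
    [BorelSpace G₁] {μ₁ : Measure G₁} [μ₁.IsHaarMeasure] (S : Side μ₁ W)
    (h : ∀ T, Cm W T → ∀ g, C.t.Tr (S.π g * T * S.π g⁻¹) = C.t.Tr T) :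
    Adm {a | Cm W a} C.t.HS C.t.vB S.π :=
  have e : ∀ g, ∀ d ∈ C.t.HS, S.π g * d * S.π g⁻¹ ∈ C.t.HS := fun g d hd =>
    ⟨S.conj d hd.1 g, by rw [h d hd.1]; exact hd.2⟩
  { bim := C.bimB
    adj := S.adj
    memA := fun g a ha => S.conj a ha g
    memD := e
    nrm := S.norm_conj_le
    iso := fun g d hd => norm_of_enorm_sq (by
      rw [C.t.enorm_vB hd, C.t.enorm_vB (e g d hd), h d hd.1])
    cont := fun d hd => continuous_iff_continuousAt.2 fun g => C.t.tendsto_vB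
      (Eventually.of_forall fun g => e g d hd) (e g d hd) (C.t.tendsto_hs
        (Eventually.of_forall fun g => (e g d hd).1) (e g d hd).1 (e g d hd).2
        (fun ξ η => tendsto_const_nhds.inner ((S.cont_conj d ξ).tendsto g))
        fun δ _ => Eventually.of_forall fun g' => by
          rw [h d hd.1, h d hd.1]; exact le_self_add) }

/-- the source acts on `L²(B, Tr)` -/
theorem admσ : Adm {a | Cm W a} C.t.HS C.t.vB C.s.π := C.adm_of C.s fun _ hT => C.Tr_σ hT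

/-- the target acts on `L²(B, Tr)` -/
theorem admβ : Adm {a | Cm W a} C.t.HS C.t.vB C.t.π := C.adm_of C.t fun T _ => C.t.Tr_conj T

theorem rep_comm (g : G) (h : G') : C.admσ.rep g * C.admβ.rep h = C.admβ.rep h * C.admσ.rep g :=
  C.bimB.ext fun d hd => by
    rw [mul_ap, mul_ap, C.admσ.rep_v g hd, C.admβ.rep_v h hd, C.admσ.rep_v g (C.admβ.memD h d hd),
      C.admβ.rep_v h (C.admσ.memD g d hd)]
    simp only [← mul_assoc, C.comm]
    simp only [mul_assoc, C.comm]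

theorem hs_zero_s [NoncompactSpace G] (hT : T ∈ C.t.HS) (h : Cp C.s.π T) : T = 0 :=
  C.swap.tr_zero T hT.1 (C.s.eq_zero_of_cp h ((C.Tr_fin hT.1).2 hT.2))

theorem hs_zero_t [NoncompactSpace G'] (hT : T ∈ C.t.HS) (h : Cp C.t.π T) : T = 0 :=
  C.tr_zero T hT.1 (C.t.eq_zero_of_cp h hT.2)

/-- **ergodicity on the Hilbert-Schmidt ideal** -/
theorem hs_erg [NoncompactSpace G] {S : Set G} (hS : Moore S) (hT : Cm W T) (h0 : C.t.Tr T ≠ ∞)
    (h : ∀ g ∈ S, T * C.s.π g = C.s.π g * T) : T = 0 :=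
  C.hs_zero_s ⟨hT, h0⟩ (C.admσ.cp_of_moore hS ⟨hT, h0⟩ h)

theorem hs_erg' [NoncompactSpace G'] {S : Set G'} (hS : Moore S) (hT : Cm W T) (h0 : C.t.Tr T ≠ ∞)
    (h : ∀ g ∈ S, T * C.t.π g = C.t.π g * T) : T = 0 :=
  C.hs_zero_t ⟨hT, h0⟩ (C.admβ.cp_of_moore hS ⟨hT, h0⟩ h)

theorem fix_σ [NoncompactSpace G] {S : Set G} (hS : Moore S) {ξ : C.t.LB}
    (h : ∀ g ∈ S, C.admσ.rep g ξ = ξ) : ξ = 0 := C.bimB.eq_zero fun d hd => by
  obtain ⟨y, hy, -, h2, h3⟩ := C.admσ.exists_fix ⊤ (fun g _ => C.admσ.moore hS h g) hd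
  rw [← h3, C.hs_zero_s hy fun g => h2 g trivial, C.bimB.zero, inner_zero_right]

theorem fix_β [NoncompactSpace G'] {S : Set G'} (hS : Moore S) {ξ : C.t.LB}
    (h : ∀ g ∈ S, C.admβ.rep g ξ = ξ) : ξ = 0 := C.bimB.eq_zero fun d hd => by
  obtain ⟨y, hy, -, h2, h3⟩ := C.admβ.exists_fix ⊤ (fun g _ => C.admβ.moore hS h g) hd
  rw [← h3, C.hs_zero_t hy fun g => h2 g trivial, C.bimB.zero, inner_zero_right]

/-- left multiplication on `L²(B, Tr)` is strongly continuous on bounded sets -/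
theorem tendsto_L {ι : Type*} {l : Filter ι} {F : ι → K →L[ℂ] K} {c : ℝ}
    (hF : ∀ᶠ i in l, Cm W (F i) ∧ ‖F i‖ ≤ c) (ha : Cm W a)
    (h : ∀ ξ, Tendsto (fun i => F i ξ) l (𝓝 (a ξ))) (ξ : C.t.LB) :
    Tendsto (fun i => Lm C.t.HS C.t.vB (F i) ξ) l (𝓝 (Lm C.t.HS C.t.vB a ξ)) := by
  refine C.bimB.tendsto (C := c) (hF.mono fun i hi ξ => (C.bimB.norm_L hi.1 ξ).trans
    (by gcongr; exact hi.2)) (fun d hd => ?_) ξ
  rw [C.bimB.L_v ha hd]
  refine (C.t.tendsto_vB (hF.mono fun i hi => C.bimB.mulD _ hi.1 d hd) (C.bimB.mulD a ha d hd)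
    ?_).congr' (hF.mono fun i hi => (C.bimB.L_v hi.1 hd).symm)
  simp only [← sub_mul]
  exact C.t.tendsto_Tr_mul (C := c + ‖a‖) (hF.mono fun i hi => ⟨cm_sub hi.1 ha,
    (norm_sub_le _ _).trans (by gcongr; exact hi.2)⟩)
    (fun ξ => tendsto_sub_nhds_zero_iff.2 (h ξ)) hd.1 hd.2

end Cpl

end Vale.Agent.P092CP
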