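import Vale.Agent.P092.RC.Defs
import Vale.Agent.P092.H790.Ind

/-!
P092, block P: the doubly induced picture as an abstract coupling of two unimodular groups.

`B = Cm W` is a semifinite algebra on `K` with two commuting actions, each of them a multiple of
the left regular representation of a group with a lattice.
-/

open scoped InnerProductSpace ENNReal NNReal
open MeasureTheory Filter Topology ContinuousLinearMap

namespace Vale.Agent.P092CP

open Vale.Agent.P092.RC (Cm)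
open Vale.Agent.P092.H790 (fop)

/-- bounded Borel functions -/
structure Bd {X : Type} [MeasurableSpace X] (f : X → ℂ) : Prop where
  meas : Measurable f
  bdd : ∃ C : ℝ, ∀ x, ‖f x‖ ≤ C

/-- multiplication by a scalar function on `L²(X; H)` -/
noncomputable def mulL {X : Type} [MeasurableSpace X] (μ : Measure X) (H : Type)
    [NormedAddCommGroup H] [InnerProductSpace ℂ H] (f : X → ℂ) : Lp H 2 μ →L[ℂ] Lp H 2 μ :=
  fop μ fun x => f x • (1 : H →L[ℂ] H)

variable {G G' K : Type} [Group G] [TopologicalSpace G] [MeasurableSpace G] [Group G']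
  [TopologicalSpace G'] [MeasurableSpace G'] [NormedAddCommGroup K] [InnerProductSpace ℂ K]
  [CompleteSpace K]

/-- `T` commutes with the representation `π` -/
def Cp (π : G →* (K →L[ℂ] K)) (T : K →L[ℂ] K) : Prop := ∀ g, T * π g = π g * T

/-- **One side of a coupling**: `K = L²(G; K₀)`, `π` is the left regular representation, the
multiplication operators lie in `B = Cm W`, those which are right invariant under the lattice `Γ`
are central, and `Ω = 1_D ⊗ ω` is a unit vector, `D` a fundamental domain. -/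
structure Side (μ : Measure G) (W : Set (K →L[ℂ] K)) where
  /-- the representation -/
  π : G →* (K →L[ℂ] K)
  /-- the fibre -/
  K₀ : Type
  [i₁ : NormedAddCommGroup K₀]
  [i₂ : InnerProductSpace ℂ K₀]
  [i₃ : CompleteSpace K₀]
  [i₄ : SecondCountableTopology K₀]
  /-- the position representation -/
  U : K ≃ₗᵢ[ℂ] Lp K₀ 2 μ
  /-- the lattice -/
  Γ : Subgroup G
  /-- the fundamental domain -/
  D : Set G
  /-- the vector in the fibre -/
  ω : K₀
  /-- the trace vector -/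
  Ω : K
  right : μ.IsMulRightInvariant
  inv : μ.IsInvInvariant
  cnt : Countable Γ
  disc : DiscreteTopology Γ
  mD : MeasurableSet D
  vol : μ D ≠ ∞
  fund : ∀ x : G, ∃! γ : Γ, x * γ ∈ D
  loc : ∀ L : Set G, IsCompact L → ∃ L', IsCompact L' ∧ ∀ x ∈ L, ∀ γ : Γ, x * γ ∈ D → x * γ ∈ L'
  UΩ : ⇑(U Ω) =ᵐ[μ] D.indicator fun _ => ω
  nΩ : ‖Ω‖ = 1
  reg : ∀ g ξ, ⇑(U (π g ξ)) =ᵐ[μ] fun x => U ξ (g⁻¹ * x)
  conj : ∀ T, Cm W T → ∀ g, Cm W (π g * T * π g⁻¹)
  cm : ∀ f, Bd f → Cm W (U.symm.conjStarAlgEquiv (mulL μ K₀ f))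
  cen : ∀ f : G → ℂ, Bd f → (∀ (x : G) (γ : Γ), f (x * γ) = f x) → ∀ T, Cm W T →
    T * U.symm.conjStarAlgEquiv (mulL μ K₀ f) = U.symm.conjStarAlgEquiv (mulL μ K₀ f) * T

attribute [instance] Side.i₁ Side.i₂ Side.i₃ Side.i₄

namespace Side

variable {μ : Measure G} {W : Set (K →L[ℂ] K)} (S : Side μ W)

/-- the position calculus -/
noncomputable def m (f : G → ℂ) : K →L[ℂ] K := S.U.symm.conjStarAlgEquiv (mulL μ S.K₀ f)

/-- the position projections -/
noncomputable def P (A : Set G) : K →L[ℂ] K := S.m (A.indicator 1)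

/-- `Tr (T* T)` -/
noncomputable def Tr (T : K →L[ℂ] K) : ℝ≥0∞ := ∫⁻ g, ‖T (S.π g S.Ω)‖ₑ ^ 2 ∂μ

/-- the finite algebra of the fixed points -/
def M (T : K →L[ℂ] K) : Prop := Cm W T ∧ Cp S.π T

/-- the normalised trace of `S.M` -/
noncomputable def τ (T : K →L[ℂ] K) : ℂ := ⟪S.Ω, T S.Ω⟫_ℂ

end Side

/-- **A coupling** of the source `G` and the target `G'`. -/
structure Cpl (μ : Measure G) (μ' : Measure G') (W : Set (K →L[ℂ] K)) where
  /-- the source side -/
  s : Side μ W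
  /-- the target side -/
  t : Side μ' W
  /-- the coupling constant -/
  κ : ℝ≥0
  κ_ne : κ ≠ 0
  sep : SecondCountableTopology K
  Wadj : ∀ w ∈ W, adjoint w ∈ W
  comm : ∀ g h, s.π g * t.π h = t.π h * s.π g
  tr_eq : ∀ T, Cm W T → s.Tr T = κ * t.Tr T
  tr_adj : ∀ T, Cm W T → t.Tr (adjoint T) = t.Tr T
  tr_zero : ∀ T, Cm W T → t.Tr T = 0 → T = 0
  irr : ∀ T, Cm W T → Cp s.π T → Cp t.π T → ∃ z : ℂ, T = z • (1 : K →L[ℂ] K)
  /-- the source moves the trace vector of the target by unitaries of the finite algebra -/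
  exu : ∀ g, ∃ u, t.M u ∧ u ∈ unitary (K →L[ℂ] K) ∧ u t.Ω = s.π g t.Ω
  exu' : ∀ h, ∃ u, s.M u ∧ u ∈ unitary (K →L[ℂ] K) ∧ u s.Ω = t.π h s.Ω
  /-- the source fixes the functions on the quotient of the target -/
  mc : ∀ f : G' → ℂ, Bd f → (∀ (x : G') (γ : t.Γ), f (x * γ) = f x) → ∀ g,
    t.m f * s.π g = s.π g * t.m f
  mc' : ∀ f : G → ℂ, Bd f → (∀ (x : G) (γ : s.Γ), f (x * γ) = f x) → ∀ h,
    s.m f * t.π h = t.π h * s.m f

/-- the flip -/
noncomputable def Cpl.swap {μ : Measure G} {μ' : Measure G'} {W : Set (K →L[ℂ] K)}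
    (C : Cpl μ μ' W) : Cpl μ' μ W where
  s := C.t
  t := C.s
  κ := C.κ⁻¹
  κ_ne := inv_ne_zero C.κ_ne
  sep := C.sep
  Wadj := C.Wadj
  comm g h := (C.comm h g).symm
  tr_eq T hT := by
    rw [C.tr_eq T hT, ← mul_assoc, ← ENNReal.coe_mul, inv_mul_cancel₀ C.κ_ne, ENNReal.coe_one,
      one_mul]
  tr_adj T hT := by
    have h : Cm W (adjoint T) := fun w hw => by
      have h1 := congrArg Star.star (hT _ (C.Wadj w hw))
      rw [star_mul, star_mul, star_eq_adjoint, star_eq_adjoint, adjoint_adjoint] at h1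
      exact h1.symm
    rw [C.tr_eq T hT, C.tr_eq _ h, C.tr_adj T hT]
  tr_zero T hT h := C.tr_zero T hT (by
    rw [C.tr_eq T hT] at h
    exact (mul_eq_zero.1 h).resolve_left (ENNReal.coe_ne_zero.2 C.κ_ne))
  irr T h1 h2 h3 := C.irr T h1 h3 h2
  exu := C.exu'
  exu' := C.exu
  mc := C.mc'
  mc' := C.mc

end Vale.Agent.P092CP
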