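import Vale.Agent.P092CP.Defs

/-!
P092, block P: the fibre data from which a coupling is induced.
-/

open scoped InnerProductSpace ENNReal NNReal
open ContinuousLinearMap

namespace Vale.Agent.P092CP

open Vale.Agent.P092.RC (Cm TRN)

variable {Λ Γ ℋ : Type} [Group Λ] [Group Γ] [NormedAddCommGroup ℋ] [InnerProductSpace ℂ ℋ]
  [CompleteSpace ℋ]

/-- `P` is a fundamental projection for the unitary representation `R`, it commutes with `sc`, and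
`ξ` is a unit vector in its range -/
structure Hon (R : Γ →* (ℋ →L[ℂ] ℋ)) (sc : Set (ℋ →L[ℂ] ℋ)) (P : ℋ →L[ℂ] ℋ) (ξ : ℋ) : Prop where
  adj : ∀ γ, adjoint (R γ) = R γ⁻¹
  sa : adjoint P = P
  idem : P * P = P
  orth : ∀ γ, γ ≠ 1 → P * R γ * P = 0
  sum : ∀ v, ∑' γ, ‖P (R γ v)‖ₑ ^ 2 = ‖v‖ₑ ^ 2
  scP : ∀ a ∈ sc, a * P = P * a
  scR : ∀ a ∈ sc, ∀ γ, a * R γ = R γ * a
  fix : P ξ = ξ
  nrm : ‖ξ‖ = 1

/-- **The fibre of a coupling**: source `V`, target `R`, coefficients `sc` (the third leg and the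
matrix units of the amplification), single trace vectors `η`, `ξ`. -/
structure Fib (V : Λ →* (ℋ →L[ℂ] ℋ)) (R : Γ →* (ℋ →L[ℂ] ℋ)) (sc : Set (ℋ →L[ℂ] ℋ))
    (Q : ℋ →L[ℂ] ℋ) (η : ℋ) (P : ℋ →L[ℂ] ℋ) (ξ : ℋ) (κ : ℝ≥0) : Prop where
  sep : SecondCountableTopology ℋ
  cnt : sc.Countable
  adj : ∀ a ∈ sc, adjoint a ∈ sc
  s : Hon V sc Q η
  t : Hon R sc P ξ
  comm : ∀ l γ, V l * R γ = R γ * V l
  κ_ne : κ ≠ 0
  tr_eq : ∀ T, Cm sc T → TRN V η T = κ * TRN R ξ T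
  tr_adj : ∀ T, Cm sc T → TRN R ξ (adjoint T) = TRN R ξ T
  tr_zero : ∀ T, Cm sc T → TRN R ξ T = 0 → T = 0
  irr : ∀ T, Cm sc T → (∀ l, T * V l = V l * T) → (∀ γ, T * R γ = R γ * T) →
    ∃ z : ℂ, T = z • (1 : ℋ →L[ℂ] ℋ)

end Vale.Agent.P092CP
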