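import Vale.Agent.P092CP.Cp
import Vale.Agent.P092.H325.UltraP
import Vale.Agent.P092.H108.Iso
import Vale.Agent.P092.H933.HM3

/-!
P092, block P: standard bimodules. `A` is a `*`-algebra of operators, `D` an ideal, `v : D → H` a
linear map with dense range for which the adjoint is isometric.
-/

set_option linter.unusedSectionVars false
set_option linter.unusedVariables false

open scoped InnerProductSpace ENNReal NNReal
open MeasureTheory Filter Topology ContinuousLinearMap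

namespace Vale.Agent.P092CP

open Vale.Agent.P092.RC (Cm Moore)
open Vale.Agent.P092.H933 (URep)

section gns

variable {E H : Type} [AddCommGroup E] [Module ℂ E] [NormedAddCommGroup H] [InnerProductSpace ℂ H]
  [CompleteSpace H]

/-- `v` is linear on `D` with dense range -/
structure Gns (D : Submodule ℂ E) (v : E → H) : Prop where
  add : ∀ x ∈ D, ∀ y ∈ D, v (x + y) = v x + v y
  smul : ∀ (c : ℂ), ∀ x ∈ D, v (c • x) = c • v x
  dense : Dense (v '' D)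

open Classical in
/-- the operator induced by `φ` -/
noncomputable def op (σ : ℂ →+* ℂ) (D : Submodule ℂ E) (v : E → H) (φ : E → E) : H →SL[σ] H :=
  if h : ∃ T : H →SL[σ] H, ∀ d ∈ D, T (v d) = v (φ d) then h.choose else 0

variable {D : Submodule ℂ E} {v : E → H} (h : Gns D v) {x y : E}
include h

theorem Gns.zero : v 0 = 0 := by simpa using h.smul 0 0 D.zero_mem

theorem Gns.neg (hx : x ∈ D) : v (-x) = -v x := by simpa using h.smul (-1) x hx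

theorem Gns.sub (hx : x ∈ D) (hy : y ∈ D) : v (x - y) = v x - v y := by
  rw [sub_eq_add_neg, h.add x hx _ (D.neg_mem hy), h.neg hy, sub_eq_add_neg]

theorem Gns.sum {ι : Type*} (s : Finset ι) {F : ι → E} (hF : ∀ i ∈ s, F i ∈ D) :
    v (∑ i ∈ s, F i) = ∑ i ∈ s, v (F i) := by
  classical
  induction s using Finset.induction_on with
  | empty => simpa using h.zero
  | insert a s ha ih =>
    rw [Finset.sum_insert ha, Finset.sum_insert ha, h.add _ (hF a (Finset.mem_insert_self _ _)) _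
      (D.sum_mem fun i hi => hF i (Finset.mem_insert_of_mem hi)),
      ih fun i hi => hF i (Finset.mem_insert_of_mem hi)]

theorem Gns.ind {p : H → Prop} (hp : IsClosed {ξ | p ξ}) (hd : ∀ d ∈ D, p (v d)) (ξ : H) : p ξ :=
  h.dense.induction (fun _ ⟨d, a, b⟩ => b ▸ hd d a) hp ξ

theorem Gns.fext {Z : Type*} [TopologicalSpace Z] [T2Space Z] {f g : H → Z} (hf : Continuous f)
    (hg : Continuous g) (e : ∀ d ∈ D, f (v d) = g (v d)) (ξ : H) : f ξ = g ξ :=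
  h.ind (isClosed_eq hf hg) e ξ

theorem Gns.ext {σ : ℂ →+* ℂ} {S T : H →SL[σ] H} (e : ∀ d ∈ D, S (v d) = T (v d)) : S = T :=
  ContinuousLinearMap.ext (h.fext S.continuous T.continuous e)

theorem Gns.eq_zero {ξ : H} (e : ∀ d ∈ D, ⟪ξ, v d⟫_ℂ = 0) : ξ = 0 :=
  inner_self_eq_zero.1 (h.fext (f := fun η => ⟪ξ, η⟫_ℂ) (g := fun _ => 0) (by fun_prop)
    continuous_const e ξ)

/-- extension by density, with values in any Banach space -/
theorem Gns.exists_ext {F : Type*} [NormedAddCommGroup F] [NormedSpace ℂ F] [CompleteSpace F]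
    {σ : ℂ →+* ℂ} {w : E → F} (ha : ∀ x ∈ D, ∀ y ∈ D, w (x + y) = w x + w y)
    (hs : ∀ (c : ℂ), ∀ x ∈ D, w (c • x) = σ c • w x) {C : ℝ} (hC : ∀ d ∈ D, ‖w d‖ ≤ C * ‖v d‖) :
    ∃ T : H →SL[σ] F, (∀ d ∈ D, T (v d) = w d) ∧ ∀ ξ, ‖T ξ‖ ≤ C * ‖ξ‖ := by
  let e : D →ₗ[ℂ] H := ⟨⟨fun d => v d, fun x y => h.add _ x.2 _ y.2⟩, fun c x => h.smul c _ x.2⟩
  let f : D →ₛₗ[σ] F := ⟨⟨fun d => w d, fun x y => ha _ x.2 _ y.2⟩, fun c x => hs c _ x.2⟩
  have hd : DenseRange e := h.dense.mono (by rintro _ ⟨d, a, b⟩; exact ⟨⟨d, a⟩, b⟩)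
  exact ⟨f.extendOfNorm e, fun d a => LinearMap.extendOfNorm_eq hd ⟨C, fun x => hC _ x.2⟩ ⟨d, a⟩,
    LinearMap.norm_extendOfNorm_apply_le hd C fun x => hC _ x.2⟩

theorem Gns.op_spec {σ : ℂ →+* ℂ} (φ : E →ₛₗ[σ] E) (hφ : ∀ d ∈ D, φ d ∈ D) {C : ℝ}
    (hC : ∀ d ∈ D, ‖v (φ d)‖ ≤ C * ‖v d‖) :
    (∀ d ∈ D, op σ D v φ (v d) = v (φ d)) ∧ ∀ ξ, ‖op σ D v φ ξ‖ ≤ C * ‖ξ‖ := by
  obtain ⟨T, h1, h2⟩ := h.exists_ext (σ := σ) (w := fun d => v (φ d))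
    (fun x a y b => by rw [map_add, h.add _ (hφ x a) _ (hφ y b)])
    (fun c x a => by rw [map_smulₛₗ, h.smul _ _ (hφ x a)]) hC
  have h3 : ∃ T : H →SL[σ] H, ∀ d ∈ D, T (v d) = v (φ d) := ⟨T, h1⟩
  have h4 : op σ D v φ = T := by
    rw [op, dif_pos h3]
    exact h.ext fun d a => (h3.choose_spec d a).trans (h1 d a).symm
  rw [h4]
  exact ⟨h1, h2⟩

/-- bounded families converge strongly if they do on the dense set -/
theorem Gns.tendsto {ι F : Type*} [NormedAddCommGroup F] [NormedSpace ℂ F] {l : Filter ι}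
    {σ : ℂ →+* ℂ} {T : ι → H →SL[σ] F} {T₀ : H →SL[σ] F} {C : ℝ}
    (hC : ∀ᶠ i in l, ∀ ξ, ‖T i ξ‖ ≤ C * ‖ξ‖)
    (e : ∀ d ∈ D, Tendsto (fun i => T i (v d)) l (𝓝 (T₀ (v d)))) (ξ : H) :
    Tendsto (fun i => T i ξ) l (𝓝 (T₀ ξ)) := by
  refine Metric.tendsto_nhds.2 fun ε hε => ?_
  have hc : Continuous fun η => |C| * ‖ξ - η‖ + ‖T₀ η - T₀ ξ‖ := by fun_prop
  obtain ⟨_, a, d, hd, rfl⟩ := h.dense.inter_open_nonempty _
    (isOpen_lt hc (continuous_const (y := ε / 2))) ⟨ξ, by simpa using hε⟩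
  filter_upwards [hC, Metric.tendsto_nhds.1 (e d hd) (ε / 2) (half_pos hε)] with i h1 h2
  have h3 := (h1 (ξ - v d)).trans (mul_le_mul_of_nonneg_right (le_abs_self C) (norm_nonneg _))
  rw [map_sub] at h3
  rw [dist_eq_norm] at h2 ⊢
  have h4 := norm_add₃_le (a := T i ξ - T i (v d)) (b := T i (v d) - T₀ (v d))
    (c := T₀ (v d) - T₀ ξ)
  rw [sub_add_sub_cancel, sub_add_sub_cancel] at h4
  have h5 : |C| * ‖ξ - v d‖ + ‖T₀ (v d) - T₀ ξ‖ < ε / 2 := a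
  linarith

end gns

section clos

variable {E X : Type} [AddCommGroup E] [Module ℂ E] [NormedAddCommGroup X] [InnerProductSpace ℂ X]
  [CompleteSpace X]

/-- the closed span of the image -/
abbrev cl (D : Submodule ℂ E) (w : E → X) : Submodule ℂ X :=
  (Submodule.span ℂ (w '' D)).topologicalClosure

/-- the map into the closed span -/
noncomputable def pv (D : Submodule ℂ E) (w : E → X) (d : E) : cl D w :=
  (cl D w).orthogonalProjectionOnto (w d)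

variable {D : Submodule ℂ E} {w : E → X}

theorem mem_cl {d : E} (hd : d ∈ D) : w d ∈ cl D w :=
  Submodule.le_topologicalClosure _ (Submodule.subset_span ⟨d, hd, rfl⟩)

theorem coe_pv {d : E} (hd : d ∈ D) : (pv D w d : X) = w d :=
  Submodule.starProjection_eq_self_iff.2 (mem_cl hd)

theorem gns_pv (ha : ∀ x ∈ D, ∀ y ∈ D, w (x + y) = w x + w y)
    (hs : ∀ (c : ℂ), ∀ x ∈ D, w (c • x) = c • w x) : Gns D (pv D w) where
  add x a y b := by rw [pv, ha x a y b, map_add]; rfl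
  smul c x a := by rw [pv, hs c x a, map_smul]; rfl
  dense ξ := by
    rw [closure_subtype]
    refine closure_mono (fun η hη => ?_) ξ.2
    have : ∃ d ∈ D, w d = η := by
      refine Submodule.span_induction (fun _ h => h) ⟨0, D.zero_mem, ?_⟩ ?_ ?_ hη
      · simpa using hs 0 0 D.zero_mem
      · rintro _ _ - - ⟨x, a, rfl⟩ ⟨y, b, rfl⟩
        exact ⟨_, D.add_mem a b, ha x a y b⟩
      · rintro c _ - ⟨x, a, rfl⟩
        exact ⟨_, D.smul_mem c a, hs c x a⟩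
    obtain ⟨d, a, rfl⟩ := this
    exact ⟨_, ⟨d, a, rfl⟩, coe_pv a⟩

end clos

section bim

variable {K H : Type} [NormedAddCommGroup K] [InnerProductSpace ℂ K] [CompleteSpace K]
  [NormedAddCommGroup H] [InnerProductSpace ℂ H] [CompleteSpace H]

/-- **A standard bimodule** -/
structure Bim (A : Set (K →L[ℂ] K)) (D : Submodule ℂ (K →L[ℂ] K)) (v : (K →L[ℂ] K) → H) : Prop
    extends Gns D v where
  adjA : ∀ a ∈ A, adjoint a ∈ A
  mulD : ∀ a ∈ A, ∀ d ∈ D, a * d ∈ D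
  adjD : ∀ d ∈ D, adjoint d ∈ D
  inn : ∀ a ∈ A, ∀ d ∈ D, ∀ d' ∈ D, ⟪v (adjoint a * d), v d'⟫_ℂ = ⟪v d, v (a * d')⟫_ℂ
  le : ∀ a ∈ A, ∀ d ∈ D, ‖v (a * d)‖ ≤ ‖a‖ * ‖v d‖
  iso : ∀ d ∈ D, ‖v (adjoint d)‖ = ‖v d‖
  inj : ∀ d ∈ D, v d = 0 → d = 0
  clo : ∀ r : ℝ, IsClosed (v '' {d | d ∈ D ∧ ‖d‖ ≤ r})

/-- left multiplication -/
noncomputable def Lm (D : Submodule ℂ (K →L[ℂ] K)) (v : (K →L[ℂ] K) → H) (a : K →L[ℂ] K) :
    H →L[ℂ] H := op _ D v (LinearMap.mulLeft ℂ a)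

/-- right multiplication -/
noncomputable def Rm (D : Submodule ℂ (K →L[ℂ] K)) (v : (K →L[ℂ] K) → H) (a : K →L[ℂ] K) :
    H →L[ℂ] H := op _ D v (LinearMap.mulRight ℂ a)

/-- the conjugation -/
noncomputable def Jm (D : Submodule ℂ (K →L[ℂ] K)) (v : (K →L[ℂ] K) → H) : H →L⋆[ℂ] H :=
  op _ D v (starLinearEquiv ℂ (A := K →L[ℂ] K)).toLinearMap

variable {A : Set (K →L[ℂ] K)} {D : Submodule ℂ (K →L[ℂ] K)} {v : (K →L[ℂ] K) → H}
  (h : Bim A D v) {a b d : K →L[ℂ] K}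

theorem adj_mul (a b : K →L[ℂ] K) : adjoint (a * b) = adjoint b * adjoint a := star_mul a b

include h

namespace Bim

theorem mulD' (hd : d ∈ D) (ha : a ∈ A) : d * a ∈ D := by
  have := h.adjD _ (h.mulD _ (h.adjA a ha) _ (h.adjD d hd))
  rwa [adj_mul, adjoint_adjoint, adjoint_adjoint] at this

theorem le' (hd : d ∈ D) (ha : a ∈ A) : ‖v (d * a)‖ ≤ ‖a‖ * ‖v d‖ := by
  rw [← h.iso _ (h.mulD' hd ha), adj_mul, ← h.iso d hd, ← norm_star a]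
  exact h.le _ (h.adjA a ha) _ (h.adjD d hd)

theorem eq_of_v {d' : K →L[ℂ] K} (hd : d ∈ D) (hd' : d' ∈ D) (e : v d = v d') : d = d' :=
  sub_eq_zero.1 (h.inj _ (D.sub_mem hd hd') (by rw [h.sub hd hd', e, sub_self]))

theorem L_v (ha : a ∈ A) (hd : d ∈ D) : Lm D v a (v d) = v (a * d) :=
  (h.op_spec (LinearMap.mulLeft ℂ a) (h.mulD a ha) (h.le a ha)).1 d hd

theorem norm_L (ha : a ∈ A) (ξ : H) : ‖Lm D v a ξ‖ ≤ ‖a‖ * ‖ξ‖ :=
  (h.op_spec (LinearMap.mulLeft ℂ a) (h.mulD a ha) (h.le a ha)).2 ξ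

theorem R_v (ha : a ∈ A) (hd : d ∈ D) : Rm D v a (v d) = v (d * a) :=
  (h.op_spec (LinearMap.mulRight ℂ a) (fun _ hd => h.mulD' hd ha) fun _ hd => h.le' hd ha).1 d hd

theorem norm_R (ha : a ∈ A) (ξ : H) : ‖Rm D v a ξ‖ ≤ ‖a‖ * ‖ξ‖ :=
  (h.op_spec (LinearMap.mulRight ℂ a) (fun _ hd => h.mulD' hd ha) fun _ hd => h.le' hd ha).2 ξ

theorem J_v (hd : d ∈ D) : Jm D v (v d) = v (adjoint d) :=
  (h.op_spec (starLinearEquiv ℂ (A := K →L[ℂ] K)).toLinearMap h.adjD (C := 1)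
    fun d hd => by rw [one_mul]; exact (h.iso d hd).le).1 d hd

theorem norm_J (ξ : H) : ‖Jm D v ξ‖ = ‖ξ‖ :=
  h.fext (f := fun ξ => ‖Jm D v ξ‖) (by fun_prop) continuous_norm
    (fun d hd => by rw [h.J_v hd, h.iso d hd]) ξ

theorem J_J (ξ : H) : Jm D v (Jm D v ξ) = ξ :=
  h.fext (f := fun ξ => Jm D v (Jm D v ξ)) (by fun_prop) continuous_id
    (fun d hd => by rw [h.J_v hd, h.J_v (h.adjD d hd), adjoint_adjoint]; rfl) ξ

theorem inner_J (ξ η : H) : ⟪Jm D v ξ, Jm D v η⟫_ℂ = ⟪η, ξ⟫_ℂ :=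
  inner_of_anti fun c => by rw [← h.norm_J (ξ + _), map_add, map_smulₛₗ]; rfl

theorem inner_adj {d' : K →L[ℂ] K} (hd : d ∈ D) (hd' : d' ∈ D) :
    ⟪v (adjoint d), v (adjoint d')⟫_ℂ = ⟪v d', v d⟫_ℂ := by
  rw [← h.J_v hd, ← h.J_v hd', h.inner_J]

theorem J_L (ha : a ∈ A) (ξ : H) : Jm D v (Lm D v a ξ) = Rm D v (adjoint a) (Jm D v ξ) :=
  h.fext (f := fun ξ => Jm D v (Lm D v a ξ)) (g := fun ξ => Rm D v (adjoint a) (Jm D v ξ))
    (by fun_prop) (by fun_prop) (fun d hd => by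
      rw [h.L_v ha hd, h.J_v hd, h.J_v (h.mulD a ha d hd), h.R_v (h.adjA a ha) (h.adjD d hd),
        adj_mul]) ξ

theorem R_eq (ha : a ∈ A) (ξ : H) : Rm D v a ξ = Jm D v (Lm D v (adjoint a) (Jm D v ξ)) := by
  rw [h.J_L (h.adjA a ha), adjoint_adjoint, h.J_J]

theorem L_mul (ha : a ∈ A) (hb : b ∈ A) (hab : a * b ∈ A) :
    Lm D v (a * b) = Lm D v a * Lm D v b := h.ext fun d hd => by
  rw [mul_ap, h.L_v hb hd, h.L_v ha (h.mulD b hb d hd), h.L_v hab hd, mul_assoc]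

theorem R_mul (ha : a ∈ A) (hb : b ∈ A) (hab : a * b ∈ A) :
    Rm D v (a * b) = Rm D v b * Rm D v a := h.ext fun d hd => by
  rw [mul_ap, h.R_v ha hd, h.R_v hb (h.mulD' hd ha), h.R_v hab hd, mul_assoc]

theorem L_R (ha : a ∈ A) (hb : b ∈ A) : Lm D v a * Rm D v b = Rm D v b * Lm D v a :=
  h.ext fun d hd => by
    rw [mul_ap, mul_ap, h.R_v hb hd, h.L_v ha hd, h.L_v ha (h.mulD' hd hb),
      h.R_v hb (h.mulD a ha d hd), mul_assoc]

theorem L_add (ha : a ∈ A) (hb : b ∈ A) (hab : a + b ∈ A) :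
    Lm D v (a + b) = Lm D v a + Lm D v b := h.ext fun d hd => by
  rw [add_apply, h.L_v ha hd, h.L_v hb hd, h.L_v hab hd, add_mul,
    h.add _ (h.mulD a ha d hd) _ (h.mulD b hb d hd)]

theorem R_add (ha : a ∈ A) (hb : b ∈ A) (hab : a + b ∈ A) :
    Rm D v (a + b) = Rm D v a + Rm D v b := h.ext fun d hd => by
  rw [add_apply, h.R_v ha hd, h.R_v hb hd, h.R_v hab hd, mul_add,
    h.add _ (h.mulD' hd ha) _ (h.mulD' hd hb)]

theorem L_sub (ha : a ∈ A) (hb : b ∈ A) (hab : a - b ∈ A) :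
    Lm D v (a - b) = Lm D v a - Lm D v b := h.ext fun d hd => by
  rw [sub_apply, h.L_v ha hd, h.L_v hb hd, h.L_v hab hd, sub_mul,
    h.sub (h.mulD a ha d hd) (h.mulD b hb d hd)]

theorem R_sub (ha : a ∈ A) (hb : b ∈ A) (hab : a - b ∈ A) :
    Rm D v (a - b) = Rm D v a - Rm D v b := h.ext fun d hd => by
  rw [sub_apply, h.R_v ha hd, h.R_v hb hd, h.R_v hab hd, mul_sub,
    h.sub (h.mulD' hd ha) (h.mulD' hd hb)]

theorem L_smul (c : ℂ) (ha : a ∈ A) (hc : c • a ∈ A) : Lm D v (c • a) = c • Lm D v a :=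
  h.ext fun d hd => by
    rw [smul_apply, h.L_v ha hd, h.L_v hc hd, smul_mul_assoc, h.smul _ _ (h.mulD a ha d hd)]

theorem R_smul (c : ℂ) (ha : a ∈ A) (hc : c • a ∈ A) : Rm D v (c • a) = c • Rm D v a :=
  h.ext fun d hd => by
    rw [smul_apply, h.R_v ha hd, h.R_v hc hd, mul_smul_comm, h.smul _ _ (h.mulD' hd ha)]

theorem L_one (h1 : 1 ∈ A) : Lm D v 1 = 1 := h.ext fun d hd => by rw [h.L_v h1 hd, one_mul]; rfl

theorem R_one (h1 : 1 ∈ A) : Rm D v 1 = 1 := h.ext fun d hd => by rw [h.R_v h1 hd, mul_one]; rfl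

theorem adjoint_L (ha : a ∈ A) : adjoint (Lm D v a) = Lm D v (adjoint a) := by
  rw [eq_comm, eq_adjoint_iff]
  exact fun ξ η => h.fext (f := fun ξ => ⟪Lm D v (adjoint a) ξ, η⟫_ℂ)
    (g := fun ξ => ⟪ξ, Lm D v a η⟫_ℂ) (by fun_prop) (by fun_prop) (fun d hd =>
      h.fext (f := fun η => ⟪Lm D v (adjoint a) (v d), η⟫_ℂ) (g := fun η => ⟪v d, Lm D v a η⟫_ℂ)
        (by fun_prop) (by fun_prop) (fun d' hd' => by
          rw [h.L_v (h.adjA a ha) hd, h.L_v ha hd', h.inn a ha d hd d' hd']) η) ξ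

theorem adjoint_R (ha : a ∈ A) : adjoint (Rm D v a) = Rm D v (adjoint a) := by
  rw [eq_comm, eq_adjoint_iff]
  intro ξ η
  rw [h.R_eq (h.adjA a ha), h.R_eq ha, adjoint_adjoint, ← h.inner_J, h.J_J, ← h.inner_J _ ξ, h.J_J,
    ← h.adjoint_L ha, adjoint_inner_left]

theorem tendsto_R {ι : Type*} {l : Filter ι} {F : ι → K →L[ℂ] K} (hF : ∀ᶠ i in l, F i ∈ A)
    (ha : a ∈ A) (e : ∀ ξ, Tendsto (fun i => Lm D v (adjoint (F i)) ξ) l
      (𝓝 (Lm D v (adjoint a) ξ))) (ξ : H) :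
    Tendsto (fun i => Rm D v (F i) ξ) l (𝓝 (Rm D v a ξ)) := by
  rw [h.R_eq ha]
  exact (((Jm D v).continuous.tendsto _).comp (e _)).congr'
    (hF.mono fun i hi => (h.R_eq hi ξ).symm)

end Bim

end bim

section adm

variable {K H : Type} [NormedAddCommGroup K] [InnerProductSpace ℂ K] [CompleteSpace K]
  [NormedAddCommGroup H] [InnerProductSpace ℂ H] [CompleteSpace H]
  {A : Set (K →L[ℂ] K)} {D : Submodule ℂ (K →L[ℂ] K)} {v : (K →L[ℂ] K) → H} {a b d : K →L[ℂ] K}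
  {G : Type} [Group G] [TopologicalSpace G] [IsTopologicalGroup G]

/-- an action by conjugation which preserves the bimodule -/
structure Adm (A : Set (K →L[ℂ] K)) (D : Submodule ℂ (K →L[ℂ] K)) (v : (K →L[ℂ] K) → H)
    (ρ : G →* (K →L[ℂ] K)) : Prop where
  bim : Bim A D v
  adj : ∀ g, adjoint (ρ g) = ρ g⁻¹
  memA : ∀ g, ∀ a ∈ A, ρ g * a * ρ g⁻¹ ∈ A
  memD : ∀ g, ∀ d ∈ D, ρ g * d * ρ g⁻¹ ∈ D
  nrm : ∀ g d, ‖ρ g * d * ρ g⁻¹‖ ≤ ‖d‖
  iso : ∀ g, ∀ d ∈ D, ‖v (ρ g * d * ρ g⁻¹)‖ = ‖v d‖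
  cont : ∀ d ∈ D, Continuous fun g => v (ρ g * d * ρ g⁻¹)

namespace Adm

variable {ρ : G →* (K →L[ℂ] K)} (h : Adm A D v ρ)

include h in
theorem op_v (g : G) (hd : d ∈ D) :
    op (RingHom.id ℂ) D v (LinearMap.mulLeftRight ℂ (ρ g, ρ g⁻¹)) (v d) = v (ρ g * d * ρ g⁻¹) :=
  (h.bim.op_spec (LinearMap.mulLeftRight ℂ (ρ g, ρ g⁻¹)) (h.memD g) (C := 1)
    fun d hd => by rw [one_mul]; exact (h.iso g d hd).le).1 d hd

/-- the unitary representation on the bimodule -/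
noncomputable def rep : G →* (H →L[ℂ] H) where
  toFun g := op _ D v (LinearMap.mulLeftRight ℂ (ρ g, ρ g⁻¹))
  map_one' := h.bim.ext fun d hd => by
    rw [h.op_v 1 hd, inv_one, map_one, one_mul, mul_one]; rfl
  map_mul' g g' := h.bim.ext fun d hd => by
    rw [mul_ap, h.op_v _ hd, h.op_v _ hd, h.op_v _ (h.memD _ d hd), mul_inv_rev, map_mul, map_mul]
    simp only [mul_assoc]

theorem rep_v (g : G) (hd : d ∈ D) : h.rep g (v d) = v (ρ g * d * ρ g⁻¹) := h.op_v g hd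

theorem norm_rep (g : G) (ξ : H) : ‖h.rep g ξ‖ = ‖ξ‖ :=
  h.bim.fext (f := fun ξ => ‖h.rep g ξ‖) (by fun_prop) continuous_norm
    (fun d hd => by rw [h.rep_v g hd, h.iso g d hd]) ξ

theorem cont_rep (ξ : H) : Continuous fun g => h.rep g ξ :=
  continuous_iff_continuousAt.2 fun g => h.bim.tendsto (C := 1)
    (Eventually.of_forall fun i ξ => by rw [h.norm_rep, one_mul])
    (fun d hd => by simpa only [h.rep_v _ hd] using (h.cont d hd).tendsto g) ξ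

theorem urep : URep h.rep :=
  ⟨h.norm_rep, fun ξ => by simpa using (h.cont_rep ξ).tendsto 1⟩

theorem inner_rep (g : G) (ξ η : H) : ⟪h.rep g ξ, h.rep g η⟫_ℂ = ⟪ξ, η⟫_ℂ :=
  (LinearIsometry.mk (h.rep g).toLinearMap (h.norm_rep g)).inner_map_map ξ η

theorem adj_rep (g : G) : adjoint (h.rep g) = h.rep g⁻¹ := by
  rw [eq_comm, eq_adjoint_iff]
  intro ξ η
  rw [← h.inner_rep g, pi_ap_inv]

theorem rep_L (g : G) (ha : a ∈ A) :
    h.rep g * Lm D v a = Lm D v (ρ g * a * ρ g⁻¹) * h.rep g := h.bim.ext fun d hd => by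
  rw [mul_ap, mul_ap, h.bim.L_v ha hd, h.rep_v g hd, h.rep_v g (h.bim.mulD a ha d hd),
    h.bim.L_v (h.memA g a ha) (h.memD g d hd)]
  simp only [mul_assoc]
  rw [← mul_assoc (ρ g⁻¹), pi_inv_mul, one_mul]

theorem rep_R (g : G) (ha : a ∈ A) :
    h.rep g * Rm D v a = Rm D v (ρ g * a * ρ g⁻¹) * h.rep g := h.bim.ext fun d hd => by
  rw [mul_ap, mul_ap, h.bim.R_v ha hd, h.rep_v g hd, h.rep_v g (h.bim.mulD' hd ha),
    h.bim.R_v (h.memA g a ha) (h.memD g d hd)]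
  simp only [mul_assoc]
  rw [← mul_assoc (ρ g⁻¹), pi_inv_mul, one_mul]

theorem rep_J (g : G) (ξ : H) : h.rep g (Jm D v ξ) = Jm D v (h.rep g ξ) :=
  h.bim.fext (f := fun ξ => h.rep g (Jm D v ξ)) (g := fun ξ => Jm D v (h.rep g ξ))
    (by fun_prop) (by fun_prop) (fun d hd => by
      rw [h.bim.J_v hd, h.rep_v g hd, h.rep_v g (h.bim.adjD d hd), h.bim.J_v (h.memD g d hd),
        adj_mul, adj_mul, h.adj, h.adj, inv_inv, mul_assoc]) ξ

/-- **fixed vectors are approximated by fixed operators** (for any subgroup `S`) -/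
theorem exists_fix (S : Subgroup G) {ξ : H} (hξ : ∀ g ∈ S, h.rep g ξ = ξ) (hd : d ∈ D) :
    ∃ y ∈ D, ‖y‖ ≤ ‖d‖ ∧ (∀ g ∈ S, y * ρ g = ρ g * y) ∧ ⟪ξ, v y⟫_ℂ = ⟪ξ, v d⟫_ℂ := by
  have hc : Convex ℝ (v '' {y | y ∈ D ∧ ‖y‖ ≤ ‖d‖} ∩ {η | ⟪ξ, η⟫_ℂ = ⟪ξ, v d⟫_ℂ}) := by
    rintro _ ⟨⟨x, hx, rfl⟩, hx'⟩ _ ⟨⟨y, hy, rfl⟩, hy'⟩ s t hs ht hst
    refine ⟨⟨(s : ℂ) • x + (t : ℂ) • y, ⟨D.add_mem (D.smul_mem _ hx.1) (D.smul_mem _ hy.1), ?_⟩,
      ?_⟩, ?_⟩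
    · refine (norm_add_le _ _).trans ?_
      rw [norm_smul, norm_smul, Complex.norm_of_nonneg hs, Complex.norm_of_nonneg ht]
      calc _ ≤ s * ‖d‖ + t * ‖d‖ := by gcongr; exacts [hx.2, hy.2]
        _ = _ := by rw [← add_mul, hst, one_mul]
    · rw [h.bim.add _ (D.smul_mem _ hx.1) _ (D.smul_mem _ hy.1), h.bim.smul _ _ hx.1,
        h.bim.smul _ _ hy.1]; rfl
    · change ⟪ξ, (s : ℂ) • v x + (t : ℂ) • v y⟫_ℂ = _
      rw [inner_add_right, inner_smul_right, inner_smul_right, hx', hy', ← add_mul,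
        ← Complex.ofReal_add, hst, Complex.ofReal_one, one_mul]
  obtain ⟨_, ⟨⟨y, hy, rfl⟩, h1⟩, h2⟩ := Vale.Agent.P092.H108.exists_min_fixed
    (by exact ⟨v d, ⟨d, ⟨hd, le_rfl⟩, rfl⟩, rfl⟩)
    ((h.bim.clo ‖d‖).inter (isClosed_eq (by fun_prop) continuous_const)) hc
  refine ⟨y, hy.1, hy.2, fun g hg => ?_, h1⟩
  have h3 := h2 (h.rep g) (fun x _ => (h.norm_rep g x).le) (by
    rintro _ ⟨⟨x, hx, rfl⟩, hx'⟩
    refine ⟨⟨_, ⟨h.memD g x hx.1, (h.nrm g x).trans hx.2⟩, (h.rep_v g hx.1).symm⟩, ?_⟩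
    change ⟪ξ, _⟫_ℂ = _
    rw [← hx', ← h.inner_rep g ξ (v x), hξ g hg])
  rw [h.rep_v g hy.1] at h3
  conv_lhs => rw [← h.bim.eq_of_v (h.memD g y hy.1) hy.1 h3]
  rw [mul_assoc, pi_inv_mul, mul_one]

theorem moore {S : Set G} (hS : Moore S) {ξ : H} (hξ : ∀ g ∈ S, h.rep g ξ = ξ) (g : G) :
    h.rep g ξ = ξ := hS H h.rep h.norm_rep h.cont_rep ξ hξ g

include h in
/-- operators which commute with a Moore set commute with the group -/
theorem cp_of_moore {S : Set G} (hS : Moore S) (hd : d ∈ D) (e : ∀ g ∈ S, d * ρ g = ρ g * d) :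
    Cp ρ d := cp_of_conj fun g => h.bim.eq_of_v (h.memD g d hd) hd (by
  rw [← h.rep_v g hd]
  refine h.moore hS (fun s hs => ?_) g
  rw [h.rep_v s hd, ← e s hs, mul_assoc, pi_mul_inv, mul_one])

end Adm

end adm

end Vale.Agent.P092CP
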