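import Vale.Agent.P092CP.Vg

/-!
P092, block P: weak integrals `∫ (T x)* (T' x) dν`, the operator valued weight from `B` to `M`.
-/

set_option linter.unusedSectionVars false
set_option linter.unusedVariables false

open scoped InnerProductSpace ENNReal NNReal
open MeasureTheory Filter Topology ContinuousLinearMap

namespace Vale.Agent.P092CP

open Vale.Agent.P092.RC (Cm Moore)

section gram

variable {X K K' H : Type} [MeasurableSpace X] {ν : Measure X} [NormedAddCommGroup K]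
  [InnerProductSpace ℂ K] [CompleteSpace K] [NormedAddCommGroup K'] [InnerProductSpace ℂ K']
  [CompleteSpace K'] [NormedAddCommGroup H] [InnerProductSpace ℂ H] [CompleteSpace H]

/-- square integrable families of operators -/
structure SqI (ν : Measure X) (T : X → K →L[ℂ] H) (c : ℝ) : Prop where
  meas : ∀ ξ, AEStronglyMeasurable (fun x => T x ξ) ν
  nn : 0 ≤ c
  bdd : ∀ ξ, ∫⁻ x, ‖T x ξ‖ₑ ^ 2 ∂ν ≤ ENNReal.ofReal c ^ 2 * ‖ξ‖ₑ ^ 2

open Classical in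
/-- the column operator -/
noncomputable def col (ν : Measure X) (T : X → K →L[ℂ] H) : K →L[ℂ] Lp H 2 ν :=
  if h : ∃ Φ : K →L[ℂ] Lp H 2 ν, ∀ ξ, ⇑(Φ ξ) =ᵐ[ν] fun x => T x ξ then h.choose else 0

/-- `∫ (T x)* (T' x) dν` -/
noncomputable def gram (ν : Measure X) (T : X → K →L[ℂ] H) (T' : X → K' →L[ℂ] H) : K' →L[ℂ] K :=
  adjoint (col ν T) ∘L col ν T'

theorem memLp_of_sq {f : X → H} (hm : AEStronglyMeasurable f ν) (h : ∫⁻ x, ‖f x‖ₑ ^ 2 ∂ν ≠ ∞) :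
    MemLp f 2 ν := by
  have h1 := eLpNorm_nnreal_pow_eq_lintegral (f := f) (μ := ν) (p := 2) (by norm_num)
  exact ⟨hm, lt_top_iff_ne_top.2 fun e => h (by simpa [e] using h1.symm)⟩

theorem enorm_of_ae {f : X → H} {F : Lp H 2 ν} (h : ⇑F =ᵐ[ν] f) :
    ‖F‖ₑ ^ 2 = ∫⁻ x, ‖f x‖ₑ ^ 2 ∂ν :=
  (enorm_sq F).trans (lintegral_congr_ae (h.mono fun x hx => by simp only [hx]))

variable {T : X → K →L[ℂ] H} {T' : X → K' →L[ℂ] H} {c c' : ℝ}

theorem SqI.memLp (h : SqI ν T c) (ξ : K) : MemLp (fun x => T x ξ) 2 ν :=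
  memLp_of_sq (h.meas ξ) (ne_top_of_le_ne_top (by finiteness) (h.bdd ξ))

theorem SqI.col_ae (h : SqI ν T c) (ξ : K) : ⇑(col ν T ξ) =ᵐ[ν] fun x => T x ξ := by
  have h1 : ∃ Φ : K →L[ℂ] Lp H 2 ν, ∀ ξ, ⇑(Φ ξ) =ᵐ[ν] fun x => T x ξ :=
    ⟨LinearMap.mkContinuous
      { toFun := fun ξ => (h.memLp ξ).toLp _
        map_add' := fun ξ η => by
          rw [← MemLp.toLp_add]
          exact MemLp.toLp_congr _ _ (Eventually.of_forall fun x => map_add _ _ _)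
        map_smul' := fun a ξ => by
          rw [RingHom.id_apply, ← MemLp.toLp_const_smul]
          exact MemLp.toLp_congr _ _ (Eventually.of_forall fun x => map_smul _ _ _) } c
      fun ξ => norm_le_of_enorm_sq h.nn ((enorm_of_ae (h.memLp ξ).coeFn_toLp).trans_le (h.bdd ξ)),
      fun ξ => (h.memLp ξ).coeFn_toLp⟩
  rw [col, dif_pos h1]
  exact h1.choose_spec ξ

theorem SqI.enorm_col (h : SqI ν T c) (ξ : K) : ‖col ν T ξ‖ₑ ^ 2 = ∫⁻ x, ‖T x ξ‖ₑ ^ 2 ∂ν :=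
  enorm_of_ae (h.col_ae ξ)

theorem SqI.norm_col (h : SqI ν T c) : ‖col ν T‖ ≤ c :=
  opNorm_le_bound _ h.nn fun ξ => norm_le_of_enorm_sq h.nn ((h.enorm_col ξ).trans_le (h.bdd ξ))

theorem inner_gram' (ξ : K) (η : K') : ⟪ξ, gram ν T T' η⟫_ℂ = ⟪col ν T ξ, col ν T' η⟫_ℂ := by
  rw [gram, comp_apply, adjoint_inner_right]

theorem SqI.inner_gram (h : SqI ν T c) (h' : SqI ν T' c') (ξ : K) (η : K') :
    ⟪ξ, gram ν T T' η⟫_ℂ = ∫ x, ⟪T x ξ, T' x η⟫_ℂ ∂ν := by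
  rw [inner_gram', L2.inner_def]
  refine integral_congr_ae ?_
  filter_upwards [h.col_ae ξ, h'.col_ae η] with x a b
  rw [a, b]

theorem SqI.integrable (h : SqI ν T c) (h' : SqI ν T' c') (ξ : K) (η : K') :
    Integrable (fun x => ⟪T x ξ, T' x η⟫_ℂ) ν := by
  refine (L2.integrable_inner (col ν T ξ) (col ν T' η)).congr ?_
  filter_upwards [h.col_ae ξ, h'.col_ae η] with x a b
  rw [a, b]

theorem SqI.norm_gram (h : SqI ν T c) (h' : SqI ν T' c') : ‖gram ν T T'‖ ≤ c * c' :=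
  (opNorm_comp_le _ _).trans (mul_le_mul (by rw [LinearIsometryEquiv.norm_map]; exact h.norm_col)
    h'.norm_col (norm_nonneg _) h.nn)

theorem adjoint_gram : adjoint (gram ν T T') = gram ν T' T := by
  rw [gram, adjoint_comp, adjoint_adjoint, gram]

theorem gram_nonneg : 0 ≤ gram ν T T :=
  (nonneg_iff_isPositive _).2 (isPositive_adjoint_comp_self _)

theorem SqI.re_gram (h : SqI ν T c) (ξ : K) :
    ENNReal.ofReal (⟪ξ, gram ν T T ξ⟫_ℂ).re = ∫⁻ x, ‖T x ξ‖ₑ ^ 2 ∂ν := by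
  rw [inner_gram', ← h.enorm_col, ← ofReal_norm, ← ENNReal.ofReal_pow (norm_nonneg _)]
  exact congrArg _ (inner_self_eq_norm_sq (𝕜 := ℂ) _)

theorem SqI.comp {L : Type} [NormedAddCommGroup L] [InnerProductSpace ℂ L] [CompleteSpace L]
    (h : SqI ν T c) (a : L →L[ℂ] K) : SqI ν (fun x => T x ∘L a) (c * ‖a‖) :=
  ⟨fun ξ => h.meas (a ξ), mul_nonneg h.nn (norm_nonneg _), fun ξ => (h.bdd (a ξ)).trans (by
    rw [ENNReal.ofReal_mul h.nn, mul_pow, mul_assoc, ofReal_norm, ← mul_pow ‖a‖ₑ]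
    exact mul_le_mul_right (pow_le_pow_left' (a.le_opENorm ξ) 2) _)⟩

theorem SqI.mono {H' : Type} [NormedAddCommGroup H'] [InnerProductSpace ℂ H'] (h : SqI ν T c)
    {S : X → K →L[ℂ] H'} (hm : ∀ ξ, AEStronglyMeasurable (fun x => S x ξ) ν) {b : ℝ} (hb : 0 ≤ b)
    (hS : ∀ x ξ, ‖S x ξ‖ ≤ b * ‖T x ξ‖) : SqI ν S (b * c) :=
  ⟨hm, mul_nonneg hb h.nn, fun ξ => by
    rw [ENNReal.ofReal_mul hb, mul_pow, mul_assoc]
    refine le_trans ?_ (mul_le_mul_right (h.bdd ξ) _)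
    rw [← lintegral_const_mul' _ _ (by finiteness)]
    refine lintegral_mono fun x => ?_
    rw [← mul_pow, ← ofReal_norm, ← ofReal_norm, ← ENNReal.ofReal_mul hb]
    exact pow_le_pow_left' (ENNReal.ofReal_le_ofReal (hS x ξ)) 2⟩

/-- intertwining -/
theorem SqI.gram_tw (h : SqI ν T c) (h' : SqI ν T' c') {w : K →L[ℂ] K} {w' : K' →L[ℂ] K'}
    (e : ∀ x ξ η, ⟪T x ξ, T' x (w' η)⟫_ℂ = ⟪T x (adjoint w ξ), T' x η⟫_ℂ) :
    gram ν T T' ∘L w' = w ∘L gram ν T T' :=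
  ContinuousLinearMap.ext fun η => ext_inner_left ℂ fun ξ => by
    rw [comp_apply, comp_apply, ← adjoint_inner_left w, h.inner_gram h', h.inner_gram h']
    simp only [e]

theorem SqI.gram_cm {T' : X → K →L[ℂ] H} (h : SqI ν T c) (h' : SqI ν T' c')
    {W : Set (K →L[ℂ] K)} (e : ∀ x, Cm W (adjoint (T x) ∘L T' x)) : Cm W (gram ν T T') :=
  fun w hw => h.gram_tw h' fun x ξ η => by
    rw [← adjoint_inner_right (T x), ← adjoint_inner_right (T x), adjoint_inner_left]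
    exact congrArg (fun ζ => ⟪ξ, ζ⟫_ℂ) (ap_eq (e x w hw) η)

end gram

variable {G G' K : Type} [Group G] [TopologicalSpace G] [IsTopologicalGroup G]
  [LocallyCompactSpace G] [SecondCountableTopology G] [T2Space G] [MeasurableSpace G] [BorelSpace G]
  [Group G'] [TopologicalSpace G'] [IsTopologicalGroup G'] [LocallyCompactSpace G']
  [SecondCountableTopology G'] [T2Space G'] [MeasurableSpace G'] [BorelSpace G']
  [NormedAddCommGroup K] [InnerProductSpace ℂ K] [CompleteSpace K] {μ : Measure G}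
  [μ.IsHaarMeasure] {μ' : Measure G'} [μ'.IsHaarMeasure] {W : Set (K →L[ℂ] K)}
  {T T' a x y : K →L[ℂ] K} {c c' : ℝ} {f : G → ℂ}

namespace Side

variable (S : Side μ W)

/-- `T` is square integrable for the action -/
def SI (T : K →L[ℂ] K) (c : ℝ) : Prop := SqI μ (fun g => T * S.π g) c

/-- the operator valued weight `∫ β_g (T* T') dg` -/
noncomputable def E (T T' : K →L[ℂ] K) : K →L[ℂ] K :=
  gram μ (fun g => T * S.π g) fun g => T' * S.π g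

theorem si_of (h0 : 0 ≤ c)
    (h : ∀ ξ, ∫⁻ g, ‖T (S.π g ξ)‖ₑ ^ 2 ∂μ ≤ ENNReal.ofReal c ^ 2 * ‖ξ‖ₑ ^ 2) : S.SI T c :=
  ⟨fun ξ => (T.continuous.comp (S.cont ξ)).aestronglyMeasurable, h0, h⟩

theorem si_m (hf : Bd f) (h0 : 0 ≤ c) (h : ∫⁻ x, ‖f x‖ₑ ^ 2 ∂μ ≤ ENNReal.ofReal c ^ 2) :
    S.SI (S.m f) c := S.si_of h0 fun ξ => by rw [S.lint_m hf]; gcongr

theorem si_P {A : Set G} (hA : MeasurableSet A) (h : μ A ≠ ∞) : S.SI (S.P A) √(μ.real A) :=
  S.si_of (Real.sqrt_nonneg _) fun ξ => by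
    rw [S.lint_P hA, ← ENNReal.ofReal_pow (Real.sqrt_nonneg _), Real.sq_sqrt measureReal_nonneg,
      ofReal_measureReal h]

variable {S}

theorem SI.mul_left (h : S.SI T c) (a : K →L[ℂ] K) : S.SI (a * T) (‖a‖ * c) :=
  SqI.mono h (fun ξ => ((a * T).continuous.comp (S.cont ξ)).aestronglyMeasurable) (norm_nonneg _)
    fun g ξ => a.le_opNorm _

theorem SI.mul_right (h : S.SI T c) (hx : Cp S.π x) : S.SI (T * x) (c * ‖x‖) := by
  have h1 := SqI.comp h x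
  simp only [SI, mul_assoc, hx _]
  exact h1

theorem SI.Tr_le (h : S.SI T c) : S.Tr T ≤ ENNReal.ofReal c ^ 2 := by
  simpa [S.enorm_Ω, Tr] using h.bdd S.Ω

theorem SI.hs (h : S.SI T c) (hT : Cm W T) : T ∈ S.HS :=
  ⟨hT, ne_top_of_le_ne_top (by finiteness) h.Tr_le⟩

theorem SI.inner_E (h : S.SI T c) (h' : S.SI T' c') (ξ η : K) :
    ⟪ξ, S.E T T' η⟫_ℂ = ∫ g, ⟪T (S.π g ξ), T' (S.π g η)⟫_ℂ ∂μ := SqI.inner_gram h h' ξ η

theorem SI.norm_E (h : S.SI T c) (h' : S.SI T' c') : ‖S.E T T'‖ ≤ c * c' := SqI.norm_gram h h'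

theorem adjoint_E : adjoint (S.E T T') = S.E T' T := adjoint_gram

theorem E_nonneg : 0 ≤ S.E T T := gram_nonneg

theorem SI.cp_E (h : S.SI T c) (h' : S.SI T' c') : Cp S.π (S.E T T') := fun g =>
  ContinuousLinearMap.ext fun η => ext_inner_left ℂ fun ξ => by
    have := S.right
    rw [mul_ap, mul_ap, ← adjoint_inner_left (S.π g), S.adj, h.inner_E h', h.inner_E h',
      ← integral_mul_right_eq_self (fun k => ⟪T (S.π k (S.π g⁻¹ ξ)), T' (S.π k η)⟫_ℂ) g]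
    simp only [pi_ap, mul_inv_cancel_right]

theorem SI.M_E (h : S.SI T c) (h' : S.SI T' c') (e : Cm W (adjoint T * T')) : S.M (S.E T T') :=
  ⟨SqI.gram_cm h h' fun g => by
    have h1 := S.conj _ e g⁻¹
    rw [inv_inv, ← S.adj g] at h1
    change Cm W (adjoint (T * S.π g) * (T' * S.π g))
    rwa [adj_mul, mul_assoc, ← mul_assoc (adjoint T), ← mul_assoc], h.cp_E h'⟩

theorem SI.τ_E (h : S.SI T c) (h' : S.SI T' c') (hT : Cm W T) (hT' : Cm W T') :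
    S.τ (S.E T T') = ⟪S.vB T, S.vB T'⟫_ℂ := by
  rw [τ, h.inner_E h', S.inner_vB (h.hs hT) (h'.hs hT')]

theorem SI.E_mul (h : S.SI T c) (h' : S.SI T' c') (hx : Cp S.π x) :
    S.E T (T' * x) = S.E T T' * x :=
  ContinuousLinearMap.ext fun η => ext_inner_left ℂ fun ξ => by
    rw [mul_ap, h.inner_E h', h.inner_E (h'.mul_right hx)]
    simp only [mul_ap, hx.ap]

theorem SI.mul_E (h : S.SI T c) (h' : S.SI T' c') (hx : Cp S.π x) :
    S.E (T * x) T' = adjoint x * S.E T T' := by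
  rw [← adjoint_E, h'.E_mul h hx, adj_mul, adjoint_E]

theorem SI.E_adj (h : S.SI T c) (h' : S.SI T' c') (a : K →L[ℂ] K) :
    S.E (adjoint a * T) T' = S.E T (a * T') :=
  ContinuousLinearMap.ext fun η => ext_inner_left ℂ fun ξ => by
    rw [(h.mul_left _).inner_E h', h.inner_E (h'.mul_left a)]
    simp only [mul_ap, adjoint_inner_left]

/-- `∫ β_g (m |f|²) dg = ∫ |f|²` -/
theorem E_m (hf : Bd f) (h : ∫⁻ x, ‖f x‖ₑ ^ 2 ∂μ ≠ ∞) :
    S.E (S.m f) (S.m f) = ((∫⁻ x, ‖f x‖ₑ ^ 2 ∂μ).toReal : ℂ) • (1 : K →L[ℂ] K) := by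
  have h1 : S.SI (S.m f) √(∫⁻ x, ‖f x‖ₑ ^ 2 ∂μ).toReal := S.si_m hf (Real.sqrt_nonneg _) (by
    rw [← ENNReal.ofReal_pow (Real.sqrt_nonneg _), Real.sq_sqrt ENNReal.toReal_nonneg,
      ENNReal.ofReal_toReal h])
  refine ContinuousLinearMap.coe_injective ((ext_inner_map _ _).1 fun ξ => ?_)
  have h2 := congrArg ENNReal.toReal ((SqI.enorm_col h1 ξ).trans (S.lint_m hf ξ))
  rw [ENNReal.toReal_mul, ENNReal.toReal_pow, ENNReal.toReal_pow, toReal_enorm, toReal_enorm] at h2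
  change ⟪S.E _ _ ξ, ξ⟫_ℂ = ⟪(_ : ℂ) • ξ, ξ⟫_ℂ
  rw [← adjoint_E, adjoint_inner_left, E, inner_gram', inner_smul_left, Complex.conj_ofReal,
    inner_self_eq_norm_sq_to_K, inner_self_eq_norm_sq_to_K]
  simpa using congrArg Complex.ofReal h2

end Side

namespace Cpl

variable (C : Cpl μ μ' W)

theorem si_σ (h : C.t.SI T c) (g : G) : C.t.SI (C.s.π g * T * C.s.π g⁻¹) c :=
  C.t.si_of h.nn fun ξ => by
    have h1 := h.bdd (C.s.π g⁻¹ ξ)
    rw [C.s.enorm_π] at h1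
    refine le_of_eq_of_le (lintegral_congr fun k => ?_) h1
    rw [mul_ap, mul_ap, C.s.enorm_π, ← mul_ap (C.s.π g⁻¹), C.comm]; rfl

theorem σ_E (h : C.t.SI T c) (h' : C.t.SI T' c') (g : G) :
    C.s.π g * C.t.E T T' * C.s.π g⁻¹ =
      C.t.E (C.s.π g * T * C.s.π g⁻¹) (C.s.π g * T' * C.s.π g⁻¹) :=
  ContinuousLinearMap.ext fun η => ext_inner_left ℂ fun ξ => by
    rw [mul_ap, mul_ap, ← adjoint_inner_left, C.s.adj, h.inner_E h',
      (C.si_σ h g).inner_E (C.si_σ h' g)]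
    simp only [mul_ap, C.s.inner_π, ← mul_ap (C.s.π g⁻¹) (C.t.π _), C.comm]

end Cpl

end Vale.Agent.P092CP
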