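import Vale.Agent.P092CP.Lift

/-!
P092, block P: the coupling induced from a fibre.
-/

set_option linter.unusedSectionVars false
set_option linter.unusedVariables false

open scoped InnerProductSpace ENNReal NNReal
open MeasureTheory Filter Topology ContinuousLinearMap

namespace Vale.Agent.P092CP

open Vale.Agent.P092.RC (Cm TRN)
open Vale.Agent.P092.H790 Vale.Agent.P092.H85 Vale.Agent.P092.H34 Vale.Agent.P092.H34.Ind
  Vale.Agent.P092.H34.Grp Vale.Agent.P092.H515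

instance fact_two : Fact ((2 : ℝ≥0∞) ≠ ∞) := ⟨ENNReal.ofNat_ne_top⟩

section tp

variable {G K K' : Type} [Group G] [TopologicalSpace G] [MeasurableSpace G] {μ : Measure G}
  [NormedAddCommGroup K] [InnerProductSpace ℂ K] [CompleteSpace K] [NormedAddCommGroup K']
  [InnerProductSpace ℂ K'] [CompleteSpace K'] {W : Set (K →L[ℂ] K)} {W' : Set (K' →L[ℂ] K')}
  {U : K ≃ₗᵢ[ℂ] K'} (S : Side μ W') (h : Tp U W W') {x : K' →L[ℂ] K'} {y : K →L[ℂ] K}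

theorem Side.tp_exu (e : U.symm.conjStarAlgEquiv x = y)
    (hu : ∃ u, S.M u ∧ u ∈ unitary _ ∧ u S.Ω = x S.Ω) :
    ∃ u, (S.tp h).M u ∧ u ∈ unitary _ ∧ u (S.tp h).Ω = y (S.tp h).Ω := by
  obtain ⟨u, ⟨h1, h2⟩, h3, h4⟩ := hu
  refine ⟨U.symm.conjStarAlgEquiv u, ⟨h.cm h1, fun k => ?_⟩, Unitary.map_mem _ h3, ?_⟩
  · rw [Side.tp_π, ← map_mul, ← map_mul, h2 k]
  · rw [← e]
    change U.symm (u (U (U.symm S.Ω))) = U.symm (x (U (U.symm S.Ω)))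
    rw [U.apply_symm_apply, h4]

theorem Side.tp_mc (e : U.symm.conjStarAlgEquiv x = y) {f : G → ℂ} (hc : S.m f * x = x * S.m f) :
    (S.tp h).m f * y = y * (S.tp h).m f := by
  rw [← e, Side.tp_m, ← map_mul, ← map_mul, hc]

end tp

variable {E : Type} [Group E] [TopologicalSpace E] [IsTopologicalGroup E] [LocallyCompactSpace E]
  [SecondCountableTopology E] [T2Space E] [MeasurableSpace E] [BorelSpace E]
  {Λ : Subgroup E} [DiscreteTopology Λ] [Countable Λ] [MeasurableSpace (E ⧸ Λ)]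
  [BorelSpace (E ⧸ Λ)] {ν : Measure (E ⧸ Λ)} [IsProbabilityMeasure ν]
  (hν : ∀ g : E, ν.map (fun x => g • x) = ν) (μ : Measure E) [μ.IsHaarMeasure]
  {G : Type} [Group G] [TopologicalSpace G] [IsTopologicalGroup G] [LocallyCompactSpace G]
  [SecondCountableTopology G] [T2Space G] [MeasurableSpace G] [BorelSpace G]
  {Γ : Subgroup G} [DiscreteTopology Γ] [Countable Γ] [MeasurableSpace (G ⧸ Γ)]
  [BorelSpace (G ⧸ Γ)] {ν' : Measure (G ⧸ Γ)} [IsProbabilityMeasure ν']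
  (hν' : ∀ g : G, ν'.map (fun x => g • x) = ν') (μ' : Measure G) [μ'.IsHaarMeasure]
  {H : Type} [NormedAddCommGroup H] [InnerProductSpace ℂ H] [CompleteSpace H]
  [SecondCountableTopology H] {V : Λ →* (H →L[ℂ] H)} {R : Γ →* (H →L[ℂ] H)}
  {sc : Set (H →L[ℂ] H)} {Q P : H →L[ℂ] H} {η ξ : H} {κ : ℝ≥0}

theorem ipi_comp (hV : ∀ l, adjoint (V l) = V l⁻¹) (g : E) {a : H →L[ℂ] H}
    (h : ∀ l, a * V l = V l * a) :
    ipi hν hV g * a.compLpL 2 ν = a.compLpL 2 ν * ipi hν hV g := pi_comp (cdat ν hν) hV g h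

theorem lf_ipi {Y : Type} [MeasurableSpace Y] [MeasurableSpace.CountablyGenerated Y]
    (ρ : Measure Y) [IsProbabilityMeasure ρ]
    (hV : ∀ l, adjoint (V l) = V l⁻¹) (g : E) :
    Lf ρ (ipi hν hV g) (ipi hν (adj_lft (ρ := ρ) hV) g) := fun B hB F => Lp.ext (by
  filter_upwards [ipi_ae hν (adj_lft (ρ := ρ) hV) g ((tens ρ H B).compLpL 2 ν F), ipi_ae hν hV g F,
    (tens ρ H B).coeFn_compLpL (ipi hν hV g F),
    ae_comp ((cdat ν hν).mp g⁻¹) ((tens ρ H B).coeFn_compLpL F)] with x a b c d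
  rw [a, c, b]
  exact (congrArg _ d).trans (comp_tens hB _ _))

/-- operators commuting with the functions and the induced representation are constant -/
theorem exists_const (hV : ∀ l, adjoint (V l) = V l⁻¹) {T : Lp H 2 ν →L[ℂ] Lp H 2 ν}
    (hT : Cm (Ws ν sc) T) (hc : Cp (ipi hν hV) T) :
    ∃ a, Cm sc a ∧ (∀ l, a * V l = V l * a) ∧ T = a.compLpL 2 ν := by
  obtain ⟨B, _, ⟨b⟩⟩ := Vale.Agent.P092.H678.OV.exists_cb H
  obtain ⟨a, h1, rfl, -⟩ := GF.const_of_comm hν b hV (dcm_of hT) hc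
  exact ⟨a, fun w hw => comp_inj (ρ := ν) (by
    rw [comp_mul, comp_mul]; exact hT _ (.inr ⟨w, hw, rfl⟩)), h1, rfl⟩

theorem xf_unit {D : Type} [Group D] (d : CData D Λ) (hV : ∀ l, adjoint (V l) = V l⁻¹) (g : D) :
    xf d V g ∈ unitary (Lp H 2 d.μ →L[ℂ] Lp H 2 d.μ) := by
  have e : xf d V g = pi d hV g * kp d H g⁻¹ := by
    change _ = xf _ _ _ * kp _ _ _ * _
    rw [mul_assoc, kp_mul_inv, mul_one]
  rw [e]
  refine mul_mem (Unitary.mem_iff.2 ?_) (Unitary.mem_iff.2 ?_)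
  · rw [star_eq_adjoint, adjoint_pi]
    exact ⟨Ind.pi_inv_mul d hV g, Ind.pi_mul_inv d hV g⟩
  · rw [star_eq_adjoint, adjoint_kp]
    exact ⟨kp_inv_mul _ _, kp_mul_inv _ _⟩

/-- the induced representation moves a constant vector by a decomposable unitary -/
theorem exists_xf (hV : ∀ l, adjoint (V l) = V l⁻¹) (g : E) :
    ∃ u ∈ unitary (Lp H 2 ν →L[ℂ] Lp H 2 ν), Dcm u ∧
      (∀ a : H →L[ℂ] H, (∀ l, a * V l = V l * a) → u * a.compLpL 2 ν = a.compLpL 2 ν * u) ∧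
      ∀ v, u (Lp.const 2 ν v) = ipi hν hV g (Lp.const 2 ν v) := by
  have hb := norm_le_of_adj hV
  refine ⟨xf (cdat ν hν) V g, xf_unit (cdat ν hν) hV g, fun S hS => xf_ind (cdat ν hν) hb g hS,
    fun a ha => xf_comp (cdat ν hν) hb g ha, fun v => Lp.ext ?_⟩
  filter_upwards [fld_xf (cdat ν hν) hb g (Lp.const 2 ν v), ipi_ae hν hV g (Lp.const 2 ν v),
    Lp.coeFn_const 2 ν v, ae_comp ((cdat ν hν).mp g⁻¹) (Lp.coeFn_const 2 ν v)] with x a b c d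
  exact (a.trans (congrArg _ (c.trans d.symm))).trans b.symm

theorem comp_unit {X : Type} [MeasurableSpace X] (ρ : Measure X) {u : H →L[ℂ] H}
    (h : u ∈ unitary (H →L[ℂ] H)) : u.compLpL 2 ρ ∈ unitary (Lp H 2 ρ →L[ℂ] Lp H 2 ρ) := by
  rw [Unitary.mem_iff, star_eq_adjoint, comp_adjoint, ← comp_mul, ← comp_mul, ← star_eq_adjoint,
    (Unitary.mem_iff.1 h).1, (Unitary.mem_iff.1 h).2, comp_one]
  exact ⟨rfl, rfl⟩

theorem tp_sw : Tp (sw ν ν' H) (Ws ν' (Ws ν sc)) (Ws ν (Ws ν' sc)) where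
  l := sw_W
  r w hw := by
    obtain ⟨w', h1, h2⟩ := sw_W w hw
    have e : ∀ ζ, (sw ν ν' H).symm ζ = sw ν' ν H ζ := fun ζ =>
      (sw ν ν' H).injective (by rw [LinearIsometryEquiv.apply_symm_apply, sw_sw])
    exact ⟨w', h1, fun ζ => by rw [e, e, h2]⟩

section half

variable (h : Hon R sc P ξ) (hV : ∀ l, adjoint (V l) = V l⁻¹) (hc : ∀ l γ, V l * R γ = R γ * V l)
  (hs : ∀ a ∈ sc, ∀ l, a * V l = V l * a)

/-- the outer side -/
noncomputable def outer (ν : Measure (E ⧸ Λ)) [IsProbabilityMeasure ν] :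
    Side μ' (Ws ν' (Ws ν sc)) := (h.lift (ρ := ν)).side hν' μ'

theorem outer_cp {u : Lp H 2 ν →L[ℂ] Lp H 2 ν} (hu : ∀ γ, u * lft ν R γ = lft ν R γ * u) :
    Cp (outer hν' μ' h ν).π (u.compLpL 2 ν') := fun g =>
  (ipi_comp hν' (adj_lft (ρ := ν) h.adj) g hu).symm

theorem outer_Ω : (outer hν' μ' h ν).Ω = Lp.const 2 ν' (Lp.const 2 ν ξ) := rfl

include hc hs in
theorem outer_exu (g : E) : ∃ u, (outer hν' μ' h ν).M u ∧ u ∈ unitary _ ∧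
    u (outer hν' μ' h ν).Ω = (ipi hν hV g).compLpL 2 ν' (outer hν' μ' h ν).Ω := by
  obtain ⟨u, h1, h2, h3, h4⟩ := exists_xf hν hV g
  refine ⟨u.compLpL 2 ν', ⟨cm_comp (cm_Ws h2 fun a ha => h3 a (hs a ha)),
    outer_cp hν' μ' h fun γ => h3 _ fun l => (hc l γ).symm⟩, comp_unit ν' h1, ?_⟩
  rw [outer_Ω, comp_const, comp_const, h4]

theorem outer_mc {f : G → ℂ} (hf : Bd f) (e : ∀ (x : G) (γ : Γ), f (x * γ) = f x)
    (a : Lp H 2 ν →L[ℂ] Lp H 2 ν) :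
    (outer hν' μ' h ν).m f * a.compLpL 2 ν' = a.compLpL 2 ν' * (outer hν' μ' h ν).m f := by
  rw [outer, Hon.side_m _ _ _ hf e]
  exact (Fld.mulL_comm (fld_comp a) (hf.comp (sec_meas Γ))).symm

theorem outer_Tr {T : Lp (Lp H 2 ν) 2 ν' →L[ℂ] Lp (Lp H 2 ν) 2 ν'} (hT : Cm (Ws ν' (Ws ν sc)) T) :
    (outer hν' μ' h ν).Tr T =
      μ' (fdom Γ) * ∑' γ : Γ, ‖T (Lp.const 2 ν' (Lp.const 2 ν (R γ ξ)))‖ₑ ^ 2 := by
  rw [outer, Hon.side_Tr _ _ _ hT]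
  simp only [← comp_const (R _)]
  rfl

end half

namespace Fib

variable (h : Fib V R sc Q η P ξ κ)

include h in
theorem tr : TR (Ws ν' (Ws ν sc)) (fun γ => Lp.const 2 ν' (Lp.const 2 ν (R γ ξ)))
    (fun l => Lp.const 2 ν' (Lp.const 2 ν (V l η))) κ :=
  (TR.lift (e := fun γ => R γ ξ) (e' := fun l => V l η)
    ⟨⟨sc, subset_rfl, h.cnt, fun _ => id⟩, h.adj, h.tr_eq, h.tr_adj, h.tr_zero⟩
      ENNReal.coe_ne_top).lift ENNReal.coe_ne_top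

/-- the inner side -/
noncomputable def inner (ν' : Measure (G ⧸ Γ)) [IsProbabilityMeasure ν'] :
    Side μ (Ws ν' (Ws ν sc)) := (outer hν μ h.s ν').tp tp_sw

theorem inner_π (g : E) : (h.inner hν μ ν').π g = (ipi hν h.s.adj g).compLpL 2 ν' :=
  conj_eq (lf_ipi hν ν' h.s.adj g).sw

theorem outer_π (g : G) : (sw ν ν' H).symm.conjStarAlgEquiv ((ipi hν' h.t.adj g).compLpL 2 ν) =
    (outer hν' μ' h.t ν).π g := conj_eq (lf_ipi hν' ν h.t.adj g).sw'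

theorem inner_Tr {T : Lp (Lp H 2 ν) 2 ν' →L[ℂ] Lp (Lp H 2 ν) 2 ν'} (hT : Cm (Ws ν' (Ws ν sc)) T) :
    (h.inner hν μ ν').Tr T =
      μ (fdom Λ) * ∑' l : Λ, ‖T (Lp.const 2 ν' (Lp.const 2 ν (V l η)))‖ₑ ^ 2 := by
  rw [inner, Side.tp_Tr, outer_Tr _ _ _ (tp_sw.cm' hT)]
  refine congrArg _ (tsum_congr fun l => ?_)
  rw [← sw_const]
  change ‖sw ν ν' H (T ((sw ν ν' H).symm (sw ν ν' H _)))‖ₑ ^ 2 = _
  rw [LinearIsometryEquiv.enorm_map, LinearIsometryEquiv.symm_apply_apply]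

theorem irr' {T : Lp (Lp H 2 ν) 2 ν' →L[ℂ] Lp (Lp H 2 ν) 2 ν'} (h1 : Cm (Ws ν' (Ws ν sc)) T)
    (h2 : Cp (h.inner hν μ ν').π T) (h3 : Cp (ipi hν' (adj_lft (ρ := ν) h.t.adj)) T) :
    ∃ z : ℂ, T = z • 1 := by
  obtain ⟨A, a1, a2, rfl⟩ := exists_const hν' _ h1 h3
  obtain ⟨a, b1, b2, rfl⟩ := exists_const hν h.s.adj a1 fun g => comp_inj (ρ := ν') (by
    rw [comp_mul, comp_mul, ← h.inner_π hν μ]; exact h2 g)
  obtain ⟨z, rfl⟩ := h.irr a b1 b2 fun γ => comp_inj (ρ := ν) (by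
    rw [comp_mul, comp_mul]; exact a2 γ)
  exact ⟨z, by rw [P092.H790.comp_smul, P092.H790.comp_smul, comp_one, comp_one]⟩

theorem tr_eq' {T : Lp (Lp H 2 ν) 2 ν' →L[ℂ] Lp (Lp H 2 ν) 2 ν'} (hT : Cm (Ws ν' (Ws ν sc)) T) :
    (h.inner hν μ ν').Tr T = ((μ (fdom Λ)).toNNReal * κ / (μ' (fdom Γ)).toNNReal : ℝ≥0) *
      (outer hν' μ' h.t ν).Tr T := by
  have h1 := (fdom_pos Γ ν' hν' μ').ne'
  have h2 := (fdom_lt_top Γ ν' hν' μ').ne
  rw [h.inner_Tr hν μ hT, outer_Tr hν' μ' h.t hT, h.tr.eq T hT,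
    ENNReal.coe_div (ENNReal.toNNReal_ne_zero.2 ⟨h1, h2⟩), ENNReal.coe_mul,
    ENNReal.coe_toNNReal h2, ENNReal.coe_toNNReal (fdom_lt_top Λ ν hν μ).ne, ← mul_assoc,
    ← mul_assoc, ENNReal.div_mul_cancel h1 h2]

theorem exu' (g : G) : ∃ u, (h.inner hν μ ν').M u ∧ u ∈ unitary _ ∧
    u (h.inner hν μ ν').Ω = (outer hν' μ' h.t ν).π g (h.inner hν μ ν').Ω :=
  (outer hν μ h.s ν').tp_exu tp_sw (h.outer_π hν' μ' g)
    (outer_exu hν' hν μ h.s h.t.adj (fun l γ => (h.comm γ l).symm) h.t.scR g)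

theorem mc' {f : E → ℂ} (hf : Bd f) (e : ∀ (x : E) (γ : Λ), f (x * γ) = f x) (g : G) :
    (h.inner hν μ ν').m f * (outer hν' μ' h.t ν).π g =
      (outer hν' μ' h.t ν).π g * (h.inner hν μ ν').m f :=
  (outer hν μ h.s ν').tp_mc tp_sw (h.outer_π hν' μ' g)
    (outer_mc hν μ h.s hf e (ipi hν' h.t.adj g))

/-- **The coupling induced from a fibre.** -/
noncomputable def cpl : Cpl μ μ' (Ws ν' (Ws ν sc)) where
  s := h.inner hν μ ν'
  t := outer hν' μ' h.t ν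
  κ := (μ (fdom Λ)).toNNReal * κ / (μ' (fdom Γ)).toNNReal
  κ_ne := div_ne_zero (mul_ne_zero (ENNReal.toNNReal_ne_zero.2
    ⟨(fdom_pos Λ ν hν μ).ne', (fdom_lt_top Λ ν hν μ).ne⟩) h.κ_ne) (ENNReal.toNNReal_ne_zero.2
    ⟨(fdom_pos Γ ν' hν' μ').ne', (fdom_lt_top Γ ν' hν' μ').ne⟩)
  sep := inferInstance
  Wadj := Ws_adj (Ws_adj h.adj)
  comm g g' := by
    rw [inner_π]
    exact outer_cp hν' μ' h.t (fun γ => ipi_comp hν h.s.adj g fun l => (h.comm l γ).symm) g'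
  tr_eq T := h.tr_eq' hν μ hν' μ'
  tr_adj T hT := (outer_Tr hν' μ' h.t (cm_adj h.tr.adj hT)).trans
    ((congrArg _ (h.tr.ad T hT)).trans (outer_Tr hν' μ' h.t hT).symm)
  tr_zero T hT e := h.tr.ze T hT ((mul_eq_zero.1 ((outer_Tr hν' μ' h.t hT).symm.trans
    e)).resolve_left (fdom_pos Γ ν' hν' μ').ne')
  irr T := h.irr' hν μ hν'
  exu g := by
    rw [inner_π]
    exact outer_exu hν hν' μ' h.t h.s.adj h.comm h.s.scR g
  exu' := h.exu' hν μ hν' μ'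
  mc f hf e g := by
    rw [inner_π]
    exact outer_mc hν' μ' h.t hf e _
  mc' f := h.mc' hν μ hν' μ'

theorem cpl_sπ (g : E) : (h.cpl hν μ hν' μ').s.π g = (ipi hν h.s.adj g).compLpL 2 ν' :=
  h.inner_π hν μ g

theorem cpl_tπ : (h.cpl hν μ hν' μ').t.π = ipi hν' (adj_lft (ρ := ν) h.t.adj) := rfl

theorem cpl_sΓ : (h.cpl hν μ hν' μ').s.Γ = Λ := rfl

theorem cpl_tΓ : (h.cpl hν μ hν' μ').t.Γ = Γ := rfl

end Fib

end Vale.Agent.P092CP
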