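import Vale.Agent.P092CP.Inst
import Vale.Agent.P092EN.Fin

/-!
P092, block P: the induced coupling in the form used by the descent.
-/

namespace Vale.Agent.P092CP

/-- **Every fibre induces a coupling.** -/
theorem inst : Vale.Agent.P092EN.Inst := by
  intro E G _ _ _ _ _ _ _ _ _ _ _ _ _ _ _ _ Λ _ _ _ ν _ _ hν Γ _ _ _ ν' _ _ hν' μ _ μ' _ ℋ _ _ _
    V R sc Q P η ξ κ h
  have := h.sep
  exact ⟨h.cpl hν μ hν' μ', h.cpl_sπ hν μ hν' μ', fun _ => rfl⟩

end Vale.Agent.P092CP
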