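import Vale.Agent.P092CP.Swap

/-!
P092, block P: trace identities and fundamental projections pass from `H` to `L²(X; H)`.
-/

set_option linter.unusedSectionVars false
set_option linter.unusedVariables false

open scoped InnerProductSpace ENNReal NNReal
open MeasureTheory Filter Topology ContinuousLinearMap

namespace Vale.Agent.P092CP

open Vale.Agent.P092.RC (Cm TRN)
open Vale.Agent.P092.H790 Vale.Agent.P092.H34 Vale.Agent.P092.H34.Ind

variable {X : Type} [MeasurableSpace X] {ρ : Measure X} [IsProbabilityMeasure ρ] {H : Type}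
  [NormedAddCommGroup H] [InnerProductSpace ℂ H] [CompleteSpace H] [SecondCountableTopology H]
  {W : Set (H →L[ℂ] H)} {Q Q' : Type} [Countable Q] [Countable Q'] {e : Q → H} {e' : Q' → H}
  {κ : ℝ≥0∞} {T : Lp H 2 ρ →L[ℂ] Lp H 2 ρ}

/-- it is enough to commute with the indicators of a generating family -/
theorem dcm_of_gen [MeasurableSpace.CountablyGenerated X]
    (h : ∀ S ∈ MeasurableSpace.countableGeneratingSet X, T * ind ρ H S = ind ρ H S * T) :
    Dcm T := fun S hS => by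
  have hc : ∀ S, MeasurableSet S → ind ρ H Sᶜ = 1 - ind ρ H S := fun S hS => by
    rw [← mulL_ind hS, ← mulL_ind hS.compl, ← mulL_one, ← mulL_sub Bd.one (Bd.ind hS),
      Set.indicator_compl]
  have hc' : ∀ S, MeasurableSet S → Cm {T} (ind ρ H S) → Cm {T} (ind ρ H Sᶜ) := fun S hS h => by
    rw [hc S hS]; exact cm_sub cm_one h
  have h0 : Cm {T} (ind ρ H ∅) := by
    rw [← Set.compl_univ]; exact hc' _ .univ (by rw [ind_univ]; exact cm_one)
  have key : MeasurableSet S ∧ Cm {T} (ind ρ H S) := by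
    rw [← MeasurableSpace.generateFrom_countableGeneratingSet (α := X)] at hS
    refine MeasurableSpace.generateFrom_induction _
      (fun S _ => MeasurableSet S ∧ Cm {T} (ind ρ H S)) (fun t ht _ =>
        ⟨MeasurableSpace.measurableSet_countableGeneratingSet ht, ?_⟩) ⟨.empty, h0⟩
      (fun t _ ht => ⟨ht.1.compl, hc' _ ht.1 ht.2⟩)
      (fun s _ hs => ⟨.iUnion fun n => (hs n).1, ?_⟩) S hS
    · rintro _ rfl
      exact (h t ht).symm
    have hm : ∀ F : Finset ℕ, MeasurableSet (⋃ i ∈ F, s i) := fun F =>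
      Finset.measurableSet_biUnion F fun i _ => (hs i).1
    have h1 : ∀ F : Finset ℕ, Cm {T} (ind ρ H (⋃ i ∈ F, s i)) := fun F => by
      induction F using Finset.induction_on with
      | empty => simpa using h0
      | insert a F _ ih =>
        rw [Finset.set_biUnion_insert, Set.union_eq_compl_compl_inter_compl]
        refine hc' _ ((hs a).1.compl.inter (hm F).compl) ?_
        rw [← ind_mul (hs a).1.compl (hm F).compl]
        exact cm_mul (hc' _ (hs a).1 (hs a).2) (hc' _ (hm F) ih)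
    refine cm_of_weak (l := atTop) (Eventually.of_forall h1) fun ξ η =>
      tendsto_const_nhds.inner ?_
    simp only [← mulL_ind (hm _), ← mulL_ind (MeasurableSet.iUnion fun n => (hs n).1)]
    exact tendsto_mulL (C := 1) (fun F => (Bd.ind (hm F)).meas)
      (fun F x => (norm_indicator_le_norm_self _ _).trans (by simp))
      (Bd.ind (.iUnion fun n => (hs n).1)) (Eventually.of_forall fun x =>
        (tendsto_indicator_biUnion_finset s 1 x).mono_right (pure_le_nhds _)) ξ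
  exact (key.2 T rfl).symm

/-- the trace identities for two families of vectors -/
structure TR (W : Set (H →L[ℂ] H)) (e : Q → H) (e' : Q' → H) (κ : ℝ≥0∞) : Prop where
  cg : ∃ C ⊆ W, C.Countable ∧ ∀ T, Cm C T → Cm W T
  adj : ∀ w ∈ W, adjoint w ∈ W
  eq : ∀ T, Cm W T → ∑' q, ‖T (e' q)‖ₑ ^ 2 = κ * ∑' q, ‖T (e q)‖ₑ ^ 2
  ad : ∀ T, Cm W T → ∑' q, ‖adjoint T (e q)‖ₑ ^ 2 = ∑' q, ‖T (e q)‖ₑ ^ 2
  ze : ∀ T, Cm W T → ∑' q, ‖T (e q)‖ₑ ^ 2 = 0 → T = 0

theorem exists_fld_cm {C : Set (H →L[ℂ] H)} (hC : C.Countable) (hT : Dcm T)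
    (h : ∀ a ∈ C, T * a.compLpL 2 ρ = a.compLpL 2 ρ * T) :
    ∃ A : X → H →L[ℂ] H, (∀ y, AEStronglyMeasurable (fun x => A x y) ρ) ∧ Fld T A ∧
      ∀ᵐ x ∂ρ, Cm C (A x) := by
  obtain ⟨B, _, ⟨b⟩⟩ := Vale.Agent.P092.H678.OV.exists_cb H
  obtain ⟨A, -, h1, h2⟩ := hT.exists_fld b
  exact ⟨A, h1, h2, (ae_ball_iff hC).2 fun a ha => fld_unique b (h2.mul (fld_comp a))
    (h a ha ▸ (fld_comp a).mul h2)⟩

theorem tsum_fld {A : X → H →L[ℂ] H} (h : Fld T A)
    (hA : ∀ y, AEStronglyMeasurable (fun x => A x y) ρ) (e : Q → H) :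
    ∑' q, ‖T (Lp.const 2 ρ (e q))‖ₑ ^ 2 = ∫⁻ x, ∑' q, ‖A x (e q)‖ₑ ^ 2 ∂ρ := by
  rw [lintegral_tsum fun q => (hA (e q)).enorm.pow_const 2]
  refine tsum_congr fun q => enorm_of_ae ?_
  filter_upwards [h (Lp.const 2 ρ (e q)), Lp.coeFn_const 2 ρ (e q)] with x a b
  rw [a, b]; rfl

theorem Ws_adj (h : ∀ w ∈ W, adjoint w ∈ W) : ∀ w ∈ Ws ρ W, adjoint w ∈ Ws ρ W := by
  rintro _ (⟨S, hS, rfl⟩ | ⟨a, ha, rfl⟩)
  · exact .inl ⟨S, hS, adjoint_ind hS⟩
  · exact .inr ⟨_, h a ha, comp_adjoint a⟩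

theorem cm_Ws (h1 : Dcm T) (h2 : ∀ a ∈ W, T * a.compLpL 2 ρ = a.compLpL 2 ρ * T) :
    Cm (Ws ρ W) T := by
  rintro _ (⟨S, hS, rfl⟩ | ⟨a, ha, rfl⟩)
  exacts [h1 S hS, h2 a ha]

theorem cm_comp {a : H →L[ℂ] H} (h : Cm W a) : Cm (Ws ρ W) (a.compLpL 2 ρ) :=
  cm_Ws (fun S hS => ind_comp hS a) fun w hw => by rw [← comp_mul, ← comp_mul, h w hw]

theorem comp_inj {a b : H →L[ℂ] H} (h : a.compLpL 2 ρ = b.compLpL 2 ρ) : a = b := by
  obtain ⟨B, _, ⟨c⟩⟩ := Vale.Agent.P092.H678.OV.exists_cb H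
  exact (fld_unique c (fld_comp (μ := ρ) a) (h ▸ fld_comp b)).exists.choose_spec

theorem TR.fld (h : TR W e e' κ) (hT : Cm (Ws ρ W) T) :
    ∃ A : X → H →L[ℂ] H, (∀ y, AEStronglyMeasurable (fun x => A x y) ρ) ∧ Fld T A ∧
      ∀ᵐ x ∂ρ, Cm W (A x) := by
  obtain ⟨C, h1, h2, h3⟩ := h.cg
  obtain ⟨A, a1, a2, a3⟩ := exists_fld_cm h2 (dcm_of hT) fun a ha => hT _ (.inr ⟨a, h1 ha, rfl⟩)
  exact ⟨A, a1, a2, a3.mono fun x => h3 _⟩

theorem TR.lift [MeasurableSpace.CountablyGenerated X] (h : TR W e e' κ) (hκ : κ ≠ ∞) :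
    TR (Ws ρ W) (fun q => Lp.const 2 ρ (e q)) (fun q => Lp.const 2 ρ (e' q)) κ where
  cg := by
    obtain ⟨C, h1, h2, h3⟩ := h.cg
    refine ⟨ind ρ H '' MeasurableSpace.countableGeneratingSet X ∪ (fun a => a.compLpL 2 ρ) '' C,
      ?_, (MeasurableSpace.countable_countableGeneratingSet.image _).union (h2.image _),
      fun T hT => ?_⟩
    · rintro _ (⟨S, hS, rfl⟩ | ⟨a, ha, rfl⟩)
      · exact .inl ⟨S, MeasurableSpace.measurableSet_countableGeneratingSet hS, rfl⟩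
      · exact .inr ⟨a, h1 ha, rfl⟩
    · have hd := dcm_of_gen fun S hS => hT _ (.inl ⟨S, hS, rfl⟩)
      obtain ⟨A, -, a2, a3⟩ := exists_fld_cm h2 hd fun a ha => hT _ (.inr ⟨a, ha, rfl⟩)
      exact cm_Ws hd fun a ha => (a2.mul (fld_comp a)).ext ((fld_comp a).mul a2)
        (a3.mono fun x hx => h3 _ hx a ha)
  adj := Ws_adj h.adj
  eq T hT := by
    obtain ⟨A, a1, a2, a3⟩ := h.fld hT
    rw [tsum_fld a2 a1, tsum_fld a2 a1, ← lintegral_const_mul' _ _ hκ]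
    exact lintegral_congr_ae (a3.mono fun x hx => h.eq _ hx)
  ad T hT := by
    obtain ⟨B, _, ⟨b⟩⟩ := Vale.Agent.P092.H678.OV.exists_cb H
    obtain ⟨A, a1, a2, a3⟩ := h.fld hT
    obtain ⟨A', b1, b2, -⟩ := h.fld (cm_adj (Ws_adj h.adj) hT)
    rw [tsum_fld a2 a1, tsum_fld b2 b1]
    refine lintegral_congr_ae ?_
    filter_upwards [fld_adj b (dcm_of hT) a2 b2, a3] with x e1 e2
    rw [e1, h.ad _ e2]
  ze T hT h0 := by
    obtain ⟨A, a1, a2, a3⟩ := h.fld hT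
    rw [tsum_fld a2 a1, lintegral_eq_zero_iff'
      (AEMeasurable.tsum fun q => (a1 (e q)).enorm.pow_const 2)] at h0
    refine a2.ext fld_zero ?_
    filter_upwards [h0, a3] with x e1 e2
    exact h.ze _ e2 e1

variable {Γ : Type} [Group Γ] [Countable Γ] {R : Γ →* (H →L[ℂ] H)} {P : H →L[ℂ] H} {ξ : H}

theorem adj_lft (hR : ∀ γ, adjoint (R γ) = R γ⁻¹) (γ : Γ) : adjoint (lft ρ R γ) = lft ρ R γ⁻¹ := by
  have h := comp_adjoint (μ := ρ) (R γ)
  rwa [hR] at h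

theorem Hon.lift (h : Hon R W P ξ) :
    Hon (lft ρ R) (Ws ρ W) (P.compLpL 2 ρ) (Lp.const 2 ρ ξ) where
  adj := adj_lft h.adj
  sa := by rw [comp_adjoint, h.sa]
  idem := by rw [← comp_mul, h.idem]
  orth γ hγ := by
    change _ * (R γ).compLpL 2 ρ * _ = _
    rw [← comp_mul, ← comp_mul, h.orth γ hγ]
    exact (fld_comp 0).ext fld_zero EventuallyEq.rfl
  sum F := by
    have h1 : ∀ γ, ⇑(P.compLpL 2 ρ (lft ρ R γ F)) =ᵐ[ρ] fun x => P (R γ (F x)) := fun γ =>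
      ((fld_comp P).mul (fld_comp (R γ))) F
    simp only [enorm_of_ae (h1 _)]
    rw [← lintegral_tsum (f := fun γ x => ‖P (R γ (F x))‖ₑ ^ 2) fun γ =>
      ((P * R γ).continuous.comp_aestronglyMeasurable
      (Lp.aestronglyMeasurable F)).enorm.pow_const 2, enorm_sq]
    exact lintegral_congr fun x => h.sum _
  scP w hw := (cm_comp (fun a ha => (h.scP a ha).symm) w hw).symm
  scR w hw γ := (cm_comp (fun a ha => (h.scR a ha γ).symm) w hw).symm
  fix := by rw [comp_const, h.fix]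
  nrm := by rw [Lp.norm_const _ _ _ two_ne_zero, h.nrm]; simp

end Vale.Agent.P092CP
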