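import Vale.Agent.P092CP.Defs

/-!
P092, block P: bounded Borel functions, multiplication operators, commutants.
-/

set_option linter.unusedSectionVars false

open scoped InnerProductSpace ENNReal NNReal
open MeasureTheory Filter Topology ContinuousLinearMap

namespace Vale.Agent.P092CP

open Vale.Agent.P092.RC (Cm)
open Vale.Agent.P092.H790 (fop Fld fop_spec norm_fop_le fld_one fld_zero ind fld_ind)

section bd

variable {X Y : Type} [MeasurableSpace X] [MeasurableSpace Y] {f g : X → ℂ}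

theorem Bd.of_le (hm : Measurable f) {C : ℝ} (h : ∀ x, ‖f x‖ ≤ C) : Bd f := ⟨hm, C, h⟩

theorem Bd.nonneg (hf : Bd f) : ∃ C : ℝ, 0 ≤ C ∧ ∀ x, ‖f x‖ ≤ C := by
  obtain ⟨C, h⟩ := hf.bdd
  exact ⟨|C|, abs_nonneg C, fun x => (h x).trans (le_abs_self C)⟩

theorem Bd.const (c : ℂ) : Bd fun _ : X => c := ⟨measurable_const, ‖c‖, fun _ => le_rfl⟩

theorem Bd.one : Bd (1 : X → ℂ) := Bd.const 1

theorem Bd.zero : Bd (0 : X → ℂ) := Bd.const 0

theorem Bd.add (hf : Bd f) (hg : Bd g) : Bd (f + g) := by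
  obtain ⟨C, h⟩ := hf.bdd
  obtain ⟨C', h'⟩ := hg.bdd
  exact ⟨hf.meas.add hg.meas, C + C', fun x => (norm_add_le _ _).trans (add_le_add (h x) (h' x))⟩

theorem Bd.sub (hf : Bd f) (hg : Bd g) : Bd (f - g) := by
  obtain ⟨C, h⟩ := hf.bdd
  obtain ⟨C', h'⟩ := hg.bdd
  exact ⟨hf.meas.sub hg.meas, C + C', fun x => (norm_sub_le _ _).trans (add_le_add (h x) (h' x))⟩

theorem Bd.mul (hf : Bd f) (hg : Bd g) : Bd (f * g) := by
  obtain ⟨C, h0, h⟩ := hf.nonneg
  obtain ⟨C', h'⟩ := hg.bdd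
  exact ⟨hf.meas.mul hg.meas, C * C', fun x =>
    (norm_mul_le _ _).trans (mul_le_mul (h x) (h' x) (norm_nonneg _) h0)⟩

theorem Bd.smul (c : ℂ) (hf : Bd f) : Bd (c • f) := (Bd.const c).mul hf

theorem Bd.star (hf : Bd f) : Bd (star f) := by
  obtain ⟨C, h⟩ := hf.bdd
  exact ⟨continuous_star.measurable.comp hf.meas, C, fun x => by
    rw [Pi.star_apply, norm_star]; exact h x⟩

theorem Bd.comp (hf : Bd f) {e : Y → X} (he : Measurable e) : Bd fun y => f (e y) := by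
  obtain ⟨C, h⟩ := hf.bdd
  exact ⟨hf.meas.comp he, C, fun y => h _⟩

theorem Bd.indicator (hf : Bd f) {A : Set X} (hA : MeasurableSet A) : Bd (A.indicator f) := by
  obtain ⟨C, h⟩ := hf.bdd
  exact ⟨hf.meas.indicator hA, C, fun x => by
    by_cases hx : x ∈ A
    · rw [Set.indicator_of_mem hx]; exact h x
    · rw [Set.indicator_of_notMem hx, norm_zero]; exact (norm_nonneg _).trans (h x)⟩

theorem Bd.ind {A : Set X} (hA : MeasurableSet A) : Bd (A.indicator (1 : X → ℂ)) :=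
  Bd.one.indicator hA

theorem Bd.sum {ι : Type*} (s : Finset ι) {F : ι → X → ℂ} (h : ∀ i ∈ s, Bd (F i)) :
    Bd (∑ i ∈ s, F i) :=
  Finset.sum_induction _ _ (fun _ _ => Bd.add) Bd.zero h

theorem Bd.ofReal {r : X → ℝ} (hm : Measurable r) {C : ℝ} (h : ∀ x, |r x| ≤ C) :
    Bd fun x => (r x : ℂ) :=
  ⟨Complex.measurable_ofReal.comp hm, C, fun x => by rw [Complex.norm_real]; exact h x⟩

end bd

section mul

variable {X H : Type} [MeasurableSpace X] {μ : Measure X} [NormedAddCommGroup H]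
  [InnerProductSpace ℂ H] {f g : X → ℂ}

theorem norm_smul_one_le (c : ℂ) : ‖c • (1 : H →L[ℂ] H)‖ ≤ ‖c‖ :=
  opNorm_le_bound _ (norm_nonneg _) fun y => (norm_smul c y).le

theorem fld_mulL (hf : Bd f) : Fld (mulL μ H f) fun x => f x • (1 : H →L[ℂ] H) := by
  obtain ⟨C, h⟩ := hf.bdd
  exact fop_spec (C := C) (fun y => hf.meas.aestronglyMeasurable.smul_const y)
    fun x => (norm_smul_one_le _).trans (h x)

theorem mulL_ae (hf : Bd f) (ξ : Lp H 2 μ) : ⇑(mulL μ H f ξ) =ᵐ[μ] fun x => f x • ξ x :=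
  fld_mulL hf ξ

theorem norm_mulL_le (hm : Measurable f) {C : ℝ} (h0 : 0 ≤ C) (h : ∀ x, ‖f x‖ ≤ C) :
    ‖mulL μ H f‖ ≤ C :=
  norm_fop_le (fun y => hm.aestronglyMeasurable.smul_const y) h0
    fun x => (norm_smul_one_le _).trans (h x)

theorem mulL_congr (hf : Bd f) (hg : Bd g) (h : f =ᵐ[μ] g) : mulL μ H f = mulL μ H g :=
  (fld_mulL hf).ext (fld_mulL hg) (h.mono fun x hx => by rw [hx])

theorem mulL_mul (hf : Bd f) (hg : Bd g) : mulL μ H (f * g) = mulL μ H f * mulL μ H g :=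
  (fld_mulL (hf.mul hg)).ext ((fld_mulL hf).mul (fld_mulL hg)) (Eventually.of_forall fun x => by
    rw [smul_mul_smul_comm, mul_one]; rfl)

theorem mulL_add (hf : Bd f) (hg : Bd g) : mulL μ H (f + g) = mulL μ H f + mulL μ H g :=
  (fld_mulL (hf.add hg)).ext ((fld_mulL hf).add (fld_mulL hg)) (Eventually.of_forall fun x => by
    rw [← add_smul]; rfl)

theorem mulL_sub (hf : Bd f) (hg : Bd g) : mulL μ H (f - g) = mulL μ H f - mulL μ H g :=
  (fld_mulL (hf.sub hg)).ext ((fld_mulL hf).sub (fld_mulL hg)) (Eventually.of_forall fun x => by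
    rw [← sub_smul]; rfl)

theorem mulL_smul (c : ℂ) (hf : Bd f) : mulL μ H (c • f) = c • mulL μ H f :=
  (fld_mulL (hf.smul c)).ext ((fld_mulL hf).smul c) (Eventually.of_forall fun x => by
    rw [smul_smul]; rfl)

theorem mulL_const (c : ℂ) : mulL μ H (fun _ => c) = c • (1 : Lp H 2 μ →L[ℂ] Lp H 2 μ) :=
  (fld_mulL (Bd.const c)).ext (fld_one.smul c) (Eventually.of_forall fun _ => rfl)

theorem mulL_one : mulL μ H 1 = 1 := (mulL_const 1).trans (one_smul _ _)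

theorem mulL_zero : mulL μ H 0 = 0 := (mulL_const 0).trans (zero_smul _ _)

theorem adjoint_mulL [CompleteSpace H] (hf : Bd f) : adjoint (mulL μ H f) = mulL μ H (star f) :=
  (fld_mulL hf).adjoint (fld_mulL hf.star) (Eventually.of_forall fun x => by
    rw [← star_eq_adjoint, star_smul, star_one]; rfl)

theorem mulL_ind {A : Set X} (hA : MeasurableSet A) : mulL μ H (A.indicator 1) = ind μ H A := by
  classical
  refine (fld_mulL (Bd.ind hA)).ext (fld_ind hA) (Eventually.of_forall fun x => ?_)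
  by_cases hx : x ∈ A <;> simp [hx]

theorem Fld.mulL_comm {T : Lp H 2 μ →L[ℂ] Lp H 2 μ} {A : X → H →L[ℂ] H} (hT : Fld T A)
    (hf : Bd f) : T * mulL μ H f = mulL μ H f * T :=
  (hT.mul (fld_mulL hf)).ext ((fld_mulL hf).mul hT) (Eventually.of_forall fun x => by
    rw [mul_smul_comm, smul_mul_assoc, mul_one, one_mul])

theorem enorm_sq (ξ : Lp H 2 μ) : ‖ξ‖ₑ ^ 2 = ∫⁻ x, ‖ξ x‖ₑ ^ 2 ∂μ := by
  have h1 := eLpNorm_nnreal_pow_eq_lintegral (f := ξ) (μ := μ) (p := 2) (by norm_num)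
  rw [Lp.enorm_def]
  simpa using h1

theorem enorm_mulL (hf : Bd f) (ξ : Lp H 2 μ) :
    ‖mulL μ H f ξ‖ₑ ^ 2 = ∫⁻ x, ‖f x‖ₑ ^ 2 * ‖ξ x‖ₑ ^ 2 ∂μ := by
  rw [enorm_sq]
  refine lintegral_congr_ae ((mulL_ae hf ξ).mono fun x hx => ?_)
  simp only [hx, enorm_smul, mul_pow]

theorem inner_mulL (hf : Bd f) (ξ η : Lp H 2 μ) :
    ⟪ξ, mulL μ H f η⟫_ℂ = ∫ x, f x * ⟪ξ x, η x⟫_ℂ ∂μ := by
  rw [L2.inner_def]
  exact integral_congr_ae ((mulL_ae hf η).mono fun x hx => by simp only [hx, inner_smul_right])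

theorem meas_sq (ξ : Lp H 2 μ) : AEMeasurable (fun x => ‖ξ x‖ₑ ^ 2) μ :=
  (Lp.aestronglyMeasurable ξ).enorm.pow_const 2

theorem tendsto_of_enorm_sq {ι E : Type*} [NormedAddCommGroup E] {l : Filter ι} {u : ι → E}
    {v : E} (h : Tendsto (fun i => ‖u i - v‖ₑ ^ 2) l (𝓝 0)) : Tendsto u l (𝓝 v) := by
  rw [tendsto_iff_enorm_sub_tendsto_zero]
  have h1 := (ENNReal.continuous_rpow_const (y := 1 / 2)).continuousAt.tendsto.comp h
  rw [ENNReal.zero_rpow_of_pos (by norm_num)] at h1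
  refine h1.congr fun i => ?_
  rw [Function.comp, ← ENNReal.rpow_natCast, ← ENNReal.rpow_mul]
  norm_num

/-- dominated convergence -/
theorem tendsto_mulL {ι : Type*} {l : Filter ι} [l.IsCountablyGenerated] {F : ι → X → ℂ} {C : ℝ}
    (hm : ∀ i, Measurable (F i)) (hC : ∀ i x, ‖F i x‖ ≤ C) (hf : Bd f)
    (h : ∀ᵐ x ∂μ, Tendsto (fun i => F i x) l (𝓝 (f x))) (ξ : Lp H 2 μ) :
    Tendsto (fun i => mulL μ H (F i) ξ) l (𝓝 (mulL μ H f ξ)) := by
  obtain ⟨C', h'⟩ := hf.bdd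
  have hF : ∀ i, Bd (F i) := fun i => ⟨hm i, C, hC i⟩
  refine tendsto_of_enorm_sq ?_
  have e : ∀ i, ‖mulL μ H (F i) ξ - mulL μ H f ξ‖ₑ ^ 2 =
      ∫⁻ x, ‖F i x - f x‖ₑ ^ 2 * ‖ξ x‖ₑ ^ 2 ∂μ := fun i => by
    rw [← sub_apply (mulL μ H (F i)), ← mulL_sub (hF i) hf, enorm_mulL ((hF i).sub hf)]; rfl
  simp_rw [e]
  have h2 := tendsto_lintegral_filter_of_dominated_convergence' (μ := μ) (l := l)
    (F := fun i x => ‖F i x - f x‖ₑ ^ 2 * ‖ξ x‖ₑ ^ 2) (f := fun _ => 0)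
    (fun x => ENNReal.ofReal (C + C') ^ 2 * ‖ξ x‖ₑ ^ 2)
    (Eventually.of_forall fun i =>
      (((hm i).sub hf.meas).enorm.pow_const 2).aemeasurable.mul (meas_sq ξ))
    (Eventually.of_forall fun i => Eventually.of_forall fun x => by
      have : ‖F i x - f x‖ₑ ≤ ENNReal.ofReal (C + C') := by
        rw [← ofReal_norm]
        exact ENNReal.ofReal_le_ofReal ((norm_sub_le _ _).trans (add_le_add (hC i x) (h' x)))
      gcongr)
    (by
      rw [lintegral_const_mul' _ _ (ENNReal.pow_ne_top ENNReal.ofReal_ne_top), ← enorm_sq]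
      exact ENNReal.mul_ne_top (ENNReal.pow_ne_top ENNReal.ofReal_ne_top)
        (ENNReal.pow_ne_top enorm_ne_top))
    (h.mono fun x hx => by
      have h3 : Tendsto (fun i => ‖F i x - f x‖ₑ ^ 2) l (𝓝 0) := by
        have := (ENNReal.continuous_pow 2).continuousAt.tendsto.comp
          (tendsto_iff_enorm_sub_tendsto_zero.1 hx)
        simpa [Function.comp_def] using this
      simpa using ENNReal.Tendsto.mul_const h3 (Or.inr (ENNReal.pow_ne_top enorm_ne_top)))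
  simpa using h2

end mul

section cm

variable {K : Type} [NormedAddCommGroup K] [InnerProductSpace ℂ K] [CompleteSpace K]
  {W : Set (K →L[ℂ] K)} {x y : K →L[ℂ] K}

theorem cm_mul (hx : Cm W x) (hy : Cm W y) : Cm W (x * y) := fun a ha => by
  rw [mul_assoc, hy a ha, ← mul_assoc, hx a ha, mul_assoc]

theorem cm_add (hx : Cm W x) (hy : Cm W y) : Cm W (x + y) := fun a ha => by
  rw [add_mul, mul_add, hx a ha, hy a ha]

theorem cm_sub (hx : Cm W x) (hy : Cm W y) : Cm W (x - y) := fun a ha => by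
  rw [sub_mul, mul_sub, hx a ha, hy a ha]

theorem cm_neg (hx : Cm W x) : Cm W (-x) := fun a ha => by rw [neg_mul, mul_neg, hx a ha]

theorem cm_smul (c : ℂ) (hx : Cm W x) : Cm W (c • x) := fun a ha => by
  rw [smul_mul_assoc, mul_smul_comm, hx a ha]

theorem cm_one : Cm W (1 : K →L[ℂ] K) := fun a _ => by rw [one_mul, mul_one]

theorem cm_zero : Cm W (0 : K →L[ℂ] K) := fun a _ => by rw [zero_mul, mul_zero]

theorem cm_sum {ι : Type*} (s : Finset ι) {F : ι → K →L[ℂ] K} (h : ∀ i ∈ s, Cm W (F i)) :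
    Cm W (∑ i ∈ s, F i) :=
  Finset.sum_induction _ _ (fun _ _ => cm_add) cm_zero h

theorem cm_pow (hx : Cm W x) (n : ℕ) : Cm W (x ^ n) := fun a ha =>
  ((show Commute x a from hx a ha).pow_left n).eq

theorem cm_adj (hW : ∀ w ∈ W, adjoint w ∈ W) (hx : Cm W x) : Cm W (adjoint x) := fun w hw => by
  have h1 := congrArg Star.star (hx _ (hW w hw))
  rw [star_mul, star_mul, star_eq_adjoint, star_eq_adjoint, adjoint_adjoint] at h1
  exact h1.symm

/-- the commutant is closed under weak limits -/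
theorem cm_of_weak {ι : Type*} {l : Filter ι} [l.NeBot] {F : ι → K →L[ℂ] K}
    (hF : ∀ᶠ i in l, Cm W (F i)) (h : ∀ ξ η, Tendsto (fun i => ⟪η, F i ξ⟫_ℂ) l (𝓝 ⟪η, x ξ⟫_ℂ)) :
    Cm W x := fun w hw => by
  refine ContinuousLinearMap.ext fun ξ => ext_inner_left ℂ fun η => ?_
  have h1 := h ξ (adjoint w η)
  rw [adjoint_inner_left] at h1
  refine tendsto_nhds_unique (h (w ξ) η) (h1.congr' (hF.mono fun i hi => ?_))
  simp only
  rw [adjoint_inner_left]
  exact congrArg (fun T : K →L[ℂ] K => ⟪η, T ξ⟫_ℂ) (hi w hw).symm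

/-- the commutant is closed under the continuous functional calculus -/
theorem cm_cfc (hW : ∀ w ∈ W, adjoint w ∈ W) (hx : Cm W x) (f : ℂ → ℂ) : Cm W (cfc f x) :=
  fun w hw => (Commute.cfc (show Commute x w from hx w hw)
    (show Commute (star x) w from cm_adj hW hx w hw) f).eq

theorem cm_cfcR (hx : Cm W x) (f : ℝ → ℝ) : Cm W (cfc f x) :=
  fun w hw => (Commute.cfc_real (show Commute x w from hx w hw) f).eq

variable {G : Type} [Group G] {π : G →* (K →L[ℂ] K)}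

theorem cp_iff : Cp π x ↔ Cm (Set.range π) x :=
  ⟨fun h _ ⟨g, hg⟩ => hg ▸ h g, fun h g => h _ ⟨g, rfl⟩⟩

theorem pi_mul_inv (g : G) : π g * π g⁻¹ = 1 := by rw [← map_mul, mul_inv_cancel, map_one]

theorem pi_inv_mul (g : G) : π g⁻¹ * π g = 1 := by rw [← map_mul, inv_mul_cancel, map_one]

theorem ap_eq (h : x = y) (ξ : K) : x ξ = y ξ := by rw [h]

theorem pi_inv_ap (g : G) (ξ : K) : π g⁻¹ (π g ξ) = ξ := ap_eq (pi_inv_mul g) ξ

theorem pi_ap_inv (g : G) (ξ : K) : π g (π g⁻¹ ξ) = ξ := ap_eq (pi_mul_inv g) ξ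

theorem pi_ap (g h : G) (ξ : K) : π g (π h ξ) = π (g * h) ξ := ap_eq (map_mul π g h).symm ξ

theorem Cp.ap (h : Cp π x) (g : G) (ξ : K) : x (π g ξ) = π g (x ξ) := ap_eq (h g) ξ

theorem Cp.conj (h : Cp π x) (g : G) : π g * x * π g⁻¹ = x := by
  rw [← h g, mul_assoc, pi_mul_inv, mul_one]

theorem cp_of_conj (h : ∀ g, π g * x * π g⁻¹ = x) : Cp π x := fun g => by
  conv_lhs => rw [← h g]
  rw [mul_assoc, pi_inv_mul, mul_one]

end cm

end Vale.Agent.P092CP
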