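import Vale.Agent.P092CP.Gram
import Vale.Agent.P092CP.Fib
import Vale.Agent.P092.H34.Grp
import Vale.Agent.P092.H678.O.Cmp

/-!
P092, block P: an induced representation with a fundamental projection is one side of a coupling.
-/

set_option linter.unusedSectionVars false
set_option linter.unusedVariables false

open scoped InnerProductSpace ENNReal NNReal
open MeasureTheory Filter Topology ContinuousLinearMap

namespace Vale.Agent.P092CP

open Vale.Agent.P092.RC (Cm TRN)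
open Vale.Agent.P092.H790 Vale.Agent.P092.H85 Vale.Agent.P092.H34 Vale.Agent.P092.H34.Ind
  Vale.Agent.P092.H34.Grp Vale.Agent.P092.H515

variable {E : Type} [Group E] [TopologicalSpace E] [IsTopologicalGroup E] [LocallyCompactSpace E]
  [SecondCountableTopology E] [T2Space E] [MeasurableSpace E] [BorelSpace E]
  {Λ : Subgroup E} [DiscreteTopology Λ] [Countable Λ] [MeasurableSpace (E ⧸ Λ)]
  [BorelSpace (E ⧸ Λ)] {ν : Measure (E ⧸ Λ)} [IsProbabilityMeasure ν]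
  (hν : ∀ g : E, ν.map (fun x => g • x) = ν) (μ : Measure E) [μ.IsHaarMeasure]
  {H : Type} [NormedAddCommGroup H] [InnerProductSpace ℂ H] [CompleteSpace H]
  [SecondCountableTopology H] {R : Λ →* (H →L[ℂ] H)} {sc : Set (H →L[ℂ] H)} {P : H →L[ℂ] H} {ξ : H}

/-- multiplications and constant coefficients (`H34.Ind.Wset`) -/
def Ws {X : Type} [MeasurableSpace X] (ρ : Measure X) (sc : Set (H →L[ℂ] H)) :
    Set (Lp H 2 ρ →L[ℂ] Lp H 2 ρ) :=
  {T | ∃ S, MeasurableSet S ∧ T = ind ρ H S} ∪ {T | ∃ a ∈ sc, T = a.compLpL 2 ρ}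

theorem Ws_eq : Ws ν sc = Wset (cdat ν hν) sc := rfl

/-- the constant operators (`H34.Ind.lam`) -/
noncomputable def lft {X Γ : Type} [MeasurableSpace X] [Group Γ] (ρ : Measure X)
    (R : Γ →* (H →L[ℂ] H)) : Γ →* (Lp H 2 ρ →L[ℂ] Lp H 2 ρ) where
  toFun g := (R g).compLpL 2 ρ
  map_one' := by rw [map_one]; exact comp_one
  map_mul' g h := by rw [map_mul]; exact comp_mul (R g) (R h)

theorem lft_eq {Γ : Type} [Group Γ] (R : Γ →* (H →L[ℂ] H)) : lft ν R = lam (cdat ν hν) R := rfl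

/-- the induced representation (`H34.Ind.pi`) -/
noncomputable def ipi (hR : ∀ γ, adjoint (R γ) = R γ⁻¹) : E →* (Lp H 2 ν →L[ℂ] Lp H 2 ν) :=
  pi (cdat ν hν) hR

theorem ipi_ae (hR : ∀ γ, adjoint (R γ) = R γ⁻¹) (g : E) (F : Lp H 2 ν) :
    ⇑(ipi hν hR g F) =ᵐ[ν] fun x => R (coc Λ g (g⁻¹ • x)) (F (g⁻¹ • x)) :=
  ri_ae (cdat ν hν) (norm_le_of_adj hR) g F

theorem dcm_of {X : Type} [MeasurableSpace X] {ρ : Measure X} {T : Lp H 2 ρ →L[ℂ] Lp H 2 ρ}
    (h : Cm (Ws ρ sc) T) : Dcm T := fun S hS => h _ (.inl ⟨S, hS, rfl⟩)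

include hν in
theorem ae_mk {p : E ⧸ Λ → Prop} (h : ∀ᵐ x ∂ν, p x) : ∀ᵐ y : E ∂μ, p (y : E ⧸ Λ) :=
  (Measure.absolutelyContinuous_isHaarMeasure μ Measure.haar).ae_le (ae_up hν h)

include hν in
theorem ae_sc {p : E → Prop} (h : ∀ᵐ y ∂μ, p y) : ∀ᵐ x ∂ν, ∀ v : Λ, p (sec Λ x * v) :=
  Vale.Agent.P092.H100.ae_sec hν
    ((Measure.absolutelyContinuous_isHaarMeasure Measure.haar μ).ae_le h)

include hν in
theorem unfold' {f : E → ℝ≥0∞} (hf : AEMeasurable f μ) :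
    ∫⁻ x, f x ∂μ = μ (fdom Λ) * ∫⁻ x, ∑' v : Λ, f (sec Λ x * v) ∂ν := by
  rw [lintegral_congr_ae hf.ae_eq_mk, unfold Λ ν hν μ hf.measurable_mk]
  congr 1
  exact lintegral_congr_ae
    ((ae_sc hν μ hf.ae_eq_mk).mono fun x hx => tsum_congr fun v => (hx v).symm)

theorem mk_sec (x : E ⧸ Λ) (v : Λ) : ((sec Λ x * v : E) : E ⧸ Λ) = x := by
  rw [QuotientGroup.mk_mul_of_mem _ v.2, sec_coe]

theorem kap_sec' (x : E ⧸ Λ) (v : Λ) : kap Λ (sec Λ x * v) = v := by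
  rw [kap_mul, kap_sec, one_mul]

theorem mem_fdom {y : E} : y ∈ fdom Λ ↔ kap Λ y = 1 := by
  rw [Subtype.ext_iff, kap_coe, OneMemClass.coe_one, inv_mul_eq_one]; rfl

/-- the range of the fundamental projection -/
abbrev rg (P : H →L[ℂ] H) : Submodule ℂ H := LinearMap.ker (1 - P).toLinearMap

theorem mem_rg {v : H} : v ∈ rg P ↔ P v = v := sub_eq_zero.trans eq_comm

namespace Hon

variable (h : Hon R sc P ξ)

/-- the projection with values in its range -/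
noncomputable def pr : H →L[ℂ] rg P := P.codRestrict _ fun v => mem_rg.2 (ap_eq h.idem v)

theorem pr_R (γ : Λ) (v : rg P) : h.pr (R γ v) = {δ | δ = 1}.indicator (fun _ => v) γ := by
  by_cases e : γ = 1
  · rw [Set.indicator_of_mem (by exact e), e, map_one]
    exact Subtype.ext (mem_rg.1 v.2)
  · rw [Set.indicator_of_notMem (by exact e), ← mem_rg.1 v.2]
    exact Subtype.ext (ap_eq (h.orth γ e) v)

/-- the normalisation -/
noncomputable def nc (Λ : Subgroup E) [DiscreteTopology Λ] [MeasurableSpace (E ⧸ Λ)]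
    [BorelSpace (E ⧸ Λ)] (μ : Measure E) : ℂ := ((√(μ.real (fdom Λ)))⁻¹ : ℝ)

include hν in
theorem nc_sq : ‖nc Λ μ‖ₑ ^ 2 * μ (fdom Λ) = 1 := by
  have h1 := (fdom_lt_top Λ ν hν μ).ne
  have h2 : 0 < μ.real (fdom Λ) := ENNReal.toReal_pos (fdom_pos Λ ν hν μ).ne' h1
  rw [nc, ← ofReal_norm, ← ENNReal.ofReal_pow (norm_nonneg _), Complex.norm_real, Real.norm_eq_abs,
    sq_abs, inv_pow, Real.sq_sqrt h2.le, ← ofReal_measureReal h1,
    ← ENNReal.ofReal_mul (by positivity), inv_mul_cancel₀ h2.ne', ENNReal.ofReal_one]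

/-- the unfolded function -/
noncomputable def uf (F : E ⧸ Λ → H) (y : E) : rg P := nc Λ μ • h.pr (R (kap Λ y)⁻¹ (F y))

theorem uf_meas (F : Lp H 2 ν) : AEStronglyMeasurable (h.uf μ F) μ :=
  (aesm_countable (k := kap Λ) (F := fun v y => h.pr (R v⁻¹ (F (y : E ⧸ Λ)))) kap_set fun v =>
    ((h.pr.continuous.comp (R v⁻¹).continuous).comp_stronglyMeasurable
      ((Lp.stronglyMeasurable F).comp_measurable (mk_meas Λ))).aestronglyMeasurable).const_smul
    (nc Λ μ)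

include hν in
theorem uf_sq (F : Lp H 2 ν) : ∫⁻ y, ‖h.uf μ F y‖ₑ ^ 2 ∂μ = ‖F‖ₑ ^ 2 := by
  rw [unfold' hν μ ((h.uf_meas μ F).enorm.pow_const 2)]
  simp only [uf, mk_sec, kap_sec', enorm_smul, mul_pow, ENNReal.tsum_mul_left]
  rw [lintegral_const_mul' _ _ (by finiteness), ← mul_assoc, mul_comm (μ _), nc_sq hν, one_mul,
    enorm_sq]
  exact lintegral_congr fun x => ((Equiv.inv Λ).tsum_eq fun v => ‖P (R v (F x))‖ₑ ^ 2).trans
    (h.sum _)

include hν in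
theorem uf_mem (F : Lp H 2 ν) : MemLp (h.uf μ F) 2 μ :=
  memLp_of_sq (h.uf_meas μ F) (by rw [h.uf_sq hν μ]; finiteness)

/-- the unfolding isometry -/
noncomputable def ui : Lp H 2 ν →ₗᵢ[ℂ] Lp (rg P) 2 μ where
  toFun F := (h.uf_mem hν μ F).toLp _
  map_add' F F' := by
    rw [← MemLp.toLp_add]
    exact MemLp.toLp_congr _ _ ((ae_mk hν μ (Lp.coeFn_add F F')).mono fun y hy => by
      simp only [uf, hy, Pi.add_apply, map_add, smul_add])
  map_smul' c F := by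
    rw [RingHom.id_apply, ← MemLp.toLp_const_smul]
    exact MemLp.toLp_congr _ _ ((ae_mk hν μ (Lp.coeFn_smul c F)).mono fun y hy => by
      simp only [uf, hy, Pi.smul_apply, map_smul, smul_comm c])
  norm_map' F :=
    norm_of_enorm_sq ((enorm_of_ae (h.uf_mem hν μ F).coeFn_toLp).trans (h.uf_sq hν μ F))

theorem ui_ae {F : Lp H 2 ν} {φ : E ⧸ Λ → H} (e : ⇑F =ᵐ[ν] φ) :
    ⇑(h.ui hν μ F) =ᵐ[μ] h.uf μ φ :=
  (h.uf_mem hν μ F).coeFn_toLp.trans ((ae_mk hν μ e).mono fun y hy => by simp only [uf, hy])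

theorem ui_surj : Function.Surjective (h.ui hν μ) := by
  have hc : CompleteSpace (LinearMap.range (h.ui hν μ).toLinearMap) :=
    (h.ui hν μ).isometry.isClosedEmbedding.isClosed_range.completeSpace_coe
  refine LinearMap.range_eq_top.1 (Submodule.orthogonal_eq_bot_iff.1
    ((Submodule.eq_bot_iff _).2 fun Φ hΦ => ?_))
  have h0 : nc Λ μ ≠ 0 := fun e => by simpa [e] using nc_sq hν μ
  have h1 : ∀ γ : Λ, ∀ᵐ y ∂μ, kap Λ y = γ → Φ y = 0 := fun γ => by
    have h2 : MemLp (fun x => R γ (Φ (sec Λ x * γ))) 2 ν := by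
      refine memLp_of_sq (((R γ).continuous.comp continuous_subtype_val).comp_stronglyMeasurable
        ((Lp.stronglyMeasurable Φ).comp_measurable (secmul_meas Λ γ))).aestronglyMeasurable
        (ne_top_of_le_ne_top (b := ∫⁻ x, ∑' v : Λ, ‖Φ (sec Λ x * v)‖ₑ ^ 2 ∂ν) (fun e => ?_)
          (lintegral_mono fun x => le_trans (le_of_eq ?_) (ENNReal.le_tsum γ)))
      · have h3 := (enorm_sq Φ).trans (unfold' hν μ (meas_sq Φ))
        rw [e, ENNReal.mul_top (fdom_pos Λ ν hν μ).ne'] at h3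
        exact ENNReal.pow_ne_top enorm_ne_top h3
      · rw [← ofReal_norm, norm_map_of_adj h.adj, ofReal_norm]; rfl
    have h3 : h.ui hν μ (h2.toLp _) = nc Λ μ • ind μ (rg P) {y | kap Λ y = γ} Φ := Lp.ext (by
      filter_upwards [h.ui_ae hν μ h2.coeFn_toLp, ind_ae (kap_set γ) Φ,
        Lp.coeFn_smul (nc Λ μ) (ind μ (rg P) {y | kap Λ y = γ} Φ)] with y a b c
      rw [a, c, Pi.smul_apply, b, uf, pi_ap, pr_R]
      by_cases e : kap Λ y = γ
      · rw [Set.indicator_of_mem (by simp [e]), Set.indicator_of_mem (by exact e), ← e, sec_mul_kap]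
      · rw [Set.indicator_of_notMem (by simpa [inv_mul_eq_one] using e),
          Set.indicator_of_notMem (by exact e)])
    have h4 := hΦ _ ⟨h2.toLp _, h3⟩
    rw [inner_smul_left, mul_eq_zero, map_eq_zero, or_iff_right h0, ← Set.inter_self {y | _},
      ← ind_mul (kap_set γ) (kap_set γ), mul_ap, ← adjoint_inner_right, adjoint_ind (kap_set γ),
      inner_self_eq_zero] at h4
    filter_upwards [ind_ae (kap_set γ) Φ, Lp.coeFn_zero (rg P) 2 μ] with y a b e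
    rw [h4, b, Set.indicator_of_mem (by exact e)] at a
    exact a.symm
  refine Lp.ext ?_
  filter_upwards [ae_all_iff.2 h1, Lp.coeFn_zero (rg P) 2 μ] with y a b
  rw [b, a _ rfl]; rfl

/-- the unfolding unitary -/
noncomputable def U : Lp H 2 ν ≃ₗᵢ[ℂ] Lp (rg P) 2 μ :=
  LinearIsometryEquiv.ofSurjective (h.ui hν μ) (h.ui_surj hν μ)

theorem U_ae {F : Lp H 2 ν} {φ : E ⧸ Λ → H} (e : ⇑F =ᵐ[ν] φ) :
    ⇑(h.U hν μ F) =ᵐ[μ] h.uf μ φ := h.ui_ae hν μ e

theorem U_const (γ : Λ) : ⇑(h.U hν μ (Lp.const 2 ν (R γ⁻¹ ξ))) =ᵐ[μ]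
    {y : E | y * γ ∈ fdom Λ}.indicator fun _ => nc Λ μ • (⟨ξ, mem_rg.2 h.fix⟩ : rg P) :=
  (h.U_ae hν μ (Lp.coeFn_const 2 ν _)).mono fun y hy => by
    have h1 := h.pr_R ((kap Λ y)⁻¹ * γ⁻¹) ⟨ξ, mem_rg.2 h.fix⟩
    have h2 : y * γ ∈ fdom Λ ↔ (kap Λ y)⁻¹ * γ⁻¹ = 1 := by
      rw [mem_fdom, kap_mul, inv_mul_eq_one, mul_eq_one_iff_eq_inv]
    rw [hy, uf, Function.const_apply, pi_ap, h1]
    by_cases e : y * γ ∈ fdom Λ
    · rw [Set.indicator_of_mem (by exact h2.1 e), Set.indicator_of_mem (by exact e)]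
    · rw [Set.indicator_of_notMem (by exact mt h2.2 e), Set.indicator_of_notMem (by exact e),
        smul_zero]

theorem U_mulL {f : E ⧸ Λ → ℂ} (hf : Bd f) (F : Lp H 2 ν) :
    h.U hν μ (mulL ν H f F) = mulL μ (rg P) (fun y => f y) (h.U hν μ F) := Lp.ext (by
  filter_upwards [h.U_ae hν μ (mulL_ae hf F), h.U_ae hν μ (F := F) EventuallyEq.rfl,
    mulL_ae (hf.comp (mk_meas Λ)) (h.U hν μ F)] with y a b c
  rw [a, c, b, uf, uf, map_smul, map_smul, smul_comm])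

theorem U_comp {a : H →L[ℂ] H} (h1 : a * P = P * a) (h2 : ∀ γ, a * R γ = R γ * a) (F : Lp H 2 ν) :
    h.U hν μ (a.compLpL 2 ν F) = (h.pr ∘L a ∘L (rg P).subtypeL).compLpL 2 μ (h.U hν μ F) :=
  Lp.ext (by
    filter_upwards [h.U_ae hν μ (fld_comp a F), h.U_ae hν μ (F := F) EventuallyEq.rfl,
      fld_comp (h.pr ∘L a ∘L (rg P).subtypeL) (h.U hν μ F)] with y a1 a2 a3
    rw [a1, a3, a2, uf, uf, map_smul]
    refine congrArg _ (Subtype.ext ?_)
    change P (R _ (a _)) = P (a (P _))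
    rw [← mul_ap a, h1, mul_ap, ← mul_ap P P, h.idem, ← mul_ap (R _), ← h2, mul_ap])

end Hon

theorem conj_comm {K K' : Type} [NormedAddCommGroup K] [InnerProductSpace ℂ K] [CompleteSpace K]
    [NormedAddCommGroup K'] [InnerProductSpace ℂ K'] [CompleteSpace K'] (U : K ≃ₗᵢ[ℂ] K')
    {w : K →L[ℂ] K} {w' M : K' →L[ℂ] K'} (e : ∀ F, U (w F) = w' (U F)) (h : w' * M = M * w') :
    U.symm.conjStarAlgEquiv M * w = w * U.symm.conjStarAlgEquiv M :=
  ContinuousLinearMap.ext fun F => U.injective (by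
    change U (U.symm (M (U (w F)))) = U (w (U.symm (M (U F))))
    rw [e, e, U.apply_symm_apply, U.apply_symm_apply, ← mul_ap, ← h, mul_ap])

theorem Dcm.mulL {X : Type} [MeasurableSpace X] {ρ : Measure X} [IsProbabilityMeasure ρ]
    {T : Lp H 2 ρ →L[ℂ] Lp H 2 ρ} (hT : Dcm T) {f : X → ℂ} (hf : Bd f) :
    T * mulL ρ H f = mulL ρ H f * T := by
  obtain ⟨B, _, ⟨b⟩⟩ := Vale.Agent.P092.H678.OV.exists_cb H
  obtain ⟨A, -, -, h⟩ := hT.exists_fld b
  exact Fld.mulL_comm h hf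

namespace Hon

variable (h : Hon R sc P ξ)

theorem U_inv {f : E → ℂ} (hf : Bd f) (e : ∀ (x : E) (γ : Λ), f (x * γ) = f x) :
    (h.U hν μ).symm.conjStarAlgEquiv (mulL μ (rg P) f) = mulL ν H fun x => f (sec Λ x) :=
  ContinuousLinearMap.ext fun F => (h.U hν μ).injective (by
    rw [h.U_mulL hν μ (hf.comp (sec_meas Λ))]
    rw [show (fun y : E => f (sec Λ y)) = f from funext fun y => by
      rw [← e (sec Λ _) (kap Λ y), sec_mul_kap]]
    exact (h.U hν μ).apply_symm_apply _)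

/-- **the side of an induced representation** -/
noncomputable def side : Side μ (Ws ν sc) where
  π := ipi hν h.adj
  K₀ := rg P
  U := h.U hν μ
  Γ := Λ
  D := fdom Λ
  ω := nc Λ μ • ⟨ξ, mem_rg.2 h.fix⟩
  Ω := Lp.const 2 ν ξ
  right := right_invariant Λ ν hν μ
  inv := inv_invariant Λ ν hν μ
  cnt := inferInstance
  disc := inferInstance
  mD := fdom_meas Λ
  vol := (fdom_lt_top Λ ν hν μ).ne
  fund := existsUnique_right Λ
  loc L hL := by
    obtain ⟨C, h1, h2⟩ := sec_bdd Λ _ (hL.image (QuotientGroup.continuous_mk (N := Λ)))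
    refine ⟨C, h1, fun x hx γ e => ?_⟩
    rw [(mul_mem_fdom_iff Λ x γ).1 e, mul_inv_cancel_left]
    exact h2 _ ⟨x, hx, rfl⟩
  UΩ := by
    have h1 := h.U_const hν μ 1
    simp only [inv_one, map_one, OneMemClass.coe_one, mul_one] at h1
    exact h1
  nΩ := by rw [Lp.norm_const _ _ _ two_ne_zero, h.nrm]; simp
  reg g F := by
    filter_upwards [h.U_ae hν μ (ipi_ae hν h.adj g F),
      (measurePreserving_mul_left μ g⁻¹).quasiMeasurePreserving.ae
        (h.U_ae hν μ (F := F) EventuallyEq.rfl)] with y a b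
    refine a.trans (Eq.trans ?_ b.symm)
    have e := kap_left (Λ := Λ) g (g⁻¹ * y)
    rw [mul_inv_cancel_left] at e
    rw [uf, uf, pi_ap, e, mul_inv_rev]
    exact congrArg (fun v => nc Λ μ • h.pr (R v _)) (inv_mul_cancel_right _ _)
  conj T hT g := AA.conj (d := cdat ν hν) h.adj h.scR g hT
  cm f hf := by
    rintro w (⟨S, hS, rfl⟩ | ⟨a, ha, rfl⟩)
    · rw [← mulL_ind hS]
      have hb := (Bd.ind hS).comp (mk_meas Λ)
      exact conj_comm _ (h.U_mulL hν μ (Bd.ind hS)) (Fld.mulL_comm (fld_mulL hb) hf)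
    · exact conj_comm _ (h.U_comp hν μ (h.scP a ha) (h.scR a ha)) (Fld.mulL_comm (fld_comp _) hf)
  cen f hf e T hT := by
    rw [h.U_inv hν μ hf e]
    exact Dcm.mulL (dcm_of hT) (hf.comp (sec_meas Λ))

theorem side_m {f : E → ℂ} (hf : Bd f) (e : ∀ (x : E) (γ : Λ), f (x * γ) = f x) :
    (h.side hν μ).m f = mulL ν H fun x => f (sec Λ x) := h.U_inv hν μ hf e

theorem side_Tr {T : Lp H 2 ν →L[ℂ] Lp H 2 ν} (hT : Cm (Ws ν sc) T) :
    (h.side hν μ).Tr T = μ (fdom Λ) * ∑' γ : Λ, ‖T (Lp.const 2 ν (R γ ξ))‖ₑ ^ 2 := by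
  rw [Side.Tr_eq_tsum _ hT, ← (Equiv.inv Λ).tsum_eq]
  congr 1
  refine tsum_congr fun γ => ?_
  rw [Side.ext_U _ (((h.side hν μ).U_Om γ).trans (h.U_const hν μ γ).symm)]
  rfl

end Hon

end Vale.Agent.P092CP
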