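import Vale.Agent.P092CP.Mul

/-!
P092, block P: the position calculus of one side of a coupling.
-/

set_option linter.unusedSectionVars false

open scoped InnerProductSpace ENNReal NNReal
open MeasureTheory Filter Topology ContinuousLinearMap

namespace Vale.Agent.P092CP

open Vale.Agent.P092.RC (Cm)

variable {G K : Type} [Group G] [TopologicalSpace G] [IsTopologicalGroup G] [LocallyCompactSpace G]
  [SecondCountableTopology G] [T2Space G] [MeasurableSpace G] [BorelSpace G]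
  [NormedAddCommGroup K] [InnerProductSpace ℂ K] [CompleteSpace K] {μ : Measure G}
  [μ.IsHaarMeasure] {W : Set (K →L[ℂ] K)} (S : Side μ W) {f g : G → ℂ} {A B : Set G}

namespace Side

theorem U_m (f : G → ℂ) (ξ : K) : S.U (S.m f ξ) = mulL μ S.K₀ f (S.U ξ) :=
  S.U.apply_symm_apply _

theorem m_ae (hf : Bd f) (ξ : K) : ⇑(S.U (S.m f ξ)) =ᵐ[μ] fun x => f x • S.U ξ x := by
  rw [U_m]; exact mulL_ae hf _

theorem ext_U {ξ η : K} (h : ⇑(S.U ξ) =ᵐ[μ] S.U η) : ξ = η := S.U.injective (Lp.ext h)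

theorem cm_m (hf : Bd f) : Cm W (S.m f) := S.cm f hf

theorem m_mul (hf : Bd f) (hg : Bd g) : S.m (f * g) = S.m f * S.m g := by
  rw [m, mulL_mul hf hg, map_mul]; rfl

theorem m_comm (hf : Bd f) (hg : Bd g) : S.m f * S.m g = S.m g * S.m f := by
  rw [← S.m_mul hf hg, ← S.m_mul hg hf, mul_comm]

theorem m_add (hf : Bd f) (hg : Bd g) : S.m (f + g) = S.m f + S.m g :=
  ContinuousLinearMap.ext fun ξ => S.U.injective <| by
    rw [U_m, mulL_add hf hg, add_apply (S.m f), S.U.map_add, U_m, U_m]; rfl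

theorem m_sub (hf : Bd f) (hg : Bd g) : S.m (f - g) = S.m f - S.m g := by
  rw [m, mulL_sub hf hg, map_sub]; rfl

theorem m_smul (c : ℂ) (hf : Bd f) : S.m (c • f) = c • S.m f :=
  ContinuousLinearMap.ext fun ξ => S.U.injective <| by
    rw [U_m, mulL_smul c hf]
    exact ((S.U.map_smul c (S.m f ξ)).trans (by rw [U_m]; rfl)).symm

theorem m_const (c : ℂ) : S.m (fun _ => c) = c • (1 : K →L[ℂ] K) :=
  ContinuousLinearMap.ext fun ξ => S.U.injective <| by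
    rw [U_m, mulL_const]
    exact (S.U.map_smul c ξ).symm

theorem m_one : S.m 1 = 1 := by rw [m, mulL_one, map_one]

theorem m_zero : S.m 0 = 0 := by rw [m, mulL_zero, map_zero]

theorem m_sum {ι : Type*} (s : Finset ι) {F : ι → G → ℂ} (h : ∀ i ∈ s, Bd (F i)) :
    S.m (∑ i ∈ s, F i) = ∑ i ∈ s, S.m (F i) := by
  classical
  induction s using Finset.induction_on with
  | empty => simpa using S.m_zero
  | insert a s ha ih =>
    rw [Finset.sum_insert ha, Finset.sum_insert ha, S.m_add (h a (Finset.mem_insert_self _ _))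
      (Bd.sum s fun i hi => h i (Finset.mem_insert_of_mem hi)),
      ih fun i hi => h i (Finset.mem_insert_of_mem hi)]

theorem star_m (hf : Bd f) : star (S.m f) = S.m (star f) := by
  rw [m, ← map_star, star_eq_adjoint, adjoint_mulL hf]; rfl

theorem adjoint_m (hf : Bd f) : adjoint (S.m f) = S.m (star f) := S.star_m hf

theorem m_congr (hf : Bd f) (hg : Bd g) (h : f =ᵐ[μ] g) : S.m f = S.m g := by
  rw [m, mulL_congr hf hg h]; rfl

theorem enorm_U (ξ : K) : ‖ξ‖ₑ ^ 2 = ∫⁻ x, ‖S.U ξ x‖ₑ ^ 2 ∂μ := by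
  rw [← enorm_sq, S.U.enorm_map]

theorem enorm_m (hf : Bd f) (ξ : K) :
    ‖S.m f ξ‖ₑ ^ 2 = ∫⁻ x, ‖f x‖ₑ ^ 2 * ‖S.U ξ x‖ₑ ^ 2 ∂μ := by
  rw [← enorm_mulL hf, ← U_m, S.U.enorm_map]

theorem inner_m (hf : Bd f) (ξ η : K) :
    ⟪ξ, S.m f η⟫_ℂ = ∫ x, f x * ⟪S.U ξ x, S.U η x⟫_ℂ ∂μ := by
  rw [← inner_mulL hf, ← U_m, S.U.inner_map_map]

theorem norm_m_le (hm : Measurable f) {C : ℝ} (h0 : 0 ≤ C) (h : ∀ x, ‖f x‖ ≤ C) : ‖S.m f‖ ≤ C :=
  opNorm_le_bound _ h0 fun ξ => by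
    rw [← S.U.norm_map, U_m, ← S.U.norm_map ξ]
    exact (le_opNorm _ _).trans (mul_le_mul_of_nonneg_right (norm_mulL_le hm h0 h) (norm_nonneg _))

/-- pointwise domination -/
theorem norm_m_mono (hf : Bd f) (hg : Bd g) (h : ∀ᵐ x ∂μ, ‖f x‖ ≤ ‖g x‖) (ξ : K) :
    ‖S.m f ξ‖ ≤ ‖S.m g ξ‖ := by
  rw [← S.U.norm_map, ← S.U.norm_map (S.m g ξ)]
  refine Lp.norm_le_norm_of_ae_le ?_
  filter_upwards [h, S.m_ae hf ξ, S.m_ae hg ξ] with x h1 h2 h3
  rw [h2, h3, norm_smul, norm_smul]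
  gcongr

/-- dominated convergence -/
theorem tendsto_m {ι : Type*} {l : Filter ι} [l.IsCountablyGenerated] {F : ι → G → ℂ} {C : ℝ}
    (hm : ∀ i, Measurable (F i)) (hC : ∀ i x, ‖F i x‖ ≤ C) (hf : Bd f)
    (h : ∀ᵐ x ∂μ, Tendsto (fun i => F i x) l (𝓝 (f x))) (ξ : K) :
    Tendsto (fun i => S.m (F i) ξ) l (𝓝 (S.m f ξ)) :=
  (S.U.symm.continuous.tendsto _).comp (tendsto_mulL hm hC hf h (S.U ξ))

open scoped ComplexOrder in
theorem m_nonneg (hf : Bd f) (h : ∀ x, 0 ≤ f x) : 0 ≤ S.m f := by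
  have h1 : Bd fun x => ((√(f x).re : ℝ) : ℂ) := by
    obtain ⟨C, hC⟩ := hf.bdd
    exact Bd.ofReal (Complex.measurable_re.comp hf.meas).sqrt (C := √C) fun x => by
      rw [abs_of_nonneg (Real.sqrt_nonneg _)]
      exact Real.sqrt_le_sqrt ((Complex.re_le_norm _).trans (hC x))
  have h2 : f = star (fun x => ((√(f x).re : ℝ) : ℂ)) * fun x => ((√(f x).re : ℝ) : ℂ) := by
    funext x
    have h3 := Complex.nonneg_iff.1 (h x)
    rw [Pi.mul_apply, Pi.star_apply, Complex.star_def, Complex.conj_ofReal, ← Complex.ofReal_mul,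
      Real.mul_self_sqrt h3.1]
    exact Complex.ext rfl h3.2.symm
  rw [h2, S.m_mul h1.star h1, ← S.star_m h1]
  exact star_mul_self_nonneg _

/-! ### projections -/

theorem cm_P (hA : MeasurableSet A) : Cm W (S.P A) := S.cm_m (Bd.ind hA)

theorem P_ae (hA : MeasurableSet A) (ξ : K) :
    ⇑(S.U (S.P A ξ)) =ᵐ[μ] A.indicator (S.U ξ) :=
  (S.m_ae (Bd.ind hA) ξ).mono fun x hx => by
    rw [P, hx]
    by_cases h : x ∈ A <;> simp [h]

theorem P_mul (hA : MeasurableSet A) (hB : MeasurableSet B) : S.P A * S.P B = S.P (A ∩ B) := by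
  rw [P, P, P, ← S.m_mul (Bd.ind hA) (Bd.ind hB), Set.inter_indicator_one]

theorem P_sq (hA : MeasurableSet A) : S.P A * S.P A = S.P A := by
  rw [S.P_mul hA hA, Set.inter_self]

theorem adjoint_P (hA : MeasurableSet A) : adjoint (S.P A) = S.P A := by
  rw [P, S.adjoint_m (Bd.ind hA)]
  congr 1
  funext x
  by_cases h : x ∈ A <;> simp [h]

theorem P_univ : S.P Set.univ = 1 := by rw [P, Set.indicator_univ, m_one]

theorem P_empty : S.P ∅ = 0 := by rw [P, Set.indicator_empty', m_zero]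

theorem P_compl (hA : MeasurableSet A) : S.P Aᶜ = 1 - S.P A := by
  rw [P, P, ← S.m_one, ← S.m_sub Bd.one (Bd.ind hA), Set.indicator_compl]

theorem norm_P_le (hA : MeasurableSet A) : ‖S.P A‖ ≤ 1 :=
  S.norm_m_le (Bd.ind hA).meas zero_le_one fun x => by by_cases h : x ∈ A <;> simp [h]

theorem enorm_P (hA : MeasurableSet A) (ξ : K) :
    ‖S.P A ξ‖ₑ ^ 2 = ∫⁻ x in A, ‖S.U ξ x‖ₑ ^ 2 ∂μ := by
  rw [S.enorm_U, ← lintegral_indicator hA]
  refine lintegral_congr_ae ((S.P_ae hA ξ).mono fun x hx => ?_)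
  by_cases h : x ∈ A <;> simp [hx, h]

theorem P_Ω : S.P S.D S.Ω = S.Ω := S.ext_U <| by
  filter_upwards [S.P_ae S.mD S.Ω, S.UΩ] with x h1 h2
  rw [h1]
  by_cases h : x ∈ S.D <;> simp [h2, h]

/-! ### the representation -/

theorem U_π (g : G) (ξ : K) : S.U (S.π g ξ) = DomMulAct.mk g⁻¹ • S.U ξ :=
  Lp.ext ((S.reg g ξ).trans (DomMulAct.smul_Lp_ae_eq (DomMulAct.mk g⁻¹) (S.U ξ)).symm)

theorem norm_π (g : G) (ξ : K) : ‖S.π g ξ‖ = ‖ξ‖ := by
  rw [← S.U.norm_map, U_π, DomMulAct.norm_smul_Lp, S.U.norm_map]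

theorem enorm_π (g : G) (ξ : K) : ‖S.π g ξ‖ₑ = ‖ξ‖ₑ := by
  rw [← ofReal_norm, S.norm_π, ofReal_norm]

theorem cont (ξ : K) : Continuous fun g => S.π g ξ := by
  have : Fact ((2 : ℝ≥0∞) ≠ ∞) := ⟨by norm_num⟩
  have h : Continuous fun g : G => S.U.symm (DomMulAct.mk g⁻¹ • S.U ξ) :=
    S.U.symm.continuous.comp
      ((DomMulAct.continuous_mk.comp continuous_inv).smul continuous_const)
  exact h.congr fun g => by rw [← U_π, S.U.symm_apply_apply]

theorem inner_π (g : G) (ξ η : K) : ⟪S.π g ξ, S.π g η⟫_ℂ = ⟪ξ, η⟫_ℂ :=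
  (LinearIsometry.mk (S.π g).toLinearMap (S.norm_π g)).inner_map_map ξ η

theorem adj (g : G) : adjoint (S.π g) = S.π g⁻¹ := by
  rw [eq_comm, eq_adjoint_iff]
  intro ξ η
  rw [← S.inner_π g, pi_ap_inv]

theorem star_π (g : G) : star (S.π g) = S.π g⁻¹ := S.adj g

theorem norm_π_le (g : G) : ‖S.π g‖ ≤ 1 :=
  opNorm_le_bound _ zero_le_one fun ξ => by rw [S.norm_π, one_mul]

theorem π_m (hf : Bd f) (g : G) : S.π g * S.m f = S.m (fun x => f (g⁻¹ * x)) * S.π g := by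
  refine ContinuousLinearMap.ext fun ξ => S.ext_U ?_
  filter_upwards [S.reg g (S.m f ξ), S.reg g ξ,
    (measurePreserving_mul_left μ g⁻¹).quasiMeasurePreserving.ae (S.m_ae hf ξ),
    S.m_ae (hf.comp (measurable_const_mul g⁻¹)) (S.π g ξ)] with x h1 h2 h3 h4
  exact h1.trans (h3.trans (h2 ▸ h4.symm))

/-- covariance -/
theorem cov (hf : Bd f) (g : G) : S.π g * S.m f * S.π g⁻¹ = S.m fun x => f (g⁻¹ * x) := by
  rw [S.π_m hf, mul_assoc, pi_mul_inv, mul_one]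

theorem π_P (hA : MeasurableSet A) (g : G) :
    S.π g * S.P A = S.P ((fun x => g⁻¹ * x) ⁻¹' A) * S.π g := S.π_m (Bd.ind hA) g

theorem meas_π (T : K →L[ℂ] K) (ξ : K) : Measurable fun g => ‖T (S.π g ξ)‖ₑ ^ 2 :=
  (T.continuous.comp (S.cont ξ)).enorm.measurable.pow_const 2

/-- `∫ β_g (m |f|²) dg = ∫ |f|²` -/
theorem lint_m (hf : Bd f) (ξ : K) :
    ∫⁻ g, ‖S.m f (S.π g ξ)‖ₑ ^ 2 ∂μ = (∫⁻ x, ‖f x‖ₑ ^ 2 ∂μ) * ‖ξ‖ₑ ^ 2 := by
  have := S.right
  have := S.inv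
  obtain ⟨φ, hφ, e⟩ := meas_sq (S.U ξ)
  have h0 := hf.meas.enorm.pow_const 2
  have h1 : ∀ g, ‖S.m f (S.π g ξ)‖ₑ ^ 2 = ∫⁻ x, ‖f x‖ₑ ^ 2 * φ (g⁻¹ * x) ∂μ := fun g => by
    rw [S.enorm_m hf]
    refine lintegral_congr_ae ?_
    filter_upwards [S.reg g ξ, (measurePreserving_mul_left μ g⁻¹).quasiMeasurePreserving.ae e]
      with x a b
    rw [a, b]
  simp_rw [h1]
  rw [lintegral_lintegral_swap ((h0.comp measurable_snd).mul
    (hφ.comp (measurable_fst.inv.mul measurable_snd))).aemeasurable, S.enorm_U,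
    lintegral_congr_ae e, ← lintegral_mul_const _ h0]
  refine lintegral_congr fun x => ?_
  rw [lintegral_const_mul (f := fun g => φ (g⁻¹ * x)) _ (hφ.comp (measurable_inv.mul_const x)),
    lintegral_inv_eq_self fun g => φ (g * x), lintegral_mul_right_eq_self]

theorem lint_P (hA : MeasurableSet A) (ξ : K) :
    ∫⁻ g, ‖S.P A (S.π g ξ)‖ₑ ^ 2 ∂μ = μ A * ‖ξ‖ₑ ^ 2 := by
  rw [P, S.lint_m (Bd.ind hA), ← lintegral_indicator_one hA]
  congr 1
  exact lintegral_congr fun x => by by_cases h : x ∈ A <;> simp [h]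

theorem vol_mul : μ S.D * ‖S.ω‖ₑ ^ 2 = 1 := by
  have h := S.enorm_U S.Ω
  rw [← ofReal_norm, S.nΩ, ENNReal.ofReal_one, one_pow] at h
  rw [h, mul_comm, ← setLIntegral_const, ← lintegral_indicator S.mD]
  refine lintegral_congr_ae (S.UΩ.mono fun x hx => ?_)
  by_cases h : x ∈ S.D <;> simp [hx, h]

theorem vol_ne : μ S.D ≠ 0 := fun h => by simpa [h] using S.vol_mul

end Side

end Vale.Agent.P092CP
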