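import Vale.Agent.P092CP.One

/-!
P092, block P: the flip `L²(Y; L²(X; H)) = L²(X; L²(Y; H))`, transport of a side.
-/

set_option linter.unusedSectionVars false
set_option linter.unusedVariables false

open scoped InnerProductSpace ENNReal NNReal
open MeasureTheory Filter Topology ContinuousLinearMap

namespace Vale.Agent.P092CP

open Vale.Agent.P092.RC (Cm TRN)
open Vale.Agent.P092.H790

/-- total families with the same Gram matrix -/
theorem exists_unitary {ι K K' : Type} [NormedAddCommGroup K] [InnerProductSpace ℂ K]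
    [CompleteSpace K] [NormedAddCommGroup K'] [InnerProductSpace ℂ K'] [CompleteSpace K']
    {u : ι → K} {v : ι → K'} (hu : (Submodule.span ℂ (Set.range u)).topologicalClosure = ⊤)
    (hv : (Submodule.span ℂ (Set.range v)).topologicalClosure = ⊤)
    (h : ∀ i j, ⟪v i, v j⟫_ℂ = ⟪u i, u j⟫_ℂ) : ∃ U : K ≃ₗᵢ[ℂ] K', ∀ i, U (u i) = v i := by
  have d1 : DenseRange (Finsupp.linearCombination ℂ u) := by
    rw [← Finsupp.range_linearCombination] at hu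
    exact Submodule.dense_iff_topologicalClosure_eq_top.2 hu
  have d2 : DenseRange (Finsupp.linearCombination ℂ v) := by
    rw [← Finsupp.range_linearCombination] at hv
    exact Submodule.dense_iff_topologicalClosure_eq_top.2 hv
  have hn : ∀ x, ‖Finsupp.linearCombination ℂ v (LinearEquiv.refl ℂ _ x)‖ =
      ‖Finsupp.linearCombination ℂ u x‖ := fun x => by
    rw [norm_eq_sqrt_re_inner (𝕜 := ℂ), norm_eq_sqrt_re_inner (𝕜 := ℂ)]
    simp only [LinearEquiv.refl_apply, Finsupp.linearCombination_apply, Finsupp.sum, sum_inner,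
      inner_sum, inner_smul_left, inner_smul_right, h]
  refine ⟨(LinearEquiv.refl ℂ _).extendOfIsometry _ _ d1 d2 hn, fun i => ?_⟩
  simpa using (LinearEquiv.refl ℂ _).extendOfIsometry_eq _ _ d1 d2 hn (Finsupp.single i 1)

theorem ext_total {K F : Type*} [NormedAddCommGroup K] [NormedSpace ℂ K] [NormedAddCommGroup F]
    [NormedSpace ℂ F] {s : Set K} (hs : (Submodule.span ℂ s).topologicalClosure = ⊤)
    {A B : K →L[ℂ] F} (h : ∀ ξ ∈ s, A ξ = B ξ) : A = B :=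
  ContinuousLinearMap.ext_on (Submodule.dense_iff_topologicalClosure_eq_top.2 hs) h

section tens

variable {X Y : Type} [MeasurableSpace X] [MeasurableSpace Y] {ρ : Measure X}
  [IsProbabilityMeasure ρ] {ρ' : Measure Y} [IsProbabilityMeasure ρ'] {H H' : Type}
  [NormedAddCommGroup H]
  [InnerProductSpace ℂ H] [CompleteSpace H] [NormedAddCommGroup H'] [InnerProductSpace ℂ H']
  [CompleteSpace H'] {A B : Set X}

/-- `v ↦ 1_A ⊗ v` -/
noncomputable def tens (ρ : Measure X) [IsProbabilityMeasure ρ] (H : Type) [NormedAddCommGroup H]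
    [InnerProductSpace ℂ H] (A : Set X) : H →L[ℂ] Lp H 2 ρ := ind ρ H A ∘L Lp.constL 2 ρ ℂ

theorem tens_ae (hA : MeasurableSet A) (v : H) :
    ⇑(tens ρ H A v) =ᵐ[ρ] A.indicator fun _ => v := by
  filter_upwards [ind_ae hA (Lp.const 2 ρ v), Lp.coeFn_const 2 ρ v] with x a b
  refine a.trans ?_
  by_cases h : x ∈ A
  · rw [Set.indicator_of_mem h, Set.indicator_of_mem h, b]; rfl
  · simp [h]

theorem tens_univ (v : H) : tens ρ H Set.univ v = Lp.const 2 ρ v := by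
  rw [tens, ind_univ]; rfl

theorem inner_tens (hA : MeasurableSet A) (hB : MeasurableSet B) (v w : H) :
    ⟪tens ρ H A v, tens ρ H B w⟫_ℂ = ρ.real (A ∩ B) • ⟪v, w⟫_ℂ := by
  rw [L2.inner_def, ← integral_indicator_const _ (hA.inter hB)]
  refine integral_congr_ae ?_
  filter_upwards [tens_ae (ρ := ρ) hA v, tens_ae (ρ := ρ) hB w] with x a b
  rw [a, b]
  by_cases h : x ∈ A <;> by_cases h' : x ∈ B <;> simp [h, h']

theorem comp_tens (hA : MeasurableSet A) (a : H →L[ℂ] H') (v : H) :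
    a.compLpL 2 ρ (tens ρ H A v) = tens ρ H' A (a v) := Lp.ext (by
  filter_upwards [a.coeFn_compLpL (tens ρ H A v), tens_ae (ρ := ρ) hA v,
    tens_ae (ρ := ρ) hA (a v)] with x h1 h2 h3
  rw [h1, h2, h3]
  by_cases h : x ∈ A <;> simp [h])

theorem comp_const (a : H →L[ℂ] H') (v : H) :
    a.compLpL 2 ρ (Lp.const 2 ρ v) = Lp.const 2 ρ (a v) := by
  rw [← tens_univ, comp_tens MeasurableSet.univ, tens_univ]

theorem mem_of_tens {S : Submodule ℂ (Lp H 2 ρ)} (hS : IsClosed (S : Set (Lp H 2 ρ)))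
    (h : ∀ A, MeasurableSet A → ∀ v, tens ρ H A v ∈ S) (F : Lp H 2 ρ) : F ∈ S :=
  Lp.induction (by norm_num) (· ∈ S) (fun c s hs _ => by
    rw [Lp.simpleFunc.coe_indicatorConst,
      Lp.ext (indicatorConstLp_coeFn.trans (tens_ae (ρ := ρ) hs c).symm)]
    exact h s hs c) (fun _ _ _ _ _ => S.add_mem) hS F

variable (ρ ρ' H)

theorem total_tens : (Submodule.span ℂ (Set.range fun p : {B : Set Y // MeasurableSet B} × H =>
    tens ρ' H p.1 p.2)).topologicalClosure = ⊤ :=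
  eq_top_iff.2 fun F _ => mem_of_tens (Submodule.isClosed_topologicalClosure _) (fun A hA v =>
    Submodule.le_topologicalClosure _ (Submodule.subset_span (by exact ⟨(⟨A, hA⟩, v), rfl⟩))) F

theorem exists_sw : ∃ U : Lp (Lp H 2 ρ) 2 ρ' ≃ₗᵢ[ℂ] Lp (Lp H 2 ρ') 2 ρ,
    ∀ p : {B : Set Y // MeasurableSet B} × Lp H 2 ρ,
      U (tens ρ' _ p.1 p.2) = (tens ρ' H p.1).compLpL 2 ρ p.2 := by
  refine exists_unitary (total_tens ρ' _) (eq_top_iff.2 fun F _ => mem_of_tens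
    (Submodule.isClosed_topologicalClosure _) (fun A hA v => ?_) F) fun p q => ?_
  · refine mem_of_tens (S := Submodule.comap (tens ρ (Lp H 2 ρ') A).toLinearMap
      (Submodule.topologicalClosure _))
      ((Submodule.isClosed_topologicalClosure _).preimage (tens ρ (Lp H 2 ρ') A).continuous)
      (fun B hB w => Submodule.le_topologicalClosure _ (Submodule.subset_span
        (by exact ⟨(⟨B, hB⟩, tens ρ H A w), comp_tens hA _ w⟩))) v
  · rw [inner_tens p.1.2 q.1.2, L2.inner_def, L2.inner_def, ← integral_smul]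
    refine integral_congr_ae ?_
    filter_upwards [(tens ρ' H p.1).coeFn_compLpL p.2, (tens ρ' H q.1).coeFn_compLpL q.2] with x a b
    rw [a, b, inner_tens p.1.2 q.1.2]

/-- the flip -/
noncomputable def sw : Lp (Lp H 2 ρ) 2 ρ' ≃ₗᵢ[ℂ] Lp (Lp H 2 ρ') 2 ρ := (exists_sw ρ ρ' H).choose

variable {ρ ρ' H}

theorem sw_tens {B : Set Y} (hB : MeasurableSet B) (F : Lp H 2 ρ) :
    sw ρ ρ' H (tens ρ' _ B F) = (tens ρ' H B).compLpL 2 ρ F :=
  (exists_sw ρ ρ' H).choose_spec (⟨B, hB⟩, F)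

theorem sw_const (v : H) :
    sw ρ ρ' H (Lp.const 2 ρ' (Lp.const 2 ρ v)) = Lp.const 2 ρ (Lp.const 2 ρ' v) := by
  rw [← tens_univ, sw_tens MeasurableSet.univ, comp_const, tens_univ]

theorem sw_sw (ξ : Lp (Lp H 2 ρ) 2 ρ') : sw ρ' ρ H (sw ρ ρ' H ξ) = ξ := by
  have h := ext_total (total_tens ρ' (Lp H 2 ρ)) (B := 1)
    (A := (sw ρ' ρ H).toContinuousLinearEquiv.toContinuousLinearMap ∘L
      (sw ρ ρ' H).toContinuousLinearEquiv.toContinuousLinearMap) (by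
    rintro _ ⟨⟨B, F⟩, rfl⟩
    have h1 := ext_total (total_tens ρ H) (B := tens ρ' _ B)
      (A := (sw ρ' ρ H).toContinuousLinearEquiv.toContinuousLinearMap ∘L
        (tens ρ' H B).compLpL 2 ρ) (by
      rintro _ ⟨⟨A, v⟩, rfl⟩
      change sw ρ' ρ H ((tens ρ' H B).compLpL 2 ρ (tens ρ H A v)) = _
      rw [comp_tens A.2, sw_tens A.2, comp_tens B.2])
    change sw ρ' ρ H (sw ρ ρ' H (tens ρ' _ B F)) = _
    rw [sw_tens B.2]
    exact DFunLike.congr_fun h1 F)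
  exact DFunLike.congr_fun h ξ

/-- `T'` is the operator `T` with an additional variable in the fibre -/
def Lf (ρ' : Measure Y) [IsProbabilityMeasure ρ'] (T : Lp H 2 ρ →L[ℂ] Lp H 2 ρ)
    (T' : Lp (Lp H 2 ρ') 2 ρ →L[ℂ] Lp (Lp H 2 ρ') 2 ρ) : Prop :=
  ∀ B, MeasurableSet B → ∀ F,
    T' ((tens ρ' H B).compLpL 2 ρ F) = (tens ρ' H B).compLpL 2 ρ (T F)

variable {T : Lp H 2 ρ →L[ℂ] Lp H 2 ρ} {T' : Lp (Lp H 2 ρ') 2 ρ →L[ℂ] Lp (Lp H 2 ρ') 2 ρ}

theorem Lf.sw (h : Lf ρ' T T') (ξ : Lp (Lp H 2 ρ) 2 ρ') :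
    sw ρ ρ' H (T.compLpL 2 ρ' ξ) = T' (sw ρ ρ' H ξ) := by
  have h1 := ext_total (total_tens ρ' (Lp H 2 ρ))
    (A := (P092CP.sw ρ ρ' H).toContinuousLinearEquiv.toContinuousLinearMap ∘L T.compLpL 2 ρ')
    (B := T' ∘L (P092CP.sw ρ ρ' H).toContinuousLinearEquiv.toContinuousLinearMap) (by
    rintro _ ⟨⟨B, F⟩, rfl⟩
    change P092CP.sw ρ ρ' H (T.compLpL 2 ρ' (tens ρ' _ B F)) = T' (P092CP.sw ρ ρ' H _)
    rw [comp_tens B.2, sw_tens B.2, sw_tens B.2, h _ B.2])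
  exact DFunLike.congr_fun h1 ξ

theorem Lf.sw' (h : Lf ρ' T T') (ξ : Lp (Lp H 2 ρ') 2 ρ) :
    P092CP.sw ρ' ρ H (T' ξ) = T.compLpL 2 ρ' (P092CP.sw ρ' ρ H ξ) := by
  conv_lhs => rw [← sw_sw ξ, ← h.sw, sw_sw]

theorem lf_of_fld {a : X → H →L[ℂ] H} {a' : X → Lp H 2 ρ' →L[ℂ] Lp H 2 ρ'} (h : Fld T a)
    (h' : Fld T' a') (e : ∀ x, a' x = (a x).compLpL 2 ρ') : Lf ρ' T T' := fun B hB F => Lp.ext (by
  filter_upwards [h' ((tens ρ' H B).compLpL 2 ρ F), (tens ρ' H B).coeFn_compLpL F,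
    (tens ρ' H B).coeFn_compLpL (T F), h F] with x h1 h2 h3 h4
  rw [h1, h2, h3, h4, e, comp_tens hB])

theorem lf_ind (hA : MeasurableSet A) : Lf ρ' (ind ρ H A) (ind ρ _ A) := by
  classical
  refine lf_of_fld (fld_ind hA) (fld_ind hA) fun x => ?_
  split_ifs
  · exact comp_one.symm
  · exact (fld_zero.ext (fld_comp 0) EventuallyEq.rfl)

theorem lf_comp (a : H →L[ℂ] H) : Lf ρ' (a.compLpL 2 ρ) ((a.compLpL 2 ρ').compLpL 2 ρ) :=
  lf_of_fld (fld_comp a) (fld_comp _) fun _ => rfl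

theorem sw_W {sc : Set (H →L[ℂ] H)} :
    ∀ w ∈ Ws ρ' (Ws ρ sc), ∃ w' ∈ Ws ρ (Ws ρ' sc), ∀ ξ, sw ρ ρ' H (w ξ) = w' (sw ρ ρ' H ξ) := by
  rintro _ (⟨S, hS, rfl⟩ | ⟨_, ⟨S, hS, rfl⟩ | ⟨a, ha, rfl⟩, rfl⟩)
  · exact ⟨_, .inr ⟨_, .inl ⟨S, hS, rfl⟩, rfl⟩, (lf_ind hS).sw'⟩
  · exact ⟨_, .inl ⟨S, hS, rfl⟩, (lf_ind hS).sw⟩
  · exact ⟨_, .inr ⟨_, .inr ⟨a, ha, rfl⟩, rfl⟩, (lf_comp a).sw⟩

end tens

section tp

variable {G K K' : Type} [Group G] [TopologicalSpace G] [MeasurableSpace G] {μ : Measure G}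
  [NormedAddCommGroup K] [InnerProductSpace ℂ K] [CompleteSpace K] [NormedAddCommGroup K']
  [InnerProductSpace ℂ K'] [CompleteSpace K'] {W : Set (K →L[ℂ] K)} {W' : Set (K' →L[ℂ] K')}

theorem conj_eq {U : K ≃ₗᵢ[ℂ] K'} {w : K →L[ℂ] K} {w' : K' →L[ℂ] K'}
    (e : ∀ ξ, U (w ξ) = w' (U ξ)) : U.symm.conjStarAlgEquiv w' = w :=
  ContinuousLinearMap.ext fun ξ => U.injective ((U.apply_symm_apply _).trans (e ξ).symm)

/-- `U` carries `W` to `W'` -/
structure Tp (U : K ≃ₗᵢ[ℂ] K') (W : Set (K →L[ℂ] K)) (W' : Set (K' →L[ℂ] K')) : Prop where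
  l : ∀ w ∈ W, ∃ w' ∈ W', ∀ ξ, U (w ξ) = w' (U ξ)
  r : ∀ w' ∈ W', ∃ w ∈ W, ∀ ξ, U.symm (w' ξ) = w (U.symm ξ)

variable {U : K ≃ₗᵢ[ℂ] K'}

theorem Tp.cm (h : Tp U W W') {T : K' →L[ℂ] K'} (hT : Cm W' T) :
    Cm W (U.symm.conjStarAlgEquiv T) := fun w hw => by
  obtain ⟨w', h1, h2⟩ := h.l w hw
  exact conj_comm U h2 (hT w' h1).symm

theorem Tp.cm' (h : Tp U W W') {T : K →L[ℂ] K} (hT : Cm W T) : Cm W' (U.conjStarAlgEquiv T) :=
  Tp.cm (U := U.symm) ⟨h.r, h.l⟩ hT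

theorem conj_back (U : K ≃ₗᵢ[ℂ] K') (T : K →L[ℂ] K) :
    U.symm.conjStarAlgEquiv (U.conjStarAlgEquiv T) = T :=
  conj_eq fun ξ => by simp

/-- transport of a side along a unitary -/
noncomputable def Side.tp (S : Side μ W') (h : Tp U W W') : Side μ W where
  π := ⟨⟨fun g => U.symm.conjStarAlgEquiv (S.π g), by rw [map_one, map_one]⟩, fun g g' => by
    simp only [map_mul]⟩
  K₀ := S.K₀
  U := U.trans S.U
  Γ := S.Γ
  D := S.D
  ω := S.ω
  Ω := U.symm S.Ω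
  right := S.right
  inv := S.inv
  cnt := S.cnt
  disc := S.disc
  mD := S.mD
  vol := S.vol
  fund := S.fund
  loc := S.loc
  UΩ := by simpa using S.UΩ
  nΩ := by rw [U.symm.norm_map, S.nΩ]
  reg g ξ := by simpa using S.reg g (U ξ)
  conj T hT g := by
    have h1 := h.cm (S.conj _ (h.cm' hT) g)
    rwa [map_mul, map_mul, conj_back] at h1
  cm f hf := h.cm (S.cm f hf)
  cen f hf e T hT := by
    have h1 := congrArg U.symm.conjStarAlgEquiv (S.cen f hf e _ (h.cm' hT))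
    rwa [map_mul, map_mul, conj_back] at h1

variable (S : Side μ W') (h : Tp U W W')

theorem Side.tp_π (g : G) : (S.tp h).π g = U.symm.conjStarAlgEquiv (S.π g) := rfl

theorem Side.tp_m (f : G → ℂ) : (S.tp h).m f = U.symm.conjStarAlgEquiv (S.m f) := rfl

theorem Side.tp_Tr (T : K →L[ℂ] K) : (S.tp h).Tr T = S.Tr (U.conjStarAlgEquiv T) :=
  lintegral_congr fun g => by
    change ‖T (U.symm (S.π g (U (U.symm S.Ω))))‖ₑ ^ 2 = ‖U (T (U.symm (S.π g S.Ω)))‖ₑ ^ 2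
    rw [U.apply_symm_apply, U.enorm_map]

end tp

end Vale.Agent.P092CP
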