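import Vale.Agent.P092CP.Pos

/-!
P092, block P: the trace of one side as a sum over the lattice.
-/

set_option linter.unusedSectionVars false
set_option linter.unusedVariables false

open scoped InnerProductSpace ENNReal NNReal
open MeasureTheory Filter Topology ContinuousLinearMap

namespace Vale.Agent.P092CP

open Vale.Agent.P092.RC (Cm)

variable {G K : Type} [Group G] [TopologicalSpace G] [IsTopologicalGroup G] [LocallyCompactSpace G]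
  [SecondCountableTopology G] [T2Space G] [MeasurableSpace G] [BorelSpace G]
  [NormedAddCommGroup K] [InnerProductSpace ℂ K] [CompleteSpace K] {μ : Measure G}
  [μ.IsHaarMeasure] {W : Set (K →L[ℂ] K)} (S : Side μ W) {f : G → ℂ} {A B : Set G}
  {T a x : K →L[ℂ] K}

theorem mul_ap (a b : K →L[ℂ] K) (ξ : K) : (a * b) ξ = a (b ξ) := rfl

theorem enorm_add_sq_le {E : Type*} [NormedAddCommGroup E] (u v : E) :
    ‖u + v‖ₑ ^ 2 ≤ 2 * ‖u‖ₑ ^ 2 + 2 * ‖v‖ₑ ^ 2 := by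
  have h : ‖u + v‖₊ ^ 2 ≤ 2 * ‖u‖₊ ^ 2 + 2 * ‖v‖₊ ^ 2 := by
    rw [← NNReal.coe_le_coe]
    push_cast
    nlinarith [sq_nonneg (‖u‖ - ‖v‖), pow_le_pow_left₀ (norm_nonneg _) (norm_add_le u v) 2]
  simp only [enorm_eq_nnnorm]
  exact_mod_cast h

namespace Side

/-- the translates of the fundamental domain -/
def cell (γ : S.Γ) : Set G := {x | x * γ ∈ S.D}

theorem meas_cell (γ : S.Γ) : MeasurableSet (S.cell γ) := measurable_mul_const (γ : G) S.mD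

theorem vol_cell (γ : S.Γ) : μ (S.cell γ) = μ S.D :=
  have := S.right
  measure_preimage_mul_right μ (γ : G) S.D

theorem cell_one : S.cell 1 = S.D := by simp [cell]

/-- the translates of the trace vector -/
noncomputable def Om (γ : S.Γ) : K :=
  S.U.symm (indicatorConstLp 2 (S.meas_cell γ) (S.vol_cell γ ▸ S.vol) S.ω)

theorem U_Om (γ : S.Γ) : ⇑(S.U (S.Om γ)) =ᵐ[μ] (S.cell γ).indicator fun _ => S.ω := by
  rw [Om, S.U.apply_symm_apply]; exact indicatorConstLp_coeFn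

theorem Om_one : S.Om 1 = S.Ω := S.ext_U <| (S.U_Om 1).trans (by rw [cell_one]; exact S.UΩ.symm)

theorem P_Om (γ : S.Γ) : S.P (S.cell γ) (S.Om γ) = S.Om γ := S.ext_U <| by
  filter_upwards [S.P_ae (S.meas_cell γ) (S.Om γ), S.U_Om γ] with x h1 h2
  rw [h1]
  by_cases h : x ∈ S.cell γ <;> simp [h2, h]

theorem P_Om_ne {γ δ : S.Γ} (h : δ ≠ γ) : S.P (S.cell δ) (S.Om γ) = 0 := by
  have e : S.cell δ ∩ S.cell γ = ∅ :=
    Set.eq_empty_of_forall_notMem fun x hx => h ((S.fund x).unique hx.1 hx.2)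
  rw [← S.P_Om γ]
  refine (ap_eq (S.P_mul (S.meas_cell δ) (S.meas_cell γ)) _).trans ?_
  rw [e, P_empty]; rfl

/-- Pythagoras for a countable partition -/
theorem enorm_tsum_P {ι : Type*} [Countable ι] {A : ι → Set G} (hA : ∀ i, MeasurableSet (A i))
    (h : ∀ x, ∃! i, x ∈ A i) (ξ : K) : ‖ξ‖ₑ ^ 2 = ∑' i, ‖S.P (A i) ξ‖ₑ ^ 2 := by
  simp_rw [S.enorm_P (hA _)]
  rw [← lintegral_iUnion hA fun i j hij => Set.disjoint_left.2 fun x h1 h2 =>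
    hij ((h x).unique h1 h2), Set.eq_univ_of_forall (s := ⋃ i, A i) fun x =>
      Set.mem_iUnion.2 (h x).exists, Measure.restrict_univ, S.enorm_U]

/-- the saturation of `g D ∩ D γ⁻¹` -/
def sat (γ : S.Γ) : Set (G × G) :=
  ⋃ δ : S.Γ, {p | p.2 * (δ * γ : S.Γ) ∈ S.D ∧ p.1⁻¹ * p.2 * δ ∈ S.D}

theorem meas_sat (γ : S.Γ) : MeasurableSet (S.sat γ) :=
  have := S.cnt
  MeasurableSet.iUnion fun δ => ((measurable_snd.mul_const _) S.mD).inter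
    (((measurable_fst.inv.mul measurable_snd).mul_const _) S.mD)

theorem mem_sat {γ : S.Γ} {g x : G} :
    (g, x) ∈ S.sat γ ↔ ∃ δ : S.Γ, x * (δ * γ : S.Γ) ∈ S.D ∧ g⁻¹ * x * δ ∈ S.D := Set.mem_iUnion

theorem sat_part (g x : G) : ∃! γ, (g, x) ∈ S.sat γ := by
  obtain ⟨δ, hδ, h1⟩ := S.fund (g⁻¹ * x)
  obtain ⟨c, hc, h2⟩ := S.fund x
  refine ⟨δ⁻¹ * c, S.mem_sat.2 ⟨δ, by rwa [mul_inv_cancel_left], hδ⟩, fun γ hγ => ?_⟩
  obtain ⟨δ', a, b⟩ := S.mem_sat.1 hγ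
  rw [← h1 _ b, ← h2 _ a, inv_mul_cancel_left]

theorem sat_inv (γ ε : S.Γ) (g x : G) : (g, x * ε) ∈ S.sat γ ↔ (g, x) ∈ S.sat γ := by
  simp only [mem_sat]
  constructor
  · rintro ⟨δ, a, b⟩
    exact ⟨ε * δ, by simpa [mul_assoc] using a, by simpa [mul_assoc] using b⟩
  · rintro ⟨δ, a, b⟩
    exact ⟨ε⁻¹ * δ, by simpa [mul_assoc] using a, by simpa [mul_assoc] using b⟩

theorem P_sat (γ : S.Γ) (g : G) :
    S.P (Prod.mk g ⁻¹' S.sat γ) (S.π g S.Ω) = S.P (Prod.mk g ⁻¹' S.sat γ) (S.Om γ) := by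
  have hm := measurable_prodMk_left (x := g) (S.meas_sat γ)
  refine S.ext_U ?_
  filter_upwards [S.P_ae hm (S.π g S.Ω), S.P_ae hm (S.Om γ), S.U_Om γ, S.reg g S.Ω,
    (measurePreserving_mul_left μ g⁻¹).quasiMeasurePreserving.ae S.UΩ] with x h1 h2 h3 h4 h5
  rw [h1, h2]
  by_cases h : x ∈ Prod.mk g ⁻¹' S.sat γ
  · obtain ⟨δ, a, b⟩ := S.mem_sat.1 h
    rw [Set.indicator_of_mem h, Set.indicator_of_mem h, h3, h4, h5]
    have e : g⁻¹ * x ∈ S.D ↔ x ∈ S.cell γ := ⟨fun c => by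
      have : δ = 1 := (S.fund (g⁻¹ * x)).unique b (by simpa using c)
      simpa [this, cell] using a, fun c => by
      have : δ = 1 := mul_eq_right.1 ((S.fund x).unique a c)
      simpa [this] using b⟩
    by_cases c : x ∈ S.cell γ <;> simp [c, e]
  · rw [Set.indicator_of_notMem h, Set.indicator_of_notMem h]

theorem lint_sat (γ : S.Γ) (ξ : K) :
    Measurable (fun g => ‖S.P (Prod.mk g ⁻¹' S.sat γ) ξ‖ₑ ^ 2) ∧
    ∫⁻ g, ‖S.P (Prod.mk g ⁻¹' S.sat γ) ξ‖ₑ ^ 2 ∂μ = μ S.D * ‖ξ‖ₑ ^ 2 := by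
  have := S.right
  have := S.inv
  obtain ⟨φ, hφ, e⟩ := meas_sq (S.U ξ)
  have h0 : Measurable ((S.sat γ).indicator fun p : G × G => φ p.2) :=
    (hφ.comp measurable_snd).indicator (S.meas_sat γ)
  have h1 : ∀ g, ‖S.P (Prod.mk g ⁻¹' S.sat γ) ξ‖ₑ ^ 2 =
      ∫⁻ x, (S.sat γ).indicator (fun p : G × G => φ p.2) (g, x) ∂μ := fun g => by
    have hm := measurable_prodMk_left (x := g) (S.meas_sat γ)
    rw [S.enorm_P hm, lintegral_congr_ae (ae_restrict_of_ae e), ← lintegral_indicator hm]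
    rfl
  simp_rw [h1]
  refine ⟨h0.lintegral_prod_right', ?_⟩
  rw [lintegral_lintegral_swap (by exact h0.aemeasurable), S.enorm_U, lintegral_congr_ae e,
    ← lintegral_const_mul _ hφ]
  refine lintegral_congr fun x => ?_
  obtain ⟨c, hc, h2⟩ := S.fund x
  have h3 : ∀ g, (S.sat γ).indicator (fun p : G × G => φ p.2) (g, x) =
      (Inv.inv ⁻¹' ((fun g => g * (x * (c * γ⁻¹ : S.Γ))) ⁻¹' S.D)).indicator
        (fun _ => φ x) g := fun g => by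
    have h4 : (g, x) ∈ S.sat γ ↔ g⁻¹ * (x * (c * γ⁻¹ : S.Γ)) ∈ S.D := by
      rw [mem_sat, ← mul_assoc]
      exact ⟨fun ⟨δ, a, b⟩ => by rwa [← h2 _ a, mul_inv_cancel_right],
        fun b => ⟨_, by rwa [inv_mul_cancel_right], b⟩⟩
    by_cases h : (g, x) ∈ S.sat γ
    · rw [Set.indicator_of_mem h, Set.indicator_of_mem (by exact h4.1 h)]
    · rw [Set.indicator_of_notMem h, Set.indicator_of_notMem (by exact mt h4.2 h)]
  simp_rw [h3]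
  rw [lintegral_indicator_const (measurable_inv (measurable_mul_const _ S.mD)),
    Measure.measure_preimage_inv, measure_preimage_mul_right, mul_comm]

/-- **the trace as a sum over the lattice** -/
theorem Tr_eq_tsum (hT : Cm W T) : S.Tr T = μ S.D * ∑' γ, ‖T (S.Om γ)‖ₑ ^ 2 := by
  have := S.cnt
  have hm := fun γ g => measurable_prodMk_left (x := g) (S.meas_sat γ)
  have h1 : ∀ g, ‖T (S.π g S.Ω)‖ₑ ^ 2 =
      ∑' γ, ‖S.P (Prod.mk g ⁻¹' S.sat γ) (T (S.Om γ))‖ₑ ^ 2 := fun g => by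
    rw [S.enorm_tsum_P (hm · g) (S.sat_part g)]
    refine tsum_congr fun γ => ?_
    have h : T * S.P (Prod.mk g ⁻¹' S.sat γ) = S.P (Prod.mk g ⁻¹' S.sat γ) * T :=
      S.cen _ (Bd.ind (hm γ g)) (fun x ε => by
        classical
        simp only [Set.indicator_apply, Set.mem_preimage, S.sat_inv, Pi.one_apply]) T hT
    rw [← show T (S.P _ _) = S.P _ (T _) from ap_eq h _,
      ← show T (S.P _ _) = S.P _ (T _) from ap_eq h _, P_sat]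
  rw [Tr, lintegral_congr h1, lintegral_tsum fun γ => (S.lint_sat γ _).1.aemeasurable,
    ← ENNReal.tsum_mul_left]
  exact tsum_congr fun γ => (S.lint_sat γ _).2

theorem Tr_mul_P (hT : Cm W T) (γ : S.Γ) :
    S.Tr (T * S.P (S.cell γ)) = μ S.D * ‖T (S.Om γ)‖ₑ ^ 2 := by
  rw [S.Tr_eq_tsum (cm_mul hT (S.cm_P (S.meas_cell γ))), tsum_eq_single γ fun δ h => by
    rw [mul_ap, S.P_Om_ne h.symm]; simp, mul_ap, P_Om]

theorem Tr_mul_PD (hT : Cm W T) : S.Tr (T * S.P S.D) = μ S.D * ‖T S.Ω‖ₑ ^ 2 := by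
  rw [← S.Om_one, ← S.Tr_mul_P hT, cell_one]

theorem Tr_m_mul (hf : Bd f) (hx : Cp S.π x) :
    S.Tr (S.m f * x) = (∫⁻ y, ‖f y‖ₑ ^ 2 ∂μ) * ‖x S.Ω‖ₑ ^ 2 := by
  rw [← S.lint_m hf]
  exact lintegral_congr fun g => by rw [mul_ap, hx.ap]

theorem Tr_P_mul (hA : MeasurableSet A) (hx : Cp S.π x) :
    S.Tr (S.P A * x) = μ A * ‖x S.Ω‖ₑ ^ 2 := by
  rw [← S.lint_P hA]
  exact lintegral_congr fun g => by rw [mul_ap, hx.ap]

theorem enorm_Ω : ‖S.Ω‖ₑ = 1 := by rw [← ofReal_norm, S.nΩ, ENNReal.ofReal_one]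

theorem Tr_m (hf : Bd f) : S.Tr (S.m f) = ∫⁻ y, ‖f y‖ₑ ^ 2 ∂μ := by
  rw [Tr, S.lint_m hf, enorm_Ω, one_pow, mul_one]

theorem Tr_P (hA : MeasurableSet A) : S.Tr (S.P A) = μ A := by
  rw [Tr, S.lint_P hA, enorm_Ω, one_pow, mul_one]

theorem Tr_cp (hx : Cp S.π x) : S.Tr x = μ Set.univ * ‖x S.Ω‖ₑ ^ 2 := by
  rw [← S.Tr_P_mul MeasurableSet.univ hx, P_univ, one_mul]

theorem Tr_zero : S.Tr 0 = 0 := by simp [Tr]

theorem Tr_smul (c : ℂ) (T : K →L[ℂ] K) : S.Tr (c • T) = ‖c‖ₑ ^ 2 * S.Tr T := by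
  rw [Tr, Tr, ← lintegral_const_mul _ (S.meas_π T _)]
  exact lintegral_congr fun g => by rw [smul_apply, enorm_smul, mul_pow]

theorem Tr_neg (T : K →L[ℂ] K) : S.Tr (-T) = S.Tr T :=
  lintegral_congr fun g => by rw [neg_apply, enorm_neg]

theorem Tr_sub_comm (T T' : K →L[ℂ] K) : S.Tr (T - T') = S.Tr (T' - T) := by
  rw [← S.Tr_neg, neg_sub]

theorem Tr_add_le (T T' : K →L[ℂ] K) : S.Tr (T + T') ≤ 2 * S.Tr T + 2 * S.Tr T' := by
  rw [Tr, Tr, Tr, ← lintegral_const_mul _ (S.meas_π T _), ← lintegral_const_mul _ (S.meas_π T' _),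
    ← lintegral_add_left ((S.meas_π T _).const_mul 2)]
  exact lintegral_mono fun g => enorm_add_sq_le _ _

theorem Tr_add_ne {T' : K →L[ℂ] K} (h : S.Tr T ≠ ∞) (h' : S.Tr T' ≠ ∞) : S.Tr (T + T') ≠ ∞ :=
  ne_top_of_le_ne_top (by finiteness) (S.Tr_add_le T T')

theorem Tr_sub_ne {T' : K →L[ℂ] K} (h : S.Tr T ≠ ∞) (h' : S.Tr T' ≠ ∞) : S.Tr (T - T') ≠ ∞ := by
  rw [sub_eq_add_neg]; exact S.Tr_add_ne h (by rwa [Tr_neg])

theorem Tr_mono {T' : K →L[ℂ] K} (h : ∀ ξ, ‖T ξ‖ ≤ ‖T' ξ‖) : S.Tr T ≤ S.Tr T' :=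
  lintegral_mono fun g => pow_le_pow_left' (enorm_le_iff_norm_le.2 (h _)) 2

theorem Tr_congr {T' : K →L[ℂ] K} (h : ∀ ξ, ‖T ξ‖ = ‖T' ξ‖) : S.Tr T = S.Tr T' :=
  le_antisymm (S.Tr_mono fun ξ => (h ξ).le) (S.Tr_mono fun ξ => (h ξ).ge)

theorem Tr_mul_le (a T : K →L[ℂ] K) : S.Tr (a * T) ≤ ‖a‖ₑ ^ 2 * S.Tr T := by
  rw [Tr, Tr, ← lintegral_const_mul _ (S.meas_π T _)]
  exact lintegral_mono fun g => by
    rw [← mul_pow]; exact pow_le_pow_left' (a.le_opENorm _) 2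

/-- orthogonal ranges: the trace is additive -/
theorem Tr_add_of_orth {T' : K →L[ℂ] K} (h : ∀ ξ, ⟪T ξ, T' ξ⟫_ℂ = 0) :
    S.Tr (T + T') = S.Tr T + S.Tr T' := by
  rw [Tr, Tr, Tr, ← lintegral_add_left (S.meas_π T _)]
  refine lintegral_congr fun g => ?_
  have h1 := norm_add_sq_eq_norm_sq_add_norm_sq_of_inner_eq_zero _ _ (h (S.π g S.Ω))
  simp only [← ofReal_norm, ← ENNReal.ofReal_pow (norm_nonneg _)]
  rw [← ENNReal.ofReal_add (sq_nonneg _) (sq_nonneg _), add_apply, sq, sq, sq, h1]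

theorem Tr_tsum_P {ι : Type*} [Countable ι] {A : ι → Set G} (hA : ∀ i, MeasurableSet (A i))
    (h : ∀ x, ∃! i, x ∈ A i) (T : K →L[ℂ] K) : S.Tr T = ∑' i, S.Tr (S.P (A i) * T) := by
  simp only [Tr]
  rw [← lintegral_tsum fun i => (S.meas_π (S.P (A i) * T) _).aemeasurable]
  exact lintegral_congr fun g => S.enorm_tsum_P hA h _

theorem Tr_mul_π (T : K →L[ℂ] K) (h : G) : S.Tr (T * S.π h) = S.Tr T := by
  rw [Tr, Tr, ← lintegral_mul_left_eq_self (fun g => ‖T (S.π g S.Ω)‖ₑ ^ 2) h]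
  exact lintegral_congr fun g => by rw [mul_ap, pi_ap]

theorem Tr_π_mul (T : K →L[ℂ] K) (h : G) : S.Tr (S.π h * T) = S.Tr T :=
  S.Tr_congr fun ξ => S.norm_π h _

theorem Tr_conj (T : K →L[ℂ] K) (h : G) : S.Tr (S.π h * T * S.π h⁻¹) = S.Tr T := by
  rw [Tr_mul_π, Tr_π_mul]

/-- lower semicontinuity of a sum of squares for weak convergence -/
theorem _root_.Vale.Agent.P092CP.tsum_le_of_weak {ι κ : Type*} {l : Filter ι} {u : ι → κ → K}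
    {v : κ → K} {c : ℝ≥0∞} (h : ∀ k η, Tendsto (fun i => ⟪η, u i k⟫_ℂ) l (𝓝 ⟪η, v k⟫_ℂ))
    (hc : ∃ᶠ i in l, ∑' k, ‖u i k‖ₑ ^ 2 ≤ c) : ∑' k, ‖v k‖ₑ ^ 2 ≤ c := by
  rcases eq_or_ne c ∞ with rfl | h0
  · exact le_top
  rw [ENNReal.tsum_eq_iSup_sum]
  refine iSup_le fun F => ?_
  have e : ∀ w : κ → K, ∑ k ∈ F, ‖w k‖ₑ ^ 2 = ENNReal.ofReal (∑ k ∈ F, ‖w k‖ ^ 2) := fun w => by
    rw [ENNReal.ofReal_sum_of_nonneg fun k _ => sq_nonneg _]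
    simp only [← ofReal_norm, ← ENNReal.ofReal_pow (norm_nonneg _)]
  rw [e, ENNReal.ofReal_le_iff_le_toReal h0]
  have h1 : Tendsto (fun i => ∑ k ∈ F, (2 * (⟪v k, u i k⟫_ℂ).re - ‖v k‖ ^ 2)) l
      (𝓝 (∑ k ∈ F, ‖v k‖ ^ 2)) := tendsto_finsetSum _ fun k _ => by
    have h2 := (((Complex.continuous_re.tendsto _).comp (h k (v k))).const_mul 2).sub_const
      (‖v k‖ ^ 2)
    have h3 : (⟪v k, v k⟫_ℂ).re = ‖v k‖ ^ 2 := inner_self_eq_norm_sq (𝕜 := ℂ) _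
    rwa [h3, show 2 * ‖v k‖ ^ 2 - ‖v k‖ ^ 2 = ‖v k‖ ^ 2 by ring] at h2
  refine isClosed_Iic.mem_of_frequently_of_tendsto (hc.mono fun i hi => ?_) h1
  have h4 := (ENNReal.sum_le_tsum F).trans hi
  rw [e, ENNReal.ofReal_le_iff_le_toReal h0] at h4
  refine (Finset.sum_le_sum fun k _ => ?_).trans h4
  have h5 := norm_sub_sq (𝕜 := ℂ) (v k) (u i k)
  have h6 := sq_nonneg ‖v k - u i k‖
  change _ = _ - 2 * (⟪v k, u i k⟫_ℂ).re + _ at h5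
  linarith

/-- **lower semicontinuity** of the trace for weak convergence along any filter -/
theorem Tr_le_of_weak {ι : Type*} {l : Filter ι} {F : ι → K →L[ℂ] K} {c : ℝ≥0∞}
    (hF : ∀ᶠ i in l, Cm W (F i)) (h : ∀ ξ η, Tendsto (fun i => ⟪η, F i ξ⟫_ℂ) l (𝓝 ⟪η, T ξ⟫_ℂ))
    (hc : ∃ᶠ i in l, S.Tr (F i) ≤ c) : S.Tr T ≤ c := by
  have : l.NeBot := (frequently_true_iff_neBot l).1 (hc.mono fun _ _ => trivial)
  rw [S.Tr_eq_tsum (cm_of_weak hF h), mul_comm,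
    ← ENNReal.le_div_iff_mul_le (.inl S.vol_ne) (.inl S.vol)]
  refine tsum_le_of_weak (u := fun i γ => F i (S.Om γ)) (fun γ => h _)
    ((hc.and_eventually hF).mono fun i hi => ?_)
  rw [ENNReal.le_div_iff_mul_le (.inl S.vol_ne) (.inl S.vol), mul_comm, ← S.Tr_eq_tsum hi.2]
  exact hi.1

theorem Tr_le_of_strong {ι : Type*} {l : Filter ι} {F : ι → K →L[ℂ] K} {c : ℝ≥0∞}
    (hF : ∀ᶠ i in l, Cm W (F i)) (h : ∀ ξ, Tendsto (fun i => F i ξ) l (𝓝 (T ξ)))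
    (hc : ∃ᶠ i in l, S.Tr (F i) ≤ c) : S.Tr T ≤ c :=
  S.Tr_le_of_weak hF (fun ξ _ => tendsto_const_nhds.inner (h ξ)) hc

end Side

end Vale.Agent.P092CP
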