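import Vale.Agent.P092CP.L2

/-!
P092, block P: density of the orbit of the commutant, the cocycle `u g` and the representation
`V g = (u g)* π g` which fixes the trace vector and commutes with the position calculus.
-/

set_option linter.unusedSectionVars false
set_option linter.unusedVariables false

open scoped InnerProductSpace ENNReal NNReal
open MeasureTheory Filter Topology ContinuousLinearMap

namespace Vale.Agent.P092CP

open Vale.Agent.P092.RC (Cm Moore)

variable {G G' K : Type} [Group G] [TopologicalSpace G] [IsTopologicalGroup G]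
  [LocallyCompactSpace G] [SecondCountableTopology G] [T2Space G] [MeasurableSpace G] [BorelSpace G]
  [Group G'] [TopologicalSpace G'] [IsTopologicalGroup G'] [LocallyCompactSpace G']
  [SecondCountableTopology G'] [T2Space G'] [MeasurableSpace G'] [BorelSpace G']
  [NormedAddCommGroup K] [InnerProductSpace ℂ K] [CompleteSpace K] {μ : Measure G}
  [μ.IsHaarMeasure] {μ' : Measure G'} [μ'.IsHaarMeasure] {W : Set (K →L[ℂ] K)}
  {T a x y : K →L[ℂ] K}

/-- the projection onto a reducing subspace commutes with the operator -/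
theorem proj_comm (S : Submodule ℂ K) [S.HasOrthogonalProjection] (h1 : ∀ ξ ∈ S, a ξ ∈ S)
    (h2 : ∀ ξ ∈ S, adjoint a ξ ∈ S) : S.starProjection * a = a * S.starProjection :=
  ContinuousLinearMap.ext fun ξ => Submodule.eq_starProjection_of_mem_orthogonal
    (h1 _ (S.starProjection_apply_mem ξ)) (by
      rw [Submodule.mem_orthogonal]
      intro η hη
      change ⟪η, a ξ - a (S.starProjection ξ)⟫_ℂ = 0
      rw [← map_sub, ← adjoint_inner_left]
      exact S.sub_starProjection_mem_orthogonal ξ _ (h2 η hη))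

theorem cl_map {s : Set K} (h : ∀ ξ ∈ s, a ξ ∈ (Submodule.span ℂ s).topologicalClosure) :
    ∀ ξ ∈ (Submodule.span ℂ s).topologicalClosure, a ξ ∈ (Submodule.span ℂ s).topologicalClosure :=
  fun ξ hξ => (Submodule.topologicalClosure_minimal _
    (t := Submodule.comap a.toLinearMap (Submodule.span ℂ s).topologicalClosure)
    (Submodule.span_le.2 fun ξ hξ => h ξ hξ) ((Submodule.isClosed_topologicalClosure _).preimage a.continuous)) hξ

/-- bounded families converge strongly if they do on a total set -/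
theorem tendsto_of_total {ι F : Type*} [NormedAddCommGroup F] [NormedSpace ℂ F] {l : Filter ι}
    {s : Set K} (hs : (Submodule.span ℂ s).topologicalClosure = ⊤) {A : ι → K →L[ℂ] F}
    {A₀ : K →L[ℂ] F} {c : ℝ} (hc : ∀ᶠ i in l, ‖A i‖ ≤ c)
    (h : ∀ ξ ∈ s, Tendsto (fun i => A i ξ) l (𝓝 (A₀ ξ))) (ξ : K) :
    Tendsto (fun i => A i ξ) l (𝓝 (A₀ ξ)) := by
  have g : Gns (Submodule.span ℂ s) id := ⟨fun _ _ _ _ => rfl, fun _ _ _ => rfl, by
    rw [Set.image_id]; exact Submodule.dense_iff_topologicalClosure_eq_top.2 hs⟩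
  refine g.tendsto (C := c) (hc.mono fun i hi ξ => (A i).le_of_opNorm_le hi ξ) (fun d hd => ?_) ξ
  refine Submodule.span_induction h (by simpa using tendsto_const_nhds) (fun x y _ _ a b => ?_) (fun c x _ a => ?_) hd
  · simpa only [id, map_add] using a.add b
  · simpa only [id, map_smul] using a.const_smul c

namespace Side

variable (S : Side μ W)

/-- the retraction onto the fundamental domain -/
noncomputable def r (x : G) : G := x * ((S.fund x).choose : S.Γ)

theorem r_mem (x : G) : S.r x ∈ S.D := (S.fund x).choose_spec.1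

theorem r_eq {x : G} {γ : S.Γ} (h : x * γ ∈ S.D) : S.r x = x * γ := by
  rw [r, (S.fund x).unique (S.fund x).choose_spec.1 h]

theorem r_mul (x : G) (γ : S.Γ) : S.r (x * γ) = S.r x := by
  obtain ⟨δ, h, -⟩ := S.fund (x * γ)
  rw [S.r_eq h, S.r_eq (x := x) (γ := γ * δ) (by simpa [mul_assoc] using h)]
  simp [mul_assoc]

theorem r_of_mem {x : G} (h : x ∈ S.D) : S.r x = x := by
  simpa using S.r_eq (x := x) (γ := 1) (by simpa using h)

theorem meas_r : Measurable S.r := fun A hA => by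
  have := S.cnt
  have e : S.r ⁻¹' A = ⋃ γ : S.Γ, S.cell γ ∩ (fun x => x * γ) ⁻¹' A := by
    ext x
    simp only [Set.mem_iUnion, Set.mem_preimage, Set.mem_inter_iff]
    exact ⟨fun h => ⟨_, S.r_mem x, h⟩, fun ⟨γ, a, b⟩ => by rwa [S.r_eq a]⟩
  rw [e]
  exact MeasurableSet.iUnion fun γ => (S.meas_cell γ).inter (measurable_mul_const _ hA)

theorem eq_zero_of_PD (h : ∀ g, T * S.π g * S.P S.D = 0) : T = 0 := by
  have h1 : adjoint T = 0 := ContinuousLinearMap.ext fun ξ => by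
    have h2 := S.lint_P S.mD (adjoint T ξ)
    have h3 : ∀ g, S.P S.D (S.π g (adjoint T ξ)) = 0 := fun g => by
      have := congrArg adjoint (h g⁻¹)
      rw [adj_mul, adj_mul, S.adjoint_P S.mD, S.adj, inv_inv, map_zero] at this
      exact ap_eq this ξ
    simpa [h3, S.vol_ne] using h2.symm
  rw [← adjoint_adjoint T, h1, map_zero]

/-- an operator which commutes with `π`, `P D` and the invariant functions commutes with `m` -/
theorem comm_m (h1 : Cp S.π T) (h2 : T * S.P S.D = S.P S.D * T)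
    (h3 : ∀ f : G → ℂ, Bd f → (∀ (x : G) (γ : S.Γ), f (x * γ) = f x) → T * S.m f = S.m f * T)
    {f : G → ℂ} (hf : Bd f) : T * S.m f = S.m f * T := by
  have e : ∀ {f : G → ℂ}, Bd f → (T * S.m f - S.m f * T) * S.P S.D = 0 := fun {f} hf => by
    have h4 : S.m f * S.P S.D = S.m (fun x => f (S.r x)) * S.P S.D := by
      rw [P, ← S.m_mul hf (Bd.ind S.mD), ← S.m_mul (hf.comp S.meas_r) (Bd.ind S.mD)]
      congr 1
      funext x
      by_cases h : x ∈ S.D <;> simp [h, S.r_of_mem]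
    rw [sub_mul, mul_assoc, mul_assoc, h2, ← mul_assoc (S.m f), h4, ← mul_assoc,
      h3 _ (hf.comp S.meas_r) fun x γ => by rw [S.r_mul], mul_assoc, h2, mul_assoc, sub_self]
  refine sub_eq_zero.1 (S.eq_zero_of_PD fun g => ?_)
  have h5 := S.π_m (hf.comp (measurable_const_mul g)) g
  simp only [mul_inv_cancel_left] at h5
  rw [sub_mul, mul_assoc T, ← h5, mul_assoc (S.m f), h1 g, ← mul_assoc T, h1 g,
    ← mul_assoc (S.m f), ← h5, mul_assoc (S.π g), mul_assoc (S.π g), ← mul_sub, mul_assoc,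
    e (hf.comp (measurable_const_mul g)), mul_zero]

end Side

namespace Cpl

variable (C : Cpl μ μ' W)

/-- the orbit of the trace vector under the commutant of `B` and the group is total -/
theorem total : (Submodule.span ℂ {ξ | ∃ w h, Cm {T | Cm W T} w ∧
    ξ = w (C.t.π h C.t.Ω)}).topologicalClosure = ⊤ := by
  set S := (Submodule.span ℂ {ξ | ∃ w h, Cm {T | Cm W T} w ∧
    ξ = w (C.t.π h C.t.Ω)}).topologicalClosure
  have h1 : ∀ w ∈ W, ∀ ξ ∈ S, w ξ ∈ S := fun w hw => cl_map (by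
    rintro _ ⟨w', h, a, rfl⟩
    exact Submodule.le_topologicalClosure _ (Submodule.subset_span
      ⟨w * w', h, cm_mul (fun T hT => (hT w hw).symm) a, rfl⟩))
  have h2 : (1 : K →L[ℂ] K) - S.starProjection = 0 := C.eq_zero_of_orbit
    (cm_sub cm_one fun w hw => proj_comm S (h1 w hw) (h1 _ (C.Wadj w hw))) fun g =>
      sub_eq_zero.2 (Submodule.starProjection_eq_self_iff.2 (Submodule.le_topologicalClosure _
        (Submodule.subset_span (by exact ⟨1, g, cm_one, rfl⟩)))).symm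
  exact eq_top_iff.2 fun ξ _ => Submodule.starProjection_eq_self_iff.1
    (ap_eq (sub_eq_zero.1 h2) ξ).symm

/-- on bounded subsets of `M` the `L²` topology is the strong topology -/
theorem tendsto_of_Ω {ι : Type*} {l : Filter ι} {F : ι → K →L[ℂ] K} {c : ℝ}
    (hF : ∀ᶠ i in l, C.t.M (F i) ∧ ‖F i‖ ≤ c) (hx : C.t.M x)
    (h : Tendsto (fun i => F i C.t.Ω) l (𝓝 (x C.t.Ω))) (ξ : K) :
    Tendsto (fun i => F i ξ) l (𝓝 (x ξ)) := by
  refine tendsto_of_total C.total (hF.mono fun _ h => h.2) ?_ ξ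
  rintro _ ⟨w, g, hw, rfl⟩
  have e : ∀ {y}, C.t.M y → w (C.t.π g (y C.t.Ω)) = y (w (C.t.π g C.t.Ω)) := fun {y} hy => by
    rw [← hy.2.ap]; exact ap_eq (hw y hy.1) _
  rw [← e hx]
  exact (((w * C.t.π g).continuous.tendsto _).comp h).congr' (hF.mono fun i hi => e hi.1)

theorem Tr_unit {u : K →L[ℂ] K} (hu : Cm W u) (h : u ∈ unitary (K →L[ℂ] K)) (hT : Cm W T) :
    C.t.Tr (adjoint u * T * u) = C.t.Tr T := by
  have e : ∀ T, C.t.Tr (adjoint u * T) = C.t.Tr T := fun T => C.t.Tr_congr fun ξ =>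
    norm_map_of_mem_unitary (Unitary.star_mem h) _
  rw [mul_assoc, e, ← C.tr_adj _ (cm_mul hT hu), adj_mul, e, C.tr_adj T hT]

/-- the unitary cocycle -/
noncomputable def u (g : G) : K →L[ℂ] K := (C.exu g).choose

theorem u_M (g : G) : C.t.M (C.u g) := (C.exu g).choose_spec.1

theorem u_unit (g : G) : C.u g ∈ unitary (K →L[ℂ] K) := (C.exu g).choose_spec.2.1

theorem u_Ω (g : G) : C.u g C.t.Ω = C.s.π g C.t.Ω := (C.exu g).choose_spec.2.2

theorem adj_u_mul (g : G) : adjoint (C.u g) * C.u g = 1 := (C.u_unit g).1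

theorem u_mul_adj (g : G) : C.u g * adjoint (C.u g) = 1 := (C.u_unit g).2

theorem norm_u (g : G) (ξ : K) : ‖C.u g ξ‖ = ‖ξ‖ := norm_map_of_mem_unitary (C.u_unit g) ξ

theorem norm_adj_u (g : G) (ξ : K) : ‖adjoint (C.u g) ξ‖ = ‖ξ‖ :=
  norm_map_of_mem_unitary (Unitary.star_mem (C.u_unit g)) ξ

theorem u_unique {g : G} (hx : C.t.M x) (h : x C.t.Ω = C.s.π g C.t.Ω) : x = C.u g :=
  C.eq_of_Ω hx (C.u_M g) (h.trans (C.u_Ω g).symm)

theorem u_one : C.u 1 = 1 := (C.u_unique C.t.M_one (by rw [map_one])).symm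

theorem u_mul (g h : G) : C.u (g * h) = C.s.π g * C.u h * C.s.π g⁻¹ * C.u g :=
  (C.u_unique ((C.M_σ (C.u_M h) g).mul (C.u_M g)) (by
    rw [mul_ap, mul_ap, mul_ap, u_Ω, pi_inv_ap, u_Ω, pi_ap])).symm

theorem cont_u (ξ : K) : Continuous fun g => C.u g ξ :=
  continuous_iff_continuousAt.2 fun g => C.tendsto_of_Ω (c := 1)
    (Eventually.of_forall fun g => ⟨C.u_M g, opNorm_le_bound _ zero_le_one fun ξ => by
      rw [norm_u, one_mul]⟩) (C.u_M g) (by simpa only [u_Ω] using (C.s.cont _).tendsto g) ξ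

/-- the representation which fixes the trace vector -/
noncomputable def V : G →* (K →L[ℂ] K) where
  toFun g := adjoint (C.u g) * C.s.π g
  map_one' := by rw [u_one, C.s.π.map_one, mul_one, adjoint_one]
  map_mul' g h := by
    rw [u_mul, adj_mul, Side.conj_adj, map_mul]
    simp only [mul_assoc]
    rw [← mul_assoc (C.s.π g⁻¹), pi_inv_mul, one_mul]

theorem V_def (g : G) : C.V g = adjoint (C.u g) * C.s.π g := rfl

theorem u_V (g : G) : C.u g * C.V g = C.s.π g := by rw [V_def, ← mul_assoc, u_mul_adj, one_mul]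

theorem V_Ω (g : G) : C.V g C.t.Ω = C.t.Ω := by
  rw [V_def, mul_ap, ← u_Ω]; exact ap_eq (C.adj_u_mul g) _

theorem norm_V (g : G) (ξ : K) : ‖C.V g ξ‖ = ‖ξ‖ := by rw [V_def, mul_ap, norm_adj_u, C.s.norm_π]

theorem adj_V (g : G) : adjoint (C.V g) = C.V g⁻¹ := by
  rw [eq_comm, eq_adjoint_iff]
  intro ξ η
  rw [← (LinearIsometry.mk (C.V g).toLinearMap (C.norm_V g)).inner_map_map]
  exact congrArg (fun ζ => ⟪ζ, C.V g η⟫_ℂ) (pi_ap_inv g ξ)

theorem V_inv (g : G) : C.V g⁻¹ = C.s.π g⁻¹ * C.u g := by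
  rw [← adj_V, V_def, adj_mul, adjoint_adjoint, C.s.adj]

theorem V_cp (g : G) : Cp C.t.π (C.V g) := fun h => by
  rw [V_def, mul_assoc, C.comm, ← mul_assoc, (C.M_adj (C.u_M g)).2 h, mul_assoc]

/-- `α g = Ad (V g) = Ad (u g)* ∘ σ g` -/
theorem V_conj (g : G) (T : K →L[ℂ] K) :
    C.V g * T * C.V g⁻¹ = adjoint (C.u g) * (C.s.π g * T * C.s.π g⁻¹) * C.u g := by
  rw [V_inv, V_def]; simp only [mul_assoc]

theorem cm_α (hT : Cm W T) (g : G) : Cm W (C.V g * T * C.V g⁻¹) := by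
  rw [V_conj]
  exact cm_mul (cm_mul (C.adj_cm (C.u_M g).1) (C.s.conj T hT g)) (C.u_M g).1

theorem M_α (hx : C.t.M x) (g : G) : C.t.M (C.V g * x * C.V g⁻¹) := by
  rw [V_conj]; exact ((C.M_adj (C.u_M g)).mul (C.M_σ hx g)).mul (C.u_M g)

theorem Tr_α (hT : Cm W T) (g : G) : C.t.Tr (C.V g * T * C.V g⁻¹) = C.t.Tr T := by
  rw [V_conj, C.Tr_unit (C.u_M g).1 (C.u_unit g) (C.s.conj T hT g), C.Tr_σ hT]

theorem α_Ω (g : G) (T : K →L[ℂ] K) : (C.V g * T * C.V g⁻¹) C.t.Ω = C.V g (T C.t.Ω) := by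
  rw [mul_ap, mul_ap, V_Ω]

theorem u_mul' (g h : G) : C.u (g * h) = C.u g * (C.V g * C.u h * C.V g⁻¹) := by
  rw [V_conj, u_mul, ← mul_assoc (C.u g), ← mul_assoc (C.u g), u_mul_adj, one_mul]

theorem V_PD (g : G) : C.V g * C.t.P C.t.D = C.t.P C.t.D * C.V g := by
  have hP := C.t.cm_P C.t.mD
  obtain ⟨Q, hQ⟩ : ∃ Q, Q = C.V g * C.t.P C.t.D * C.V g⁻¹ := ⟨_, rfl⟩
  have h1 : Cm W Q := hQ ▸ C.cm_α hP g
  have h2 : (1 - Q) * C.t.P C.t.D = 0 := C.tr_zero _ (cm_mul (cm_sub cm_one h1) hP) (by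
    rw [C.t.Tr_mul_PD (cm_sub cm_one h1), sub_apply, hQ, α_Ω, C.t.P_Ω, V_Ω]; simp)
  have h3 : C.t.P C.t.D * Q = C.t.P C.t.D := by
    have := congrArg adjoint h2
    rw [adj_mul, map_sub, adjoint_one, hQ, adj_mul, adj_mul, adj_V, adj_V, inv_inv,
      C.t.adjoint_P C.t.mD, ← mul_assoc (C.V g), ← hQ, map_zero, mul_sub, mul_one] at this
    exact (sub_eq_zero.1 this).symm
  have h4 := C.t.Tr_add_of_orth (T := C.t.P C.t.D * Q) (T' := C.t.P C.t.Dᶜ * Q) fun ξ => by
    rw [mul_ap, mul_ap, ← adjoint_inner_right, C.t.adjoint_P C.t.mD, ← mul_ap,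
      C.t.P_mul C.t.mD C.t.mD.compl, Set.inter_compl_self, Side.P_empty]
    exact inner_zero_right _
  rw [← add_mul, C.t.P_compl C.t.mD, add_sub_cancel, one_mul, h3, hQ, C.Tr_α hP, ← hQ,
    C.t.Tr_P C.t.mD] at h4
  have h5 := C.tr_zero _ (cm_mul (cm_sub cm_one hP) h1)
    ((ENNReal.add_right_inj C.t.vol).1 (h4.symm.trans (add_zero _).symm))
  rw [sub_mul, one_mul, h3, sub_eq_zero] at h5
  conv_rhs => rw [← h5, hQ, mul_assoc, pi_inv_mul, mul_one]

/-- `V` commutes with the position calculus -/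
theorem V_m (g : G) {f : G' → ℂ} (hf : Bd f) : C.V g * C.t.m f = C.t.m f * C.V g :=
  C.t.comm_m (C.V_cp g) (C.V_PD g) (fun f hf h => by
    have h1 : adjoint (C.u g) * C.t.m f = C.t.m f * adjoint (C.u g) :=
      C.t.cen f hf h _ (C.adj_cm (C.u_M g).1)
    rw [V_def, mul_assoc, ← C.mc f hf h g, ← mul_assoc, h1, mul_assoc]) hf

/-- `σ g (m f) = u g * m f * (u g)*` -/
theorem σ_m (g : G) {f : G' → ℂ} (hf : Bd f) :
    C.s.π g * C.t.m f * C.s.π g⁻¹ = C.u g * C.t.m f * adjoint (C.u g) := by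
  rw [← C.u_V g, mul_assoc (C.u g), C.V_m g hf, V_def]
  simp only [mul_assoc]
  rw [pi_mul_inv, mul_one]

theorem cont_V (ξ : K) : Continuous fun g => C.V g ξ := by
  have h : Continuous fun g => C.V g⁻¹ ξ := continuous_iff_continuousAt.2 fun g₀ => by
    have h2 : Tendsto (fun g => C.s.π g⁻¹ (C.u g ξ - C.u g₀ ξ)) (𝓝 g₀) (𝓝 0) := by
      rw [tendsto_zero_iff_norm_tendsto_zero]
      simp_rw [C.s.norm_π]
      exact tendsto_iff_norm_sub_tendsto_zero.1 ((C.cont_u ξ).tendsto g₀)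
    have h3 := (((C.s.cont (C.u g₀ ξ)).comp continuous_inv).tendsto g₀).add h2
    rw [add_zero] at h3
    simp only [ContinuousAt, V_inv, mul_ap]
    exact h3.congr fun g => by rw [map_sub]; exact add_sub_cancel _ _
  simpa [Function.comp_def] using h.comp continuous_inv

end Cpl

end Vale.Agent.P092CP
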